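import Vale.Agent.P042.H284.SubK

/-!
# P042: one extra coordinate `oo`

The types are `Option J`; `none` is the type of one extra coordinate, of size `0`.
* `E_oo`: the coefficients with one `oo` are the convolution of the rooted cumulants with the
  coefficients without `oo`;
* `zF_some`, `zF_none`: sets of coordinates of `Option ι`;
* `BO`, `H_of_BO`: block [C] with root `oo`;
* `D_oo`, `star_in`: the bounds (E*), (D*) for the moduli `m`.
-/

open Finset

set_option linter.unusedSectionVars false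

namespace Vale.Agent.P042.H284

open Vale.Agent.P042.H159 (MC)
open Vale.Agent.P042.H232 (xo Mn Tn co_kernel cv_xo mn_zero mc_mn sp)
open Vale.Agent.P042.H365 (rsub msub lsub msub_sum sp_map)
open Vale.Agent.P042.H461 (push sum_push)

universe u v u1 u2

section opt

variable {J : Type v} [Fintype J] [DecidableEq J]

theorem fa_some (τ : Multiset J) :
    fa (Multiset.toFinsupp (τ.map some)) = fa (Multiset.toFinsupp τ) := by
  unfold fa
  rw [Fintype.prod_option]
  have h0 : Multiset.toFinsupp (τ.map some) none = 0 := by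
    rw [Multiset.toFinsupp_apply, Multiset.count_eq_zero]
    simp
  rw [h0, Nat.factorial_zero, Nat.cast_one, one_mul]
  refine Finset.prod_congr rfl fun j _ => ?_
  rw [Multiset.toFinsupp_apply, Multiset.toFinsupp_apply,
    Multiset.count_map_eq_count' some τ (Option.some_injective J)]

theorem fa_none (τ : Multiset J) :
    fa (Multiset.toFinsupp (none ::ₘ τ.map some)) = fa (Multiset.toFinsupp τ) := by
  unfold fa
  rw [Fintype.prod_option]
  have h0 : Multiset.toFinsupp (none ::ₘ τ.map some) none = 1 := by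
    rw [Multiset.toFinsupp_apply, Multiset.count_cons_self, Nat.add_eq_right,
      Multiset.count_eq_zero]
    simp
  rw [h0, Nat.factorial_one, Nat.cast_one, one_mul]
  refine Finset.prod_congr rfl fun j _ => ?_
  rw [Multiset.toFinsupp_apply, Multiset.toFinsupp_apply,
    Multiset.count_cons_of_ne (by simp), Multiset.count_map_eq_count' some τ
      (Option.some_injective J)]

theorem toM_some (a : J →₀ ℕ) :
    Finsupp.toMultiset (a.mapDomain (some : J → Option J)) = (Finsupp.toMultiset a).map some := by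
  rw [Finsupp.toMultiset_map]

theorem toM_none (a : J →₀ ℕ) :
    Finsupp.toMultiset (a.mapDomain (some : J → Option J) + Finsupp.single none 1) =
      none ::ₘ (Finsupp.toMultiset a).map some := by
  rw [map_add, Finsupp.toMultiset_single, one_smul, add_comm, Multiset.singleton_add, toM_some]

theorem co_some (z : Multiset (Option J) → ℝ) (a : J →₀ ℕ) :
    co z (a.mapDomain (some : J → Option J)) = co (fun t => z (t.map some)) a := by
  unfold co
  rw [toM_some]
  congr 1
  have h := fa_some (Finsupp.toMultiset a)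
  rw [← toM_some, Finsupp.toMultiset_toFinsupp, Finsupp.toMultiset_toFinsupp] at h
  exact h

theorem co_none (z : Multiset (Option J) → ℝ) (a : J →₀ ℕ) :
    co z (a.mapDomain (some : J → Option J) + Finsupp.single none 1) =
      co (fun t => z (none ::ₘ t.map some)) a := by
  unfold co
  rw [toM_none]
  congr 1
  have h := fa_none (Finsupp.toMultiset a)
  rw [← toM_none, Finsupp.toMultiset_toFinsupp, Finsupp.toMultiset_toFinsupp] at h
  exact h

/-- **The coefficients with one `oo`.** -/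
theorem E_oo {z w : Multiset (Option J) → ℝ} (h : MC z w) (a : J →₀ ℕ) :
    co z (a.mapDomain (some : J → Option J) + Finsupp.single none 1) =
      ∑ x ∈ antidiagonal a, co w (x.1.mapDomain (some : J → Option J) + Finsupp.single none 1) *
        co z (x.2.mapDomain (some : J → Option J)) := by
  simp only [co_none, co_some]
  have h1 := h none ((Finsupp.toMultiset a).map some)
  have h2 : z (none ::ₘ (Finsupp.toMultiset a).map some) =
      ((Finsupp.toMultiset a).antidiagonal.map fun p =>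
        w (none ::ₘ p.1.map some) * z (p.2.map some)).sum := by
    rw [h1]
    exact sp_map some (Finsupp.toMultiset a) fun x y => w (none ::ₘ x) * z y
  have h3 := anti_sum (Finsupp.toMultiset a) fun x y => w (none ::ₘ x.map some) * z (y.map some)
  rw [← h2, Finsupp.toMultiset_toFinsupp] at h3
  have h7 : fa a ≠ 0 := (fa_pos _).ne'
  show z (none ::ₘ (Finsupp.toMultiset a).map some) / fa a = _
  rw [h3, Finset.sum_div]
  refine Finset.sum_congr rfl fun x _ => ?_
  unfold co
  have h8 : fa x.2 ≠ 0 := (fa_pos _).ne'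
  have h9 : fa x.1 ≠ 0 := (fa_pos _).ne'
  field_simp

variable {ι : Type u1} [Fintype ι] [DecidableEq ι]

/-- Sets of ordinary coordinates. -/
theorem zF_some (sc : ι → J) (f : Finset (Option ι) → ℝ) (τ : Multiset J) :
    zF (Option.map sc) f (τ.map some) = zF sc (fun B => f (B.map Function.Embedding.some)) τ := by
  unfold zF
  rw [fa_some]
  congr 1
  symm
  refine Finset.sum_bij' (fun B _ => B.map Function.Embedding.some) (fun B _ => B.eraseNone)
    ?_ ?_ ?_ ?_ ?_
  · intro B hB
    rw [Finset.mem_filter] at hB ⊢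
    refine ⟨Finset.mem_powerset.2 (Finset.subset_univ _), ?_⟩
    rw [← hB.2, Finset.map_val, Multiset.map_map, Multiset.map_map]
    rfl
  · intro B hB
    rw [Finset.mem_filter] at hB ⊢
    refine ⟨Finset.mem_powerset.2 (Finset.subset_univ _), ?_⟩
    have hn : none ∉ B := fun h => by
      have h1 : Option.map sc none ∈ B.val.map (Option.map sc) := Multiset.mem_map_of_mem _ h
      rw [hB.2] at h1
      simp at h1
    have h2 : B = B.eraseNone.map Function.Embedding.some := by
      rw [Finset.map_some_eraseNone, Finset.erase_eq_of_notMem hn]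
    have h3 := hB.2
    rw [h2, Finset.map_val, Multiset.map_map] at h3
    apply Multiset.map_injective (Option.some_injective J)
    rw [← h3, Multiset.map_map]
    rfl
  · intro B _
    exact Finset.eraseNone_map_some B
  · intro B hB
    rw [Finset.mem_filter] at hB
    have hn : none ∉ B := fun h => by
      have h1 : Option.map sc none ∈ B.val.map (Option.map sc) := Multiset.mem_map_of_mem _ h
      rw [hB.2] at h1
      simp at h1
    rw [Finset.map_some_eraseNone, Finset.erase_eq_of_notMem hn]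
  · intro B _
    rfl

theorem insertNone_val (B : Finset ι) :
    (Finset.insertNone B).val = none ::ₘ B.val.map some := rfl

/-- Sets with the extra coordinate. -/
theorem zF_none (sc : ι → J) (f : Finset (Option ι) → ℝ) (τ : Multiset J) :
    zF (Option.map sc) f (none ::ₘ τ.map some) =
      zF sc (fun B => f (Finset.insertNone B)) τ := by
  unfold zF
  rw [fa_none]
  congr 1
  symm
  have hmem : ∀ B : Finset (Option ι), B.val.map (Option.map sc) = none ::ₘ τ.map some →
      none ∈ B := by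
    intro B hB
    have h1 : (none : Option J) ∈ B.val.map (Option.map sc) := by
      rw [hB]
      exact Multiset.mem_cons_self _ _
    obtain ⟨i, hi, hin⟩ := Multiset.mem_map.1 h1
    cases i with
    | none => exact hi
    | some i => simp at hin
  refine Finset.sum_bij' (fun B _ => Finset.insertNone B) (fun B _ => B.eraseNone)
    ?_ ?_ ?_ ?_ ?_
  · intro B hB
    rw [Finset.mem_filter] at hB ⊢
    refine ⟨Finset.mem_powerset.2 (Finset.subset_univ _), ?_⟩
    rw [← hB.2, insertNone_val, Multiset.map_cons, Multiset.map_map, Multiset.map_map]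
    rfl
  · intro B hB
    rw [Finset.mem_filter] at hB ⊢
    refine ⟨Finset.mem_powerset.2 (Finset.subset_univ _), ?_⟩
    have hn := hmem B hB.2
    have h2 : B = Finset.insertNone B.eraseNone := by
      rw [Finset.insertNone_eraseNone, Finset.insert_eq_of_mem hn]
    have h3 := hB.2
    rw [h2, insertNone_val, Multiset.map_cons, Multiset.map_map] at h3
    have h4 := (Multiset.cons_inj_right (none : Option J)).1 h3
    apply Multiset.map_injective (Option.some_injective J)
    rw [← h4, Multiset.map_map]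
    rfl
  · intro B _
    exact Finset.eraseNone_insertNone B
  · intro B hB
    rw [Finset.mem_filter] at hB
    rw [Finset.insertNone_eraseNone, Finset.insert_eq_of_mem (hmem B hB.2)]
  · intro B _
    rfl

/-- (E*) for a family on the sets of coordinates of `Option ι`. -/
theorem E_star (sc : ι → J) {f : Finset (Option ι) → ℝ} (hf : f ∅ = 1) (a : J →₀ ℕ) :
    ∑ B ∈ (univ : Finset ι).powerset.filter (fun B => tyi sc B = a), f (Finset.insertNone B) =
      ∑ x ∈ antidiagonal a,
        co (wF (Option.map sc) f) (x.1.mapDomain (some : J → Option J) + Finsupp.single none 1) *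
        co (zF sc fun B => f (B.map Function.Embedding.some)) x.2 := by
  have h := E_oo (mc_wF (Option.map sc) hf) a
  rw [co_none] at h
  have h1 : (fun t : Multiset J => zF (Option.map sc) f (none ::ₘ t.map some)) =
      zF sc fun B => f (Finset.insertNone B) := funext fun t => zF_none sc f t
  rw [h1, co_zF] at h
  rw [h]
  refine Finset.sum_congr rfl fun x _ => ?_
  congr 1
  rw [co_some]
  have h2 : (fun t : Multiset J => zF (Option.map sc) f (t.map some)) =
      zF sc fun B => f (B.map Function.Embedding.some) := funext fun t => zF_some sc f t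
  rw [h2]

end opt

section bo

variable {ι : Type u1} [Fintype ι] [DecidableEq ι] {V : ι → Type u2} [∀ i, Fintype (V i)]
  [∀ i, DecidableEq (V i)] {J : Type v} [Fintype J] [DecidableEq J]

/-- The sizes of the types; the extra type has size `0`. -/
def eo (ell : J → ℝ) (l : Option J) : ℝ := l.elim 0 ell

@[simp] theorem eo_none (ell : J → ℝ) : eo ell none = 0 := rfl

@[simp] theorem eo_some (ell : J → ℝ) (j : J) : eo ell (some j) = ell j := rfl

/-- **The bounds of the typed cumulants of the marginal laws at one order and one top scale**,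
with the extra type `none`. -/
structure BO (p : ι → Prop) [DecidablePred p] (lam : ∀ i, V i → ℝ) (rho e : ι → ℝ)
    (mu mu' : (∀ i, V i) → ℝ) (sc : ι → Option J) (ell : J → ℝ) (g c1 c2 : ℝ) (b : ℕ) (j : J)
    (S σ : ℝ) (VV : Option J → Finset (Σ i : {i // p i}, Option (V i))) (R E : {i // p i} → ℝ)
    (N : Option J → Option J → ℝ) : Prop where
  hp : ∀ i, eo ell (sc i) ≤ ell j → p i
  hV : ∀ l ω, ω ∈ VV l ↔ sc ω.1 = l
  s0 : 0 < σ
  s1 : σ⁻¹ ≤ S
  R0 : ∀ i, 0 < R i
  E0 : ∀ i, 0 < E i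
  R1 : ∀ i : {i // p i}, 2 * (σ * rho i) ≤ R i
  E1 : ∀ i : {i // p i}, 2 * (σ * e i) ≤ E i
  bd : BdT VV b (fun l => Real.exp (g * eo ell l)) (fun l => Real.exp (-(c1 * eo ell l))) N
    (Tn (lsub p lam) (msub p mu) R E)
  bd' : BdT VV b (fun l => Real.exp (g * eo ell l)) (fun l => Real.exp (-(c1 * eo ell l))) N
    (Tn (lsub p lam) (msub p mu') R E)
  N0 : ∀ l m, 0 ≤ N l m
  N1 : ∀ l m, N l m ≤ Real.exp (g * eo ell l) * Real.exp (g * eo ell m)
  N2 : ∀ l m, eo ell l ≤ eo ell m →
    N l m ≤ Real.exp (g * eo ell l - c2 * (eo ell m - eo ell l))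

variable {lam : ∀ i, V i → ℝ} {K : ∀ i, V i → V i → ℝ} {c : ι → ℝ} {u u' : ∀ i, V i → ℝ}
  {s : ∀ i, V i → V i → ℝ} {rho e : ι → ℝ}

/-- **Block [C] with root `oo`.** -/
theorem H_of_BO (h0 : ∀ i a, 0 ≤ lam i a) (H : H365.OB lam K c u u' s rho e)
    {mu mu' : (∀ i, V i) → ℝ} (hmu : ∑ x, mu x = 1) (hmu' : ∑ x, mu' x = 1)
    (hac : ∀ x, mu x ≠ 0 → ∀ i, lam i (x i) ≠ 0) (hac' : ∀ x, mu' x ≠ 0 → ∀ i, lam i (x i) ≠ 0)
    {sc : ι → Option J} {ell : J → ℝ} (hell : ∀ j, 0 ≤ ell j) {g c1 c2 : ℝ} (hg : 0 ≤ g)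
    (hc1 : 0 ≤ c1) (hc : g + c1 ≤ c2) {S : ℕ → J → ℝ} {b0 : ℕ}
    (HB : ∀ b, 2 ≤ b → b ≤ b0 + 1 → ∀ j : J, ∃ (p : ι → Prop) (_ : DecidablePred p) (σ : ℝ)
      (VV : Option J → Finset (Σ i : {i // p i}, Option (V i))) (R E : {i // p i} → ℝ)
      (N : Option J → Option J → ℝ),
      BO p lam rho e mu mu' sc ell g c1 c2 b j (S b j) σ VV R E N)
    {t : Multiset J} (ht : t ≠ 0) (hb : Multiset.card t ≤ b0) :
    ∃ j ∈ t, |wF sc (FK K mu mu') (none ::ₘ t.map some)| ≤
      S (Multiset.card t + 1) j ^ (Multiset.card t + 1) *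
        (((2 * Multiset.card t + 2).factorial : ℝ) * Real.exp (-(c1 * (t.map ell).sum))) := by
  classical
  have hne : t.toFinset.Nonempty := by rwa [Multiset.toFinset_nonempty]
  obtain ⟨j, hj, hmax⟩ := Finset.exists_max_image t.toFinset ell hne
  have hmax' : ∀ m ∈ t, ell m ≤ ell j := fun m hm => hmax m (Multiset.mem_toFinset.2 hm)
  have hj' : j ∈ t := Multiset.mem_toFinset.1 hj
  have hcard : 1 ≤ Multiset.card t := Multiset.card_pos.2 ht
  obtain ⟨p, _, σ, VV, R, E, N, hB⟩ := HB (Multiset.card t + 1) (by omega) (by omega) j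
  refine ⟨j, hj', ?_⟩
  have hOB := OB_sub_scale (p := p) H hB.s0.le
  set ξ := xo (lsub p lam) (fun i => σ * c i) (fun i a => σ * u i a) (fun i a => σ * u' i a)
    (fun i a b => σ * s i a b) R E with hξdef
  have hCV : CV VV ξ := cv_xo (sc := fun i : {i // p i} => sc i) hB.hV (fun i a => h0 i a) hOB
    hB.R0 hB.E0 hB.R1 hB.E1
  set z' := zt VV ξ (Mn (lsub p lam) (msub p mu) R E) (Mn (lsub p lam) (msub p mu') R E) with hz'
  have hs : ∑ x, msub p mu x = 1 := by rw [msub_sum, hmu]
  have hs' : ∑ x, msub p mu' x = 1 := by rw [msub_sum, hmu']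
  have hM0 : Mn (lsub p lam) (msub p mu) R E 0 = 1 := mn_zero hs
  have hM0' : Mn (lsub p lam) (msub p mu') R E 0 = 1 := mn_zero hs'
  have hw' := exists_w VV ξ hM0 hM0'
  have hz'0 : z' 0 = 1 := by rw [hz', zt_zero, hM0, hM0', one_mul]
  have hellj : ∀ l ∈ none ::ₘ t.map some, eo ell l ≤ ell j := by
    intro l hl
    rcases Multiset.mem_cons.1 hl with rfl | hl
    · exact hell j
    · obtain ⟨m, hm, rfl⟩ := Multiset.mem_map.1 hl
      exact hmax' m hm
  have hzz : ∀ τ ≤ none ::ₘ t.map some,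
      z' τ = zF sc (FK K mu mu') τ * σ ^ Multiset.card τ := by
    intro τ hτ
    exact zt_sub hB.hV h0 H hB.s0 hB.R0 hB.E0 hac hac'
      fun i hi => hB.hp i (hellj _ (Multiset.mem_of_le hτ hi))
  have hell' : ∀ l, 0 ≤ eo ell l := by
    intro l
    cases l with
    | none => exact le_rfl
    | some m => exact hell m
  have hf : FK K mu mu' ∅ = 1 := FK_empty hmu hmu'
  have hz0 : zF sc (FK K mu mu') 0 = 1 := by rw [zF_zero, hf]
  have h1 := mc_scale_eq' hz0 (mc_wF sc hf) hz'0 hw' σ (none ::ₘ t.map some)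
    Multiset.cons_ne_zero hzz
  have h2 := w_all hCV hM0 (mc_mn hs) hM0' (mc_mn hs') hell' hg hc1 hc hB.bd hB.bd' hB.N0
    hB.N1 hB.N2 hw' none (t.map some) (fun m _ => hell' m)
    (by rw [Multiset.card_map])
  have hc2 : Multiset.card (none ::ₘ t.map some) = Multiset.card t + 1 := by
    rw [Multiset.card_cons, Multiset.card_map]
  have hbex : bex g c1 (eo ell) none (t.map some) = -(c1 * (t.map ell).sum) := by
    unfold bex
    rw [eo_none, mul_zero, zero_sub, Multiset.map_map]
    rfl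
  rw [h1, hc2, hbex, Multiset.card_map, abs_mul, abs_of_pos (pow_pos hB.s0 _)] at h2
  have h3 : |wF sc (FK K mu mu') (none ::ₘ t.map some)| ≤
      (σ⁻¹) ^ (Multiset.card t + 1) * (((2 * Multiset.card t + 2).factorial : ℝ) *
        Real.exp (-(c1 * (t.map ell).sum))) := by
    rw [inv_pow, ← div_eq_inv_mul, le_div_iff₀ (pow_pos hB.s0 _)]
    exact h2
  refine h3.trans (mul_le_mul_of_nonneg_right ?_ (by positivity))
  exact pow_le_pow_left₀ (inv_nonneg.2 hB.s0.le) hB.s1 _

end bo

section numbers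

/-- Powers of a logarithm. -/
theorem one_add_pow_le {y : ℝ} (hy : 0 ≤ y) (N : ℕ) :
    (1 + y) ^ N ≤ (N : ℝ) ^ N * Real.exp y := by
  rcases Nat.eq_zero_or_pos N with rfl | hN
  · simpa using Real.one_le_exp hy
  have hN' : (1 : ℝ) ≤ N := by exact_mod_cast hN
  have hN0 : (0 : ℝ) < N := by linarith
  have h1 : (1 + y) / N ≤ Real.exp ((1 + y) / N - 1) := by
    have := Real.add_one_le_exp ((1 + y) / N - 1)
    linarith
  have h2 : ((1 + y) / N) ^ N ≤ Real.exp y := by
    calc ((1 + y) / N) ^ N ≤ Real.exp ((1 + y) / N - 1) ^ N :=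
          pow_le_pow_left₀ (by positivity) h1 _
      _ = Real.exp (1 + y - N) := by
          rw [← Real.exp_nat_mul]
          congr 1
          field_simp
      _ ≤ Real.exp y := Real.exp_le_exp.2 (by linarith)
  calc (1 + y) ^ N = (N : ℝ) ^ N * ((1 + y) / N) ^ N := by
        rw [← mul_pow, mul_div_cancel₀ _ hN0.ne']
    _ ≤ _ := mul_le_mul_of_nonneg_left h2 (by positivity)

/-- **The numbers of (D*).** -/
theorem num_oo {A n : ℕ} {x y el : ℝ} (hn : 1 ≤ n) (hnx : (n : ℝ) ≤ x) (hx2 : 2 ≤ x)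
    (hxA : 2 * (A : ℝ) ≤ x) (hy : 0 ≤ y) (hel0 : 0 ≤ el) (hel : el ≤ x) :
    (((1 + y) * (((n + 1 : ℕ) : ℝ) * el)) ^ A) ^ (n + 1) * ((2 * n + 2).factorial : ℝ) ≤
      Real.exp (y + (10 * A + 12 : ℕ) * n * Real.log x) := by
  have hx0 : 0 < x := by linarith
  have hx1 : 1 ≤ x := by linarith
  have hn' : (1 : ℝ) ≤ n := by exact_mod_cast hn
  set N := A * (n + 1) with hN
  have hN2 : N ≤ 2 * A * n := by
    rw [hN]
    nlinarith [Nat.mul_le_mul_left A hn]
  have e1 : (((1 + y) * (((n + 1 : ℕ) : ℝ) * el)) ^ A) ^ (n + 1) =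
      (1 + y) ^ N * (((n + 1 : ℕ) : ℝ) * el) ^ N := by
    rw [← pow_mul, mul_pow]
  have b1 : (1 + y) ^ N ≤ x ^ (2 * N) * Real.exp y := by
    refine (one_add_pow_le hy N).trans (mul_le_mul_of_nonneg_right ?_ (Real.exp_pos _).le)
    rw [show x ^ (2 * N) = (x ^ 2) ^ N from pow_mul _ _ _]
    apply pow_le_pow_left₀ (Nat.cast_nonneg _)
    have h1 : (N : ℝ) ≤ 2 * A * n := by exact_mod_cast hN2
    have h2 : 2 * (A : ℝ) * n ≤ x * x := mul_le_mul hxA hnx (Nat.cast_nonneg _) hx0.le
    nlinarith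
  have b2 : (((n + 1 : ℕ) : ℝ) * el) ^ N ≤ x ^ (3 * N) := by
    rw [show x ^ (3 * N) = (x ^ 3) ^ N from pow_mul _ _ _]
    apply pow_le_pow_left₀ (by positivity)
    push_cast
    have h1 : ((n : ℝ) + 1) * el ≤ (2 * x) * x :=
      mul_le_mul (by linarith) hel hel0 (by linarith)
    have h2 : (2 * x) * x ≤ x ^ 3 := by
      have : 0 ≤ (x - 2) * x ^ 2 := mul_nonneg (by linarith) (by positivity)
      nlinarith
    linarith
  have b3 : ((2 * n + 2).factorial : ℝ) ≤ x ^ (12 * n) := by
    have h1 : ((2 * n + 2).factorial : ℝ) ≤ ((2 * n + 2 : ℕ) : ℝ) ^ (2 * n + 2) := by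
      exact_mod_cast Nat.factorial_le_pow (2 * n + 2)
    have h2 : ((2 * n + 2 : ℕ) : ℝ) ≤ x ^ 3 := by
      push_cast
      have : 0 ≤ (x - 2) * (x + 2) * x :=
        mul_nonneg (mul_nonneg (by linarith) (by linarith)) (by linarith)
      nlinarith
    calc ((2 * n + 2).factorial : ℝ) ≤ ((2 * n + 2 : ℕ) : ℝ) ^ (2 * n + 2) := h1
      _ ≤ (x ^ 3) ^ (2 * n + 2) := pow_le_pow_left₀ (Nat.cast_nonneg _) h2 _
      _ = x ^ (3 * (2 * n + 2)) := by rw [← pow_mul]
      _ ≤ x ^ (12 * n) := pow_le_pow_right₀ hx1 (by omega)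
  rw [e1]
  have h4 : (1 + y) ^ N * (((n + 1 : ℕ) : ℝ) * el) ^ N * ((2 * n + 2).factorial : ℝ) ≤
      x ^ (2 * N) * Real.exp y * x ^ (3 * N) * x ^ (12 * n) :=
    mul_le_mul (mul_le_mul b1 b2 (by positivity) (by positivity)) b3 (by positivity)
      (by positivity)
  refine h4.trans ?_
  have h5 : x ^ (2 * N) * Real.exp y * x ^ (3 * N) * x ^ (12 * n) =
      Real.exp y * x ^ (5 * N + 12 * n) := by
    rw [show 5 * N + 12 * n = 2 * N + 3 * N + 12 * n by ring, pow_add, pow_add]
    ring
  rw [h5, Real.exp_add]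
  apply mul_le_mul_of_nonneg_left _ (Real.exp_pos _).le
  have h6 : x ^ (5 * N + 12 * n) ≤ x ^ ((10 * A + 12) * n) := by
    apply pow_le_pow_right₀ hx1
    nlinarith
  refine h6.trans (le_of_eq ?_)
  rw [← Real.rpow_natCast, Real.rpow_def_of_pos hx0]
  congr 1
  push_cast
  ring

end numbers

section final

variable {ι : Type u1} [Fintype ι] [DecidableEq ι] {V : ι → Type u2} [∀ i, Fintype (V i)]
  [∀ i, DecidableEq (V i)] {J : Type v} [Fintype J] [DecidableEq J]
  {lam : ∀ i, V i → ℝ} {K : ∀ i, V i → V i → ℝ} {c : ι → ℝ} {u u' : ∀ i, V i → ℝ}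
  {s : ∀ i, V i → V i → ℝ} {rho e : ι → ℝ}

/-- **(D*).** -/
theorem D_oo (h0 : ∀ i a, 0 ≤ lam i a) (H : H365.OB lam K c u u' s rho e)
    {mu mu' : (∀ i, V i) → ℝ} (hmu : ∑ x, mu x = 1) (hmu' : ∑ x, mu' x = 1)
    (hac : ∀ x, mu x ≠ 0 → ∀ i, lam i (x i) ≠ 0) (hac' : ∀ x, mu' x ≠ 0 → ∀ i, lam i (x i) ≠ 0)
    {sc : ι → Option J} {ell : J → ℝ} {A : ℕ} (hell : ∀ j, 2 ≤ ell j)
    (hellA : ∀ j, 2 * (A : ℝ) ≤ ell j) {g c1 c2 : ℝ} (hg : 0 ≤ g)
    (hc1 : 0 ≤ c1) (hc : g + c1 ≤ c2) {b0 : ℕ} {y : ℝ} (hy : 0 ≤ y)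
    (HB : ∀ b, 2 ≤ b → b ≤ b0 + 1 → ∀ j : J, ∃ (p : ι → Prop) (_ : DecidablePred p) (σ : ℝ)
      (VV : Option J → Finset (Σ i : {i // p i}, Option (V i))) (R E : {i // p i} → ℝ)
      (N : Option J → Option J → ℝ),
      BO p lam rho e mu mu' sc ell g c1 c2 b j (((1 + y) * (b * ell j)) ^ A) σ VV R E N)
    (a : J →₀ ℕ) (ha : a ≠ 0) (hb : a.degree ≤ b0) :
    |co (wF sc (FK K mu mu')) (a.mapDomain (some : J → Option J) + Finsupp.single none 1)| ≤
      Real.exp (y + (10 * A + 12 : ℕ) * a.degree * Real.log (∑ j, (a j : ℝ) * ell j)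
        - c1 * ∑ j, (a j : ℝ) * ell j) := by
  set t := Finsupp.toMultiset a with ht
  have ht0 : t ≠ 0 := by
    rw [ht]
    intro h
    apply ha
    have h1 := congrArg Multiset.toFinsupp h
    rw [Finsupp.toMultiset_toFinsupp, map_zero] at h1
    exact h1
  have hcard : Multiset.card t = a.degree := by
    rw [ht, Finsupp.card_toMultiset]
    rfl
  have hsum : (t.map ell).sum = ∑ j, (a j : ℝ) * ell j := by
    rw [ht, sum_toMultiset]
  obtain ⟨j, hj, h1⟩ := H_of_BO h0 H hmu hmu' hac hac' (fun j => by linarith [hell j]) hg hc1 hc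
    HB ht0 (by rw [hcard]; exact hb)
  rw [co_none]
  unfold co
  rw [abs_div, abs_of_pos (fa_pos a)]
  refine (div_le_self (abs_nonneg _) (one_le_fa a)).trans (h1.trans ?_)
  have hn : 1 ≤ Multiset.card t := Multiset.card_pos.2 ht0
  have h2 := card_mul_le t (e := 2) (ell := ell) fun m _ => hell m
  have hjx : ell j ≤ (t.map ell).sum := by
    obtain ⟨r, hr⟩ := Multiset.exists_cons_of_mem hj
    rw [hr, Multiset.map_cons, Multiset.sum_cons]
    have : 0 ≤ (r.map ell).sum := by
      apply Multiset.sum_nonneg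
      intro x hx
      obtain ⟨m, _, rfl⟩ := Multiset.mem_map.1 hx
      linarith [hell m]
    linarith
  have h3 := num_oo (A := A) (n := Multiset.card t) (x := (t.map ell).sum) (y := y)
    (el := ell j) hn (by
      have : (0 : ℝ) ≤ Multiset.card t := Nat.cast_nonneg _
      linarith) ((hell j).trans hjx) ((hellA j).trans hjx) hy (by linarith [hell j]) hjx
  rw [← mul_assoc]
  refine (mul_le_mul_of_nonneg_right h3 (Real.exp_pos _).le).trans (le_of_eq ?_)
  rw [← Real.exp_add, hsum, hcard]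
  congr 1

end final

section star

variable {ι : Type u1} [Fintype ι] [DecidableEq ι] {V : Option ι → Type u2}
  [∀ i, Fintype (V i)] [∀ i, DecidableEq (V i)] {J : Type v} [Fintype J] [DecidableEq J]

/-- Forget the extra coordinate. -/
def rs (x : ∀ i, V i) : ∀ i : ι, V (some i) := fun i => x (some i)

theorem FK_some (K : ∀ i, V i → V i → ℝ) (mu mu' : (∀ i, V i) → ℝ) (B : Finset ι) :
    FK K mu mu' (B.map Function.Embedding.some) =
      FK (fun i => K (some i)) (push rs mu) (push rs mu') B := by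
  unfold FK
  have h1 : ∀ x : ∀ i : ι, V (some i), ∑ y : ∀ i : ι, V (some i), push rs mu x * push rs mu' y *
      ∏ i ∈ B, K (some i) (x i) (y i) = push rs mu x * ∑ y : ∀ i, V i, mu' y *
        ∏ i ∈ B, K (some i) (x i) (rs y i) := by
    intro x
    rw [← sum_push rs mu' fun y => ∏ i ∈ B, K (some i) (x i) (y i), Finset.mul_sum]
    exact Finset.sum_congr rfl fun y _ => by ring
  rw [Finset.sum_congr rfl fun x _ => h1 x,
    sum_push rs mu fun x => ∑ y : ∀ i, V i, mu' y * ∏ i ∈ B, K (some i) (x i) (rs y i)]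
  refine Finset.sum_congr rfl fun x _ => ?_
  rw [Finset.mul_sum]
  refine Finset.sum_congr rfl fun y _ => ?_
  rw [Finset.prod_map, mul_assoc]
  rfl

variable {lam : ∀ i, V i → ℝ} {K : ∀ i, V i → V i → ℝ} {c : Option ι → ℝ} {u u' : ∀ i, V i → ℝ}
  {s : ∀ i, V i → V i → ℝ} {rho e : Option ι → ℝ}

/-- **(E*) and (D*) for one modulus `m`**, from block [C] on the coordinates `Option ι`. -/
theorem star_in (h0 : ∀ i a, 0 ≤ lam i a) (H : H365.OB lam K c u u' s rho e)
    {mu mu' : (∀ i, V i) → ℝ} (hmu : ∑ x, mu x = 1) (hmu' : ∑ x, mu' x = 1)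
    (hac : ∀ x, mu x ≠ 0 → ∀ i, lam i (x i) ≠ 0) (hac' : ∀ x, mu' x ≠ 0 → ∀ i, lam i (x i) ≠ 0)
    {sc : ι → J} {ell : J → ℝ} {A : ℕ} (hell : ∀ j, 2 ≤ ell j)
    (hellA : ∀ j, 2 * (A : ℝ) ≤ ell j) {g c1 c2 : ℝ} (hg : 0 ≤ g)
    (hc1 : 0 ≤ c1) (hc : g + c1 ≤ c2) {b0 m : ℕ}
    (HB : ∀ b, 2 ≤ b → b ≤ b0 + 1 → ∀ j : J, ∃ (p : Option ι → Prop) (_ : DecidablePred p)
      (σ : ℝ) (VV : Option J → Finset (Σ i : {i // p i}, Option (V i))) (R E : {i // p i} → ℝ)
      (N : Option J → Option J → ℝ),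
      BO p lam rho e mu mu' (Option.map sc) ell g c1 c2 b j
        (((1 + Real.log m) * (b * ell j)) ^ A) σ VV R E N)
    {M0 k : ℝ} (hM0 : |M0| ≤ Real.exp (k * Real.log m))
    (h00 : |M0 * FK K mu mu' (Finset.insertNone ∅)| ≤ Real.exp ((k + 1) * Real.log m)) :
    ∃ wm : (J →₀ ℕ) → ℝ,
      (∀ a, ∑ B ∈ (univ : Finset ι).powerset.filter (fun B => tyi sc B = a),
          M0 * FK K mu mu' (Finset.insertNone B) =
        ∑ x ∈ antidiagonal a, wm x.1 *
          co (zF sc (FK (fun i => K (some i)) (push rs mu) (push rs mu'))) x.2) ∧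
      |wm 0| ≤ Real.exp ((k + 1) * Real.log m) ∧
      ∀ a, a ≠ 0 → a.degree ≤ b0 → |wm a| ≤
        Real.exp ((k + 1) * Real.log m +
          (10 * A + 12 : ℕ) * a.degree * Real.log (∑ j, (a j : ℝ) * ell j)
          - c1 * ∑ j, (a j : ℝ) * ell j) := by
  have hy : 0 ≤ Real.log m := Real.log_natCast_nonneg m
  have hf : FK K mu mu' ∅ = 1 := FK_empty hmu hmu'
  have hF : (fun B : Finset ι => FK K mu mu' (B.map Function.Embedding.some)) =
      FK (fun i => K (some i)) (push rs mu) (push rs mu') :=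
    funext fun B => FK_some K mu mu' B
  have hE : ∀ a, ∑ B ∈ (univ : Finset ι).powerset.filter (fun B => tyi sc B = a),
          M0 * FK K mu mu' (Finset.insertNone B) =
        ∑ x ∈ antidiagonal a, (M0 * co (wF (Option.map sc) (FK K mu mu'))
            (x.1.mapDomain (some : J → Option J) + Finsupp.single none 1)) *
          co (zF sc (FK (fun i => K (some i)) (push rs mu) (push rs mu'))) x.2 := by
    intro a
    rw [← Finset.mul_sum, E_star sc hf a, hF, Finset.mul_sum]
    exact Finset.sum_congr rfl fun x _ => by ring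
  refine ⟨fun a => M0 * co (wF (Option.map sc) (FK K mu mu'))
    (a.mapDomain (some : J → Option J) + Finsupp.single none 1), hE, ?_, ?_⟩
  · have h1 := hE 0
    have h2 : (univ : Finset ι).powerset.filter (fun B => tyi sc B = 0) = {∅} := by
      ext B
      rw [Finset.mem_filter, Finset.mem_singleton]
      constructor
      · rintro ⟨_, h⟩
        have := tyi_degree sc B
        rw [h, map_zero] at this
        exact Finset.card_eq_zero.1 this.symm
      · rintro rfl
        exact ⟨Finset.mem_powerset.2 (Finset.subset_univ _), tyi_empty sc⟩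
    have h3 : FK (fun i : ι => K (some i)) (push rs mu) (push rs mu') ∅ = 1 := by
      rw [← FK_some, Finset.map_empty, hf]
    rw [h2, Finset.sum_singleton, Finset.HasAntidiagonal.antidiagonal_zero,
      Finset.sum_singleton, co_zero (zF sc _), zF_zero, h3, mul_one] at h1
    beta_reduce
    rw [← h1]
    exact h00
  · intro a ha hb
    have h1 := D_oo h0 H hmu hmu' hac hac' hell hellA hg hc1 hc hy HB a ha hb
    beta_reduce
    rw [abs_mul]
    refine (mul_le_mul hM0 h1 (abs_nonneg _) (Real.exp_pos _).le).trans (le_of_eq ?_)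
    rw [← Real.exp_add]
    congr 1
    ring

end star

end Vale.Agent.P042.H284
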