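import Vale.Agent.P042.H284.TBound
import Vale.Agent.P042.H232.Cum

/-!
# Typed block C: the main theorem

`zt V ξ M M'` is the pairing of two moment functions, as a function of the multiset of the types of
the edges.  Its cumulants are bounded by products of weights of the types.
-/

open Finset

set_option linter.unusedSectionVars false

namespace Vale.Agent.P042.H284

open Vale.Agent.P042.H159 (S MC xi xi_nil xi_cons xi_append xi_perm S_congr S_append S_map S_comm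
  S_mul S_zero S_sum S_add MC.list S_length Bn Bn_Bn Bn_fact S_antidiagonal)

universe u v

section aux

variable {Λ : Type v}

theorem mc_list {M T : Multiset Λ → ℝ} (h : MC M T) (a : Λ) (l : List Λ) :
    M ((a :: l : List Λ) : Multiset Λ) =
      S l fun t u => T ((a :: t : List Λ) : Multiset Λ) * M (u : Multiset Λ) := by
  rw [← Multiset.cons_coe, h]
  exact (S_antidiagonal l fun t u => T (a ::ₘ t) * M u).symm

theorem mc_cumT {M : Multiset Λ → ℝ} (hM : M 0 = 1) : MC M (H232.cumT M) :=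
  fun a s => (H232.isCum_cumT M hM).cons a s

theorem S_top {R : Type*} [CommSemiring R] (l : List Λ) (φ : List Λ → List Λ → R)
    (h : ∀ t u, (t ++ u).Perm l → u ≠ [] → φ t u = 0) : S l φ = φ l [] := by
  induction l generalizing φ with
  | nil => rfl
  | cons a l ih =>
    rw [S, ih (fun t u => φ (a :: t) u) fun t u htu hu => h _ _ (htu.cons a) hu]
    have h1 : S l (fun t u => φ t (a :: u)) = S l fun _ _ => 0 :=
      S_congr fun t u htu => h _ _ (List.perm_middle.trans (htu.cons a)) (by simp)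
    rw [h1, S_zero, add_zero]

end aux

variable {Ω : Type u} [Fintype Ω] {Λ : Type v}

variable (V : Λ → Finset Ω) (ξ : Ω → Ω → ℝ) (M T M' T' : Multiset Ω → ℝ)

/-- The pairing of two moment functions with edges of prescribed types. -/
noncomputable def zt (s : Multiset Λ) : ℝ := Rt V ξ M M' s.toList [] []

theorem zt_coe (τ : List Λ) : zt V ξ M M' (τ : Multiset Λ) = Rt V ξ M M' τ [] [] := by
  unfold zt
  exact Rt_perm V ξ (Multiset.coe_eq_coe.1 (Multiset.coe_toList _)) _ _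

theorem zt_coe' (τ : List Λ) : zt V ξ M M' (τ : Multiset Λ) =
    ∑ E ∈ Lt (VV V) τ, xi ξ E * M ↑(E.map Prod.fst) * M' ↑(E.map Prod.snd) := by
  rw [zt_coe]
  rfl

theorem zt_zero : zt V ξ M M' 0 = M 0 * M' 0 := by
  have h := zt_coe' V ξ M M' []
  rw [sum_Lt_nil, xi_nil, one_mul] at h
  exact h

/-- The weights of the connected parts with root `l`. -/
noncomputable def Urt (k : ℕ) (l : Λ) (τ : List Λ) : ℝ :=
  S τ fun σ ρ => ∑ E ∈ Lt (VV V) (l :: σ),
    xi ξ E * T ↑(E.map Prod.fst) * Ut V ξ T T' k ρ [] (E.map Prod.snd)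

variable {M T M' T'}

theorem Rt_root (hM : MC M T) (l : Λ) (τ : List Λ) :
    Rt V ξ M M' (l :: τ) [] [] = S τ fun σ ρ => ∑ E ∈ Lt (VV V) (l :: σ),
      xi ξ E * T ↑(E.map Prod.fst) * Rt V ξ M M' ρ [] (E.map Prod.snd) := by
  have h1 : Rt V ξ M M' (l :: τ) [] [] =
      ∑ x ∈ VV V l, ξ x.1 x.2 * Rt V ξ M M' τ [x.1] [x.2] := by
    unfold Rt
    rw [sum_Lt_cons]
    refine Finset.sum_congr rfl fun x _ => ?_
    rw [Finset.mul_sum]
    refine Finset.sum_congr rfl fun E _ => ?_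
    rw [xi_cons]
    simp only [List.nil_append, List.map_cons, List.singleton_append]
    ring
  rw [h1]
  have h2 : ∀ x : Ω × Ω, ξ x.1 x.2 * Rt V ξ M M' τ [x.1] [x.2] = S τ fun σ ρ =>
      ∑ E ∈ Lt (VV V) σ, xi ξ (x :: E) * T ↑((x :: E).map Prod.fst) *
        Rt V ξ M M' ρ [] ((x :: E).map Prod.snd) := by
    intro x
    rw [Rt_left V ξ hM, ← S_mul]
    refine S_congr fun σ ρ _ => ?_
    rw [Finset.mul_sum]
    refine Finset.sum_congr rfl fun E _ => ?_
    rw [xi_cons]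
    simp only [S, List.nil_append, List.map_cons, List.singleton_append]
    ring
  simp only [h2]
  rw [← S_sum]
  refine S_congr fun σ ρ _ => ?_
  rw [sum_Lt_cons]

theorem Rt_root' (hM : MC M T) (hM' : MC M' T') {l : Λ} {τ : List Λ} {k : ℕ}
    (hk : 2 * τ.length + 2 ≤ k) :
    Rt V ξ M M' (l :: τ) [] [] = S τ fun σ ρ => Urt V ξ T T' k l σ * Rt V ξ M M' ρ [] [] := by
  rw [Rt_root V ξ hM]
  have h1 : ∀ σ ρ : List Λ, (σ ++ ρ).Perm τ → ∑ E ∈ Lt (VV V) (l :: σ),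
      xi ξ E * T ↑(E.map Prod.fst) * Rt V ξ M M' ρ [] (E.map Prod.snd) =
      S ρ fun ρ1 ρ2 => (∑ E ∈ Lt (VV V) (l :: σ),
        xi ξ E * T ↑(E.map Prod.fst) * Ut V ξ T T' k ρ1 [] (E.map Prod.snd)) *
          Rt V ξ M M' ρ2 [] [] := by
    intro σ ρ hσ
    have hl1 := S_length1 hσ
    simp only [Finset.sum_mul]
    rw [S_sum]
    refine Finset.sum_congr rfl fun E hE => ?_
    have hl : (E.map Prod.snd).length = σ.length + 1 := by
      rw [List.length_map, length_of_mem_Lt hE, List.length_cons]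
    rw [Rt_eq V ξ hM hM' k ρ [] (E.map Prod.snd) (by
      rw [List.length_nil, hl]
      omega), ← S_mul]
    exact S_congr fun ρ1 ρ2 _ => by ring
  rw [S_congr h1, S_assoc τ fun σ ρ1 ρ2 => (∑ E ∈ Lt (VV V) (l :: σ),
        xi ξ E * T ↑(E.map Prod.fst) * Ut V ξ T T' k ρ1 [] (E.map Prod.snd)) *
          Rt V ξ M M' ρ2 [] []]
  refine S_congr fun σ ρ _ => ?_
  rw [S_mul_right]
  rfl

/-- The weights are the cumulants of the pairing. -/
theorem Urt_eq (hM0 : M 0 = 1) (hM : MC M T) (hM0' : M' 0 = 1) (hM' : MC M' T')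
    {w : Multiset Λ → ℝ} (hw : MC (zt V ξ M M') w) (l : Λ) {k : ℕ} :
    ∀ (n : ℕ) (τ : List Λ), τ.length = n → 2 * τ.length + 2 ≤ k →
      Urt V ξ T T' k l τ = w ((l :: τ : List Λ) : Multiset Λ) := by
  intro n
  induction n using Nat.strong_induction_on with
  | _ n ih =>
    intro τ hτ hk
    have h1 := Rt_root' V ξ hM hM' (l := l) hk
    have h2 := mc_list hw l τ
    rw [zt_coe, h1] at h2
    have h3 : S τ (fun σ ρ => (Urt V ξ T T' k l σ - w ((l :: σ : List Λ) : Multiset Λ)) *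
        Rt V ξ M M' ρ [] []) = 0 := by
      have h4 : S τ (fun σ ρ => Urt V ξ T T' k l σ * Rt V ξ M M' ρ [] []) =
          S τ (fun σ ρ => (Urt V ξ T T' k l σ - w ((l :: σ : List Λ) : Multiset Λ)) *
            Rt V ξ M M' ρ [] []) +
          S τ (fun σ ρ => w ((l :: σ : List Λ) : Multiset Λ) * zt V ξ M M' (ρ : Multiset Λ)) := by
        rw [← S_add]
        refine S_congr fun σ ρ _ => ?_
        rw [zt_coe]
        ring
      rw [h4] at h2
      linarith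
    rw [S_top] at h3
    · have h5 : Rt V ξ M M' [] [] [] = 1 := by
        rw [← zt_coe]
        exact (zt_zero V ξ M M').trans (by rw [hM0, hM0', one_mul])
      rw [h5, mul_one] at h3
      linarith
    · intro σ ρ hσ hρ
      have hl1 := S_length1 hσ
      have : 0 < ρ.length := List.length_pos_iff.2 hρ
      rw [ih σ.length (by omega) σ rfl (by omega), sub_self, zero_mul]

theorem Urt_term {V : Λ → Finset Ω} {y κ : Λ → ℝ} {N : Λ → Λ → ℝ} {ξ : Ω → Ω → ℝ} (hξ : CV V ξ)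
    {b0 : ℕ} {T T' : Multiset Ω → ℝ}
    (hT : BdT V b0 y κ N T) (hT' : BdT V b0 y κ N T') (hy : ∀ l, 1 ≤ y l) (hκ : ∀ l, 0 ≤ κ l)
    (hκ1 : ∀ l, κ l ≤ 1) (hN0 : ∀ l m, 0 ≤ N l m) (hN : ∀ l m, N l m ≤ y l * y m) (k : ℕ)
    {l : Λ} {σ ρ : List Λ} (hb : 1 + σ.length + ρ.length ≤ b0) {c : ℝ} (hc : 0 ≤ c)
    (h : ∑ ω ∈ Lt V (l :: σ), T (ω : Multiset Ω) ^ 2 ≤ c ^ 2) :
    |∑ E ∈ Lt (VV V) (l :: σ), xi ξ E * T ↑(E.map Prod.fst) *
      Ut V ξ T T' k ρ [] (E.map Prod.snd)| ≤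
      ((1 + σ.length + 2 * ρ.length).factorial : ℝ) * (c * (pr y (l :: σ) * pr κ ρ)) := by
  have hy0 : ∀ l, 0 ≤ y l := fun l => by linarith [hy l]
  have h1 := sum_xiV_sq hξ (l :: σ) (fun v => T (v : Multiset Ω))
    (fun v => Ut V ξ T T' k ρ [] v)
  have h2 : ∑ v ∈ Lt V (l :: σ), Ut V ξ T T' k ρ [] v ^ 2 =
      nt V [] (l :: σ) (Ut V ξ T T' k ρ) ^ 2 := by
    rw [nt_sq, sum_Lt_nil]
  have h3 := nt_U hξ hT hT' hy hκ hκ1 hN0 hN k ρ [] (l :: σ)
    (by simp only [List.length_nil]; omega) (by simp only [List.length_cons]; omega)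
  rw [h2] at h1
  rw [pr_nil, one_mul, List.length_nil, List.length_cons,
    show 0 + (σ.length + 1) + 2 * ρ.length = 1 + σ.length + 2 * ρ.length by ring] at h3
  have h5 : 0 ≤ pr y (l :: σ) * pr κ ρ := mul_nonneg (pr_nonneg hy0 _) (pr_nonneg hκ _)
  refine abs_le_of_sq_le_sq (h1.trans ?_) (by positivity)
  calc _ ≤ c ^ 2 * (((1 + σ.length + 2 * ρ.length).factorial : ℝ) *
          (pr y (l :: σ) * pr κ ρ)) ^ 2 :=
        mul_le_mul h (pow_le_pow_left₀ (nt_nonneg _ _ _ _) h3 2) (sq_nonneg _) (sq_nonneg _)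
    _ = _ := by ring

theorem Urt_le {V : Λ → Finset Ω} {y κ : Λ → ℝ} {N : Λ → Λ → ℝ} {ξ : Ω → Ω → ℝ} (hξ : CV V ξ)
    {b0 : ℕ} {T T' : Multiset Ω → ℝ}
    (hT : BdT V b0 y κ N T) (hT' : BdT V b0 y κ N T') (hy : ∀ l, 1 ≤ y l) (hκ : ∀ l, 0 ≤ κ l)
    (hκ1 : ∀ l, κ l ≤ 1) (hN0 : ∀ l m, 0 ≤ N l m) (hN : ∀ l m, N l m ≤ y l * y m) (k : ℕ)
    {l : Λ} {τ : List Λ} (hb : τ.length + 1 ≤ b0) {G : ℝ} (h1 : y l ^ 2 ≤ G) (h2 : κ l ≤ G)
    (h3 : ∀ m ∈ τ, N l m * (y l * y m) ≤ G * κ m) :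
    |Urt V ξ T T' k l τ| ≤ ((2 * τ.length + 2).factorial : ℝ) * (G * pr κ τ) := by
  have hy0 : ∀ l, 0 ≤ y l := fun l => by linarith [hy l]
  have hq : ∀ l, 0 ≤ κ l / y l := fun l => div_nonneg (hκ l) (hy0 l)
  have hG : 0 ≤ G := (sq_nonneg _).trans h1
  have hc : 0 ≤ G * pr κ τ := mul_nonneg hG (pr_nonneg hκ _)
  have key : |Urt V ξ T T' k l τ| ≤ S τ fun σ _ =>
      ((2 * τ.length + 1 - σ.length).factorial : ℝ) * (G * pr κ τ) := by
    refine (abs_S_le _ _).trans (S_mono fun σ ρ hσ => ?_)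
    have hl := S_length1 hσ
    have e1 : 2 * τ.length + 1 - σ.length = 1 + σ.length + 2 * ρ.length := by omega
    rw [e1]
    rcases σ with _ | ⟨m, _ | ⟨m', σ⟩⟩
    · refine (Urt_term hξ hT hT' hy hκ hκ1 hN0 hN k (by omega) (hy0 l) (hT.one l)).trans ?_
      refine mul_le_mul_of_nonneg_left ?_ (Nat.cast_nonneg _)
      rw [List.nil_append] at hσ
      rw [pr_perm κ hσ, pr_cons, pr_nil, mul_one, ← mul_assoc, ← sq]
      exact mul_le_mul_of_nonneg_right h1 (pr_nonneg hκ _)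
    · refine (Urt_term hξ hT hT' hy hκ hκ1 hN0 hN k (by omega) (hN0 l m) (hT.two l m)).trans ?_
      refine mul_le_mul_of_nonneg_left ?_ (Nat.cast_nonneg _)
      have hm : m ∈ τ := hσ.subset (by simp)
      rw [← pr_perm κ hσ, List.cons_append, List.nil_append, pr_cons, pr_cons, pr_cons, pr_nil,
        mul_one]
      calc N l m * (y l * y m * pr κ ρ) = (N l m * (y l * y m)) * pr κ ρ := by ring
        _ ≤ (G * κ m) * pr κ ρ := mul_le_mul_of_nonneg_right (h3 m hm) (pr_nonneg hκ _)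
        _ = _ := by ring
    · refine (Urt_term hξ hT hT' hy hκ hκ1 hN0 hN k (by omega) (pr_nonneg hq _)
        (hT.hs (l :: m :: m' :: σ) (by simp) (by
          simp only [List.length_cons] at hl ⊢
          omega))).trans ?_
      refine mul_le_mul_of_nonneg_left ?_ (Nat.cast_nonneg _)
      rw [← mul_assoc, pr_div_mul hy, pr_cons, mul_assoc, ← pr_append, pr_perm κ hσ]
      exact mul_le_mul_of_nonneg_right h2 (pr_nonneg hκ _)
  refine key.trans ?_
  rw [S_mul_right]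
  refine mul_le_mul_of_nonneg_right ?_ hc
  rw [S_len τ fun s => ((2 * τ.length + 1 - s).factorial : ℝ)]
  exact Bn_fact (N := 2 * τ.length + 1) (n := τ.length) (by omega)

/-- **Typed block C.**  The cumulants of the pairing of two laws, edges typed. -/
theorem blockCT {V : Λ → Finset Ω} {ξ : Ω → Ω → ℝ} (hξ : CV V ξ) {M T M' T' : Multiset Ω → ℝ}
    (hM0 : M 0 = 1) (hM : MC M T) (hM0' : M' 0 = 1) (hM' : MC M' T')
    {b0 : ℕ} {y κ : Λ → ℝ} {N : Λ → Λ → ℝ}
    (hT : BdT V b0 y κ N T) (hT' : BdT V b0 y κ N T') (hy : ∀ l, 1 ≤ y l) (hκ : ∀ l, 0 ≤ κ l)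
    (hκ1 : ∀ l, κ l ≤ 1) (hN0 : ∀ l m, 0 ≤ N l m) (hN : ∀ l m, N l m ≤ y l * y m)
    {w : Multiset Λ → ℝ} (hw : MC (zt V ξ M M') w)
    {l : Λ} {s : Multiset Λ} (hb : Multiset.card s + 1 ≤ b0) {G : ℝ} (h1 : y l ^ 2 ≤ G)
    (h2 : κ l ≤ G) (h3 : ∀ m ∈ s, N l m * (y l * y m) ≤ G * κ m) :
    |w (l ::ₘ s)| ≤ ((2 * Multiset.card s + 2).factorial : ℝ) * (G * (s.map κ).prod) := by
  induction s using Quotient.inductionOn with
  | _ τ =>
    have e1 := Urt_eq V ξ hM0 hM hM0' hM' hw l (k := 2 * τ.length + 2) τ.length τ rfl le_rfl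
    have e2 := Urt_le hξ hT hT' hy hκ hκ1 hN0 hN (2 * τ.length + 2) (l := l) (τ := τ)
      (by simpa using hb) h1 h2 (by simpa using h3)
    rw [e1] at e2
    simpa [pr] using e2

/-- Existence of the cumulants of the pairing. -/
theorem exists_w (V : Λ → Finset Ω) (ξ : Ω → Ω → ℝ) {M M' : Multiset Ω → ℝ}
    (hM0 : M 0 = 1) (hM0' : M' 0 = 1) :
    MC (zt V ξ M M') (H232.cumT (zt V ξ M M')) :=
  mc_cumT (by rw [zt_zero, hM0, hM0', one_mul])

end Vale.Agent.P042.H284
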