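import Vale.Agent.P042.H284.SeamE
import Vale.Agent.P042.H284.TMain
import Vale.Agent.P042.H232.Dict

/-!
# P042: the typed pairing of moments is the sum over the sets of coordinates of given type

The tokens `ω : Ω` have a coordinate `c ω : ι`, the coordinates have a type (scale) `sc i : J`.
-/

open Finset Finset.HasAntidiagonal

set_option linter.unusedSectionVars false

namespace Vale.Agent.P042.H284

open Vale.Agent.P042.H159 (MC xi xi_nil xi_cons)
open Vale.Agent.P042.H232 (Dst mom mom_of_dst mom_of_not)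

universe u

variable {J : Type*} [Fintype J] [DecidableEq J] {ι : Type*} [Fintype ι] [DecidableEq ι]
  (sc : ι → J)

theorem count_map_sc (B : Finset ι) (l : J) :
    (B.filter fun i => sc i = l).card = (B.val.map sc).count l := by
  rw [Multiset.count_map, Finset.card_def, Finset.filter_val]
  congr 1
  exact Multiset.filter_congr fun x _ => ⟨fun h => h.symm, fun h => h.symm⟩

/-- Counting `(i, B)` versus `insert i B`, typed. -/
theorem comb_setsT (U : Finset ι) (l : J) (τ : Multiset J) (f : Finset ι → ℝ) :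
    ∑ i ∈ Uᶜ.filter (fun i => sc i = l),
      ∑ B ∈ (insert i U)ᶜ.powerset.filter (fun B => B.val.map sc = τ), f (insert i B)
      = ((τ.count l : ℝ) + 1) *
        ∑ B ∈ Uᶜ.powerset.filter (fun B => B.val.map sc = l ::ₘ τ), f B := by
  have h1 : ((τ.count l : ℝ) + 1) *
      ∑ B ∈ Uᶜ.powerset.filter (fun B => B.val.map sc = l ::ₘ τ), f B
      = ∑ B ∈ Uᶜ.powerset.filter (fun B => B.val.map sc = l ::ₘ τ),
        ∑ i ∈ B.filter (fun i => sc i = l), f B := by
    rw [Finset.mul_sum]
    refine Finset.sum_congr rfl fun B hB => ?_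
    rw [Finset.sum_const, count_map_sc, (Finset.mem_filter.1 hB).2, Multiset.count_cons_self,
      nsmul_eq_mul]
    push_cast
    ring
  rw [h1, Finset.sum_sigma', Finset.sum_sigma']
  refine Finset.sum_nbij' (fun p => ⟨insert p.1 p.2, p.1⟩) (fun p => ⟨p.2, p.1.erase p.2⟩)
    ?_ ?_ ?_ ?_ ?_
  · rintro ⟨i, B⟩ h
    simp only [Finset.mem_sigma, Finset.mem_filter, Finset.mem_powerset, Finset.mem_compl] at h ⊢
    obtain ⟨⟨hi, hsi⟩, hB, hc⟩ := h
    have hiB : i ∉ B := fun h => by
      have := hB h
      simp at this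
    refine ⟨⟨?_, ?_⟩, Finset.mem_insert_self _ _, hsi⟩
    · intro j hj
      rcases Finset.mem_insert.1 hj with rfl | hj
      · simpa using hi
      · have := hB hj
        simp only [Finset.mem_compl, Finset.mem_insert, not_or] at this ⊢
        exact this.2
    · rw [Finset.insert_val_of_notMem hiB, Multiset.map_cons, hc, hsi]
  · rintro ⟨B, i⟩ h
    simp only [Finset.mem_sigma, Finset.mem_filter, Finset.mem_powerset, Finset.mem_compl] at h ⊢
    obtain ⟨⟨hB, hc⟩, hi, hsi⟩ := h
    refine ⟨⟨by simpa using hB hi, hsi⟩, ?_, ?_⟩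
    · intro j hj
      have h1 := hB (Finset.mem_of_mem_erase hj)
      have h2 := Finset.ne_of_mem_erase hj
      simp only [Finset.mem_compl, Finset.mem_insert, not_or] at h1 ⊢
      exact ⟨h2, h1⟩
    · have h3 : (insert i (B.erase i)).val.map sc = l ::ₘ τ := by
        rw [Finset.insert_erase hi]; exact hc
      rw [Finset.insert_val_of_notMem (Finset.notMem_erase i B), Multiset.map_cons, hsi] at h3
      exact (Multiset.cons_inj_right l).1 h3
  · rintro ⟨i, B⟩ h
    simp only [Finset.mem_sigma, Finset.mem_filter, Finset.mem_powerset, Finset.mem_compl] at h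
    obtain ⟨⟨hi, hsi⟩, hB, hc⟩ := h
    have hiB : i ∉ B := fun h => by
      have := hB h
      simp at this
    simp [Finset.erase_insert hiB]
  · rintro ⟨B, i⟩ h
    simp only [Finset.mem_sigma, Finset.mem_filter, Finset.mem_powerset] at h
    obtain ⟨⟨hB, hc⟩, hi, hsi⟩ := h
    simp [Finset.insert_erase hi]
  · rintro ⟨i, B⟩ _
    rfl

variable {Ω : Type u} [Fintype Ω] (c : Ω → ι)

open Classical in
/-- Distinct tuples with prescribed types and a product weight are sets. -/
theorem sum_Lt_dst {P : J → Finset Ω} (hP : ∀ l, ∀ ω ∈ P l, sc (c ω) = l) (w : Ω → ℝ)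
    (τ : List J) : ∀ U : Finset ι,
    ∑ E ∈ Lt P τ, (E.map w).prod *
        (if Dst c (E : Multiset Ω) ∧ (∀ ω ∈ E, c ω ∉ U) then (1 : ℝ) else 0)
      = fa (Multiset.toFinsupp (τ : Multiset J)) *
        ∑ B ∈ Uᶜ.powerset.filter (fun B => B.val.map sc = (τ : Multiset J)),
          ∏ i ∈ B, ∑ ω ∈ P (sc i), if c ω = i then w ω else 0 := by
  induction τ with
  | nil =>
    intro U
    rw [sum_Lt_nil]
    have h1 : Uᶜ.powerset.filter (fun B : Finset ι => B.val.map sc = (([] : List J) : Multiset J))
        = {∅} := by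
      ext B
      simp only [Finset.mem_filter, Finset.mem_powerset, Multiset.coe_nil, Multiset.map_eq_zero,
        Finset.val_eq_zero, Finset.mem_singleton]
      constructor
      · exact fun h => h.2
      · rintro rfl
        exact ⟨Finset.empty_subset _, rfl⟩
    have h2 : Dst c (([] : List Ω) : Multiset Ω) ∧ (∀ ω ∈ ([] : List Ω), c ω ∉ U) :=
      ⟨H232.dst_zero _, fun ω h => absurd h (List.not_mem_nil)⟩
    rw [h1, if_pos h2]
    simp
  | cons l τ ih =>
    intro U
    rw [sum_Lt_cons]
    have h2 : ∀ ω ∈ P l, ∑ E ∈ Lt P τ, ((ω :: E).map w).prod *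
        (if Dst c ((ω :: E : List Ω) : Multiset Ω) ∧ (∀ ω' ∈ ω :: E, c ω' ∉ U) then (1 : ℝ) else 0)
        = w ω * (if c ω ∈ U then 0 else fa (Multiset.toFinsupp (τ : Multiset J)) *
          ∑ B ∈ (insert (c ω) U)ᶜ.powerset.filter (fun B => B.val.map sc = (τ : Multiset J)),
          ∏ i ∈ B, ∑ ω' ∈ P (sc i), if c ω' = i then w ω' else 0) := by
      intro ω _
      by_cases hω : c ω ∈ U
      · rw [if_pos hω, mul_zero]
        apply Finset.sum_eq_zero
        intro E _
        rw [if_neg, mul_zero]
        rintro ⟨_, h⟩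
        exact h ω (List.mem_cons_self) hω
      · rw [if_neg hω, ← ih (insert (c ω) U), Finset.mul_sum]
        refine Finset.sum_congr rfl fun E _ => ?_
        have : (Dst c ((ω :: E : List Ω) : Multiset Ω) ∧ (∀ ω' ∈ ω :: E, c ω' ∉ U)) ↔
            (Dst c (E : Multiset Ω) ∧ (∀ ω' ∈ E, c ω' ∉ insert (c ω) U)) := by
          unfold Dst
          rw [← Multiset.cons_coe, Multiset.map_cons, Multiset.nodup_cons]
          constructor
          · rintro ⟨⟨h3, h4⟩, h5⟩
            refine ⟨h4, fun ω' hω' => ?_⟩
            rw [Finset.mem_insert, not_or]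
            refine ⟨fun h6 => h3 ?_, h5 ω' (List.mem_cons_of_mem _ hω')⟩
            rw [← h6]
            exact Multiset.mem_map_of_mem _ (Multiset.mem_coe.2 hω')
          · rintro ⟨h4, h5⟩
            refine ⟨⟨fun h3 => ?_, h4⟩, fun ω' hω' => ?_⟩
            · obtain ⟨ω', h6, h7⟩ := Multiset.mem_map.1 h3
              exact h5 ω' (Multiset.mem_coe.1 h6) (by rw [h7]; exact Finset.mem_insert_self _ _)
            · rcases List.mem_cons.1 hω' with rfl | h6
              · exact hω
              · exact fun h7 => h5 ω' h6 (Finset.mem_insert_of_mem h7)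
        simp only [this, List.map_cons, List.prod_cons]
        ring
    rw [Finset.sum_congr rfl h2]
    have h3 : ∑ ω ∈ P l, w ω * (if c ω ∈ U then 0 else fa (Multiset.toFinsupp (τ : Multiset J)) *
          ∑ B ∈ (insert (c ω) U)ᶜ.powerset.filter (fun B => B.val.map sc = (τ : Multiset J)),
          ∏ i ∈ B, ∑ ω' ∈ P (sc i), if c ω' = i then w ω' else 0)
        = ∑ i : ι, (∑ ω ∈ P l, if c ω = i then w ω else 0) * (if i ∈ U then 0 else
          fa (Multiset.toFinsupp (τ : Multiset J)) *
          ∑ B ∈ (insert i U)ᶜ.powerset.filter (fun B => B.val.map sc = (τ : Multiset J)),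
          ∏ i ∈ B, ∑ ω' ∈ P (sc i), if c ω' = i then w ω' else 0) := by
      simp only [Finset.sum_mul]
      rw [Finset.sum_comm]
      refine Finset.sum_congr rfl fun ω _ => ?_
      rw [Finset.sum_eq_single (c ω)]
      · rw [if_pos rfl]
      · intro i _ hi
        rw [if_neg (Ne.symm hi), zero_mul]
      · intro h
        exact absurd (Finset.mem_univ _) h
    rw [h3]
    have h4 : ∀ i : ι, (∑ ω ∈ P l, if c ω = i then w ω else 0) * (if i ∈ U then 0 else
          fa (Multiset.toFinsupp (τ : Multiset J)) *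
          ∑ B ∈ (insert i U)ᶜ.powerset.filter (fun B => B.val.map sc = (τ : Multiset J)),
          ∏ i ∈ B, ∑ ω' ∈ P (sc i), if c ω' = i then w ω' else 0)
        = if i ∈ Uᶜ.filter (fun i => sc i = l) then fa (Multiset.toFinsupp (τ : Multiset J)) *
          ∑ B ∈ (insert i U)ᶜ.powerset.filter (fun B => B.val.map sc = (τ : Multiset J)),
          ∏ j ∈ insert i B, ∑ ω' ∈ P (sc j), (if c ω' = j then w ω' else 0) else 0 := by
      intro i
      by_cases hi : i ∈ U
      · simp [hi]
      · by_cases hs : sc i = l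
        · have hm : i ∈ Uᶜ.filter (fun i => sc i = l) := by simp [hi, hs]
          rw [if_neg hi, if_pos hm, mul_left_comm, Finset.mul_sum]
          congr 1
          refine Finset.sum_congr rfl fun B hB => ?_
          have hiB : i ∉ B := fun h => by
            have := (Finset.mem_powerset.1 (Finset.mem_filter.1 hB).1) h
            simp at this
          rw [Finset.prod_insert hiB, hs]
        · have hm : i ∉ Uᶜ.filter (fun i => sc i = l) := by simp [hs]
          rw [if_neg hm]
          have h5 : (∑ ω ∈ P l, if c ω = i then w ω else 0) = 0 := by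
            apply Finset.sum_eq_zero
            intro ω hω
            rw [if_neg]
            rintro rfl
            exact hs (hP l ω hω)
          rw [h5, zero_mul]
    rw [Finset.sum_congr rfl (fun i _ => h4 i), ← Finset.sum_filter]
    have h5 : (univ : Finset ι).filter (fun i => i ∈ Uᶜ.filter (fun i => sc i = l))
        = Uᶜ.filter (fun i => sc i = l) := by ext i; simp
    rw [h5, ← Finset.mul_sum]
    rw [comb_setsT sc U l τ (fun B => ∏ j ∈ B, ∑ ω' ∈ P (sc j), (if c ω' = j then w ω' else 0))]
    have h6 : Multiset.toFinsupp ((l :: τ : List J) : Multiset J)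
        = Multiset.toFinsupp (τ : Multiset J) + Finsupp.single l 1 := by
      rw [← Multiset.cons_coe, ← Multiset.singleton_add, map_add, Multiset.toFinsupp_singleton,
        add_comm]
    rw [h6, fa_add_single, Multiset.toFinsupp_apply, ← Multiset.cons_coe]
    ring

section fmom

variable {X Y : Type*} (D : Finset X) (D' : Finset Y) (μ : X → ℝ) (μ' : Y → ℝ) (U : Ω → X → ℝ)
  (U' : Ω → Y → ℝ) (ξ : Ω → Ω → ℝ)

/-- The kernel at the coordinate `i` (tokens of the coordinate `i` only). -/
noncomputable def Kc (i : ι) (x : X) (y : Y) : ℝ :=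
  ∑ p : Ω × Ω, if c p.1 = i then ξ p.1 p.2 * U p.1 x * U' p.2 y else 0

/-- `∑∑ μ x μ' y ∏_{i ∈ B} K_i x y` -/
noncomputable def FB (B : Finset ι) : ℝ :=
  ∑ x ∈ D, ∑ y ∈ D', μ x * μ' y * ∏ i ∈ B, Kc c U U' ξ i x y

/-- The type of a set of coordinates, a multi-index. -/
noncomputable def tyi (B : Finset ι) : J →₀ ℕ := Multiset.toFinsupp (B.val.map sc)

/-- **The typed pairing is the sum over the sets of given type.** -/
theorem zt_mom {V : J → Finset Ω} (hV : ∀ l ω, ω ∈ V l ↔ sc (c ω) = l)
    (hξ : ∀ p q, c p ≠ c q → ξ p q = 0) (τ : List J) :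
    zt V ξ (mom c D μ U) (mom c D' μ' U') (τ : Multiset J)
      = fa (Multiset.toFinsupp (τ : Multiset J)) *
        ∑ B ∈ (univ : Finset ι).powerset.filter (fun B => B.val.map sc = (τ : Multiset J)),
          FB c D D' μ μ' U U' ξ B := by
  classical
  rw [zt_coe']
  have h1 : ∀ E : List (Ω × Ω), xi ξ E * mom c D μ U ↑(E.map Prod.fst) *
      mom c D' μ' U' ↑(E.map Prod.snd)
      = ∑ x ∈ D, ∑ y ∈ D', μ x * μ' y * ((E.map (fun e => ξ e.1 e.2 * U e.1 x * U' e.2 y)).prod *
          (if Dst (fun e : Ω × Ω => c e.1) (E : Multiset (Ω × Ω)) then 1 else 0)) := by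
    intro E
    by_cases hE : ∀ e ∈ E, c e.1 = c e.2
    · have hmap : ((E.map Prod.snd : List Ω) : Multiset Ω).map c
          = ((E.map Prod.fst : List Ω) : Multiset Ω).map c := by
        simp only [Multiset.map_coe, List.map_map]
        congr 1
        apply List.map_congr_left
        intro e he
        exact (hE e he).symm
      have hmap2 : (E : Multiset (Ω × Ω)).map (fun e : Ω × Ω => c e.1)
          = ((E.map Prod.fst : List Ω) : Multiset Ω).map c := by
        simp only [Multiset.map_coe, List.map_map]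
        rfl
      by_cases hd : Dst (fun e : Ω × Ω => c e.1) (E : Multiset (Ω × Ω))
      · have hd1 : Dst c ((E.map Prod.fst : List Ω) : Multiset Ω) := by
          unfold Dst at hd ⊢; rwa [hmap2] at hd
        have hd2 : Dst c ((E.map Prod.snd : List Ω) : Multiset Ω) := by
          unfold Dst at hd ⊢; rwa [hmap, ← hmap2]
        rw [mom_of_dst c D μ U hd1, mom_of_dst c D' μ' U' hd2]
        simp only [if_pos hd, mul_one]
        rw [mul_assoc, Finset.sum_mul_sum, Finset.mul_sum]
        refine Finset.sum_congr rfl fun x _ => ?_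
        rw [Finset.mul_sum]
        refine Finset.sum_congr rfl fun y _ => ?_
        have h2 : (E.map (fun e => ξ e.1 e.2 * U e.1 x * U' e.2 y)).prod
            = xi ξ E * (((E.map Prod.fst : List Ω) : Multiset Ω).map (fun ω => U ω x)).prod
              * (((E.map Prod.snd : List Ω) : Multiset Ω).map (fun ω => U' ω y)).prod := by
          simp only [Multiset.map_coe, Multiset.prod_coe, List.map_map]
          unfold xi
          clear hE hmap hmap2 hd hd1 hd2
          induction E with
          | nil => simp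
          | cons a l ih =>
            simp only [List.map_cons, List.prod_cons, Function.comp_apply]
            simp only [Function.comp_def] at ih ⊢
            rw [ih]
            ring
        rw [h2]
        ring
      · have hd1 : ¬ Dst c ((E.map Prod.fst : List Ω) : Multiset Ω) := by
          unfold Dst at hd ⊢; rwa [hmap2] at hd
        rw [mom_of_not c D μ U hd1]
        simp [hd]
    · push Not at hE
      obtain ⟨e, he, hne⟩ := hE
      have h2 : xi ξ E = 0 := by
        unfold xi
        apply List.prod_eq_zero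
        rw [List.mem_map]
        exact ⟨e, he, hξ _ _ hne⟩
      rw [h2, zero_mul, zero_mul]
      symm
      apply Finset.sum_eq_zero
      intro x _
      apply Finset.sum_eq_zero
      intro y _
      have h3 : (E.map (fun e => ξ e.1 e.2 * U e.1 x * U' e.2 y)).prod = 0 := by
        apply List.prod_eq_zero
        rw [List.mem_map]
        exact ⟨e, he, by rw [hξ _ _ hne]; ring⟩
      rw [h3]
      ring
  have hP : ∀ l, ∀ e ∈ VV V l, sc (c (Prod.fst e)) = l := by
    intro l e he
    exact (hV l e.1).1 (Finset.mem_product.1 he).1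
  have hK : ∀ i x y, (∑ e ∈ VV V (sc i), if c e.1 = i then ξ e.1 e.2 * U e.1 x * U' e.2 y else 0)
      = Kc c U U' ξ i x y := by
    intro i x y
    unfold Kc
    apply Finset.sum_subset (Finset.subset_univ _)
    intro e _ hn
    by_cases h1 : c e.1 = i
    · rw [if_pos h1]
      have h2 : c e.1 ≠ c e.2 := by
        intro h
        apply hn
        refine Finset.mem_product.2 ⟨?_, ?_⟩
        · rw [hV, h1]
        · rw [hV, ← h, h1]
      rw [hξ _ _ h2]
      ring
    · rw [if_neg h1]
  have h4 : ∀ x y, ∑ E ∈ Lt (VV V) τ, (E.map (fun e => ξ e.1 e.2 * U e.1 x * U' e.2 y)).prod *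
      (if Dst (fun e : Ω × Ω => c e.1) (E : Multiset (Ω × Ω)) then 1 else 0)
      = fa (Multiset.toFinsupp (τ : Multiset J)) *
        ∑ B ∈ (univ : Finset ι).powerset.filter (fun B => B.val.map sc = (τ : Multiset J)),
          ∏ i ∈ B, Kc c U U' ξ i x y := by
    intro x y
    have h5 := sum_Lt_dst sc (fun e : Ω × Ω => c e.1) hP
      (fun e => ξ e.1 e.2 * U e.1 x * U' e.2 y) τ ∅
    rw [Finset.compl_empty] at h5
    simp only [hK] at h5
    rw [← h5]
    refine Finset.sum_congr rfl fun E _ => ?_
    simp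
  rw [Finset.sum_congr rfl (fun E _ => h1 E), Finset.sum_comm]
  have h6 : ∀ x ∈ D, ∑ E ∈ Lt (VV V) τ, ∑ y ∈ D', μ x * μ' y *
      ((E.map (fun e => ξ e.1 e.2 * U e.1 x * U' e.2 y)).prod *
          (if Dst (fun e : Ω × Ω => c e.1) (E : Multiset (Ω × Ω)) then 1 else 0))
      = ∑ y ∈ D', μ x * μ' y * (fa (Multiset.toFinsupp (τ : Multiset J)) *
        ∑ B ∈ (univ : Finset ι).powerset.filter (fun B => B.val.map sc = (τ : Multiset J)),
          ∏ i ∈ B, Kc c U U' ξ i x y) := by
    intro x _
    rw [Finset.sum_comm]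
    refine Finset.sum_congr rfl fun y _ => ?_
    rw [← Finset.mul_sum, h4]
  rw [Finset.sum_congr rfl h6]
  unfold FB
  simp only [Finset.mul_sum]
  symm
  rw [Finset.sum_comm]
  refine Finset.sum_congr rfl fun x _ => ?_
  rw [Finset.sum_comm]
  refine Finset.sum_congr rfl fun y _ => Finset.sum_congr rfl fun B _ => ?_
  ring

/-- The same for the coefficients: `co z a = ∑_{B of type a} F_B`. -/
theorem co_zt_mom {V : J → Finset Ω} (hV : ∀ l ω, ω ∈ V l ↔ sc (c ω) = l)
    (hξ : ∀ p q, c p ≠ c q → ξ p q = 0) (a : J →₀ ℕ) :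
    co (zt V ξ (mom c D μ U) (mom c D' μ' U')) a
      = ∑ B ∈ (univ : Finset ι).powerset.filter (fun B => tyi sc B = a),
          FB c D D' μ μ' U U' ξ B := by
  unfold co
  have h := zt_mom sc c D D' μ μ' U U' ξ hV hξ (Finsupp.toMultiset a).toList
  rw [Multiset.coe_toList, Finsupp.toMultiset_toFinsupp] at h
  rw [h, mul_div_assoc, mul_comm, div_mul_cancel₀ _ (fa_pos a).ne']
  refine Finset.sum_congr ?_ fun _ _ => rfl
  refine Finset.filter_congr fun B _ => ?_
  unfold tyi
  constructor
  · intro h1
    rw [h1, Finsupp.toMultiset_toFinsupp]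
  · intro h1
    rw [← h1, Multiset.toFinsupp_toMultiset]

end fmom

section tyi

theorem tyi_apply (B : Finset ι) (j : J) :
    tyi sc B j = (B.filter fun i => sc i = j).card := by
  unfold tyi
  rw [Multiset.toFinsupp_apply, ← count_map_sc]

theorem tyi_degree (B : Finset ι) : (tyi sc B).degree = B.card := by
  rw [Finsupp.degree_eq_sum]
  simp only [tyi_apply]
  exact (Finset.card_eq_sum_card_fiberwise fun i _ => Finset.mem_coe.2 (Finset.mem_univ (sc i))).symm

theorem tyi_empty : tyi sc (∅ : Finset ι) = 0 := by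
  unfold tyi
  simp

theorem tyi_le (B : Finset ι) (j : J) :
    tyi sc B j ≤ ((univ : Finset ι).filter fun i => sc i = j).card := by
  rw [tyi_apply]
  exact Finset.card_le_card (Finset.filter_subset_filter _ (Finset.subset_univ _))

/-- Summing over the types. -/
theorem sum_tyi (DD : Finset (Finset ι)) (f : Finset ι → ℝ) :
    ∑ B ∈ DD, f B = ∑ a ∈ DD.image (tyi sc), ∑ B ∈ DD.filter (fun B => tyi sc B = a), f B :=
  (Finset.sum_fiberwise_of_maps_to (fun _ hB => Finset.mem_image_of_mem _ hB) f).symm

end tyi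

end Vale.Agent.P042.H284
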