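import Vale.Agent.P042.H284.SeamD

/-!
# P042: the output of typed block C in the form of the interpolation theorem

* `w_all`: block C with exponential weights, all orders;
* `dyad_sum`: `∑ i, exp (-c |ell i - ell j|)` for dyadic scales;
* `seam_out`: orders one and two, and the direct bound for orders at least three.
-/

open Finset

set_option linter.unusedSectionVars false

namespace Vale.Agent.P042.H284

open Vale.Agent.P042.H159 (MC)

universe u v

section all

variable {Ω : Type u} [Fintype Ω] {Λ : Type v}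

/-- The exponent of the bound with root `l` of smallest size. -/
noncomputable def bex (g c1 : ℝ) (ell : Λ → ℝ) (l : Λ) (s : Multiset Λ) : ℝ :=
  (if Multiset.card s = 0 then 2 * g else c1 + 3 * g) * ell l - c1 * (s.map ell).sum

/-- **Block C with exponential weights, all orders.** -/
theorem w_all {V : Λ → Finset Ω} {ξ : Ω → Ω → ℝ} (hξ : CV V ξ) {M T M' T' : Multiset Ω → ℝ}
    (hM0 : M 0 = 1) (hM : MC M T) (hM0' : M' 0 = 1) (hM' : MC M' T') {ell : Λ → ℝ}
    (hell : ∀ l, 0 ≤ ell l) {g c1 c2 : ℝ} (hg : 0 ≤ g) (hc1 : 0 ≤ c1) (hc : g + c1 ≤ c2)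
    {N : Λ → Λ → ℝ} {b0 : ℕ}
    (hT : BdT V b0 (fun l => Real.exp (g * ell l)) (fun l => Real.exp (-(c1 * ell l))) N T)
    (hT' : BdT V b0 (fun l => Real.exp (g * ell l)) (fun l => Real.exp (-(c1 * ell l))) N T')
    (hN : ∀ l m, 0 ≤ N l m) (hN' : ∀ l m, N l m ≤ Real.exp (g * ell l) * Real.exp (g * ell m))
    (hN2 : ∀ l m, ell l ≤ ell m → N l m ≤ Real.exp (g * ell l - c2 * (ell m - ell l)))
    {w : Multiset Λ → ℝ} (hw : MC (zt V ξ M M') w) (l : Λ) (s : Multiset Λ)
    (hmin : ∀ m ∈ s, ell l ≤ ell m) (hb : Multiset.card s + 1 ≤ b0) :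
    |w (l ::ₘ s)| ≤ ((2 * Multiset.card s + 2).factorial : ℝ) * Real.exp (bex g c1 ell l s) := by
  have hy : ∀ l, 1 ≤ Real.exp (g * ell l) := fun l =>
    Real.one_le_exp (mul_nonneg hg (hell l))
  have hκ1 : ∀ l, Real.exp (-(c1 * ell l)) ≤ 1 := fun l => by
    rw [Real.exp_le_one_iff]
    have := mul_nonneg hc1 (hell l)
    linarith
  have hl0 := hell l
  have hgl := mul_nonneg hg hl0
  have hcl := mul_nonneg hc1 hl0
  unfold bex
  by_cases hs : Multiset.card s = 0
  · have hs' : s = 0 := Multiset.card_eq_zero.1 hs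
    subst hs'
    have h := blockCT hξ hM0 hM hM0' hM' hT hT' hy (fun l => (Real.exp_pos _).le) hκ1 hN hN' hw
      (l := l) (s := 0) (G := Real.exp (2 * g * ell l)) hb
      (by
        rw [← Real.exp_nat_mul]
        apply Real.exp_le_exp.2
        push_cast
        linarith)
      (by
        apply Real.exp_le_exp.2
        linarith)
      (by
        intro m hm
        exact absurd hm (Multiset.notMem_zero m))
    rw [if_pos hs]
    simpa using h
  · rw [if_neg hs]
    have h := blockCT hξ hM0 hM hM0' hM' hT hT' hy (fun l => (Real.exp_pos _).le) hκ1 hN hN' hw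
      (l := l) (s := s) (G := Real.exp ((c1 + 3 * g) * ell l)) hb
      (by
        rw [← Real.exp_nat_mul]
        apply Real.exp_le_exp.2
        push_cast
        linarith)
      (by
        apply Real.exp_le_exp.2
        linarith)
      (by
        intro m hm
        have hlm := hmin m hm
        rw [← Real.exp_add, ← Real.exp_add]
        refine (mul_le_mul_of_nonneg_right (hN2 l m hlm) (Real.exp_pos _).le).trans ?_
        rw [← Real.exp_add]
        apply Real.exp_le_exp.2
        have h1 := mul_le_mul_of_nonneg_right hc (sub_nonneg.2 hlm)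
        linarith)
    refine h.trans (le_of_eq ?_)
    rw [prod_exp_neg, ← Real.exp_add]
    congr 2

end all

section dyad

/-- powers at distinct exponents -/
theorem sum_pow_inj {α : Type*} (S : Finset α) (φ : α → ℕ) (hφ : Set.InjOn φ (S : Set α)) {r : ℝ}
    (h0 : 0 ≤ r) (h1 : r < 1) : ∑ i ∈ S, r ^ φ i ≤ (1 - r)⁻¹ := by
  classical
  rw [← Finset.sum_image (f := fun k => r ^ k) hφ, ← tsum_geometric_of_lt_one h0 h1]
  exact (summable_geometric_of_lt_one h0 h1).sum_le_tsum _ fun i _ => pow_nonneg h0 i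

theorem dyad_sum {J : Type v} [Fintype J] (sc : J → ℕ) (hsc : Function.Injective sc) {c : ℝ}
    (hc : 0 < c) (j : J) :
    ∑ i, Real.exp (-(c * |(sc i : ℝ) * Real.log 2 - sc j * Real.log 2|))
      ≤ 2 * (1 - Real.exp (-(c * Real.log 2)))⁻¹ := by
  classical
  set r := Real.exp (-(c * Real.log 2)) with hr
  have hl2 : 0 < Real.log 2 := Real.log_pos (by norm_num)
  have hr0 : 0 ≤ r := (Real.exp_pos _).le
  have hr1 : r < 1 := by
    rw [hr, Real.exp_lt_one_iff]
    have := mul_pos hc hl2
    linarith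
  rw [← Finset.sum_filter_add_sum_filter_not univ (fun i => sc j ≤ sc i)]
  have h1 : ∑ i ∈ univ.filter (fun i => sc j ≤ sc i),
      Real.exp (-(c * |(sc i : ℝ) * Real.log 2 - sc j * Real.log 2|)) ≤ (1 - r)⁻¹ := by
    refine le_trans (le_of_eq ?_) (sum_pow_inj (univ.filter (fun i => sc j ≤ sc i))
      (fun i => sc i - sc j) ?_ hr0 hr1)
    · refine Finset.sum_congr rfl fun i hi => ?_
      have hi' := (Finset.mem_filter.1 hi).2
      have h2 : (0 : ℝ) ≤ (sc i : ℝ) * Real.log 2 - sc j * Real.log 2 := by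
        rw [← sub_mul]
        apply mul_nonneg _ hl2.le
        rw [sub_nonneg]
        exact_mod_cast hi'
      rw [abs_of_nonneg h2, hr, ← Real.exp_nat_mul, Nat.cast_sub hi']
      congr 1
      ring
    · intro a ha b hb hab
      have ha' := (Finset.mem_filter.1 (Finset.mem_coe.1 ha)).2
      have hb' := (Finset.mem_filter.1 (Finset.mem_coe.1 hb)).2
      apply hsc
      simp only at hab
      omega
  have h3 : ∑ i ∈ univ.filter (fun i => ¬ sc j ≤ sc i),
      Real.exp (-(c * |(sc i : ℝ) * Real.log 2 - sc j * Real.log 2|)) ≤ (1 - r)⁻¹ := by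
    refine le_trans (le_of_eq ?_) (sum_pow_inj (univ.filter (fun i => ¬ sc j ≤ sc i))
      (fun i => sc j - sc i) ?_ hr0 hr1)
    · refine Finset.sum_congr rfl fun i hi => ?_
      have hi' := (not_le.1 (Finset.mem_filter.1 hi).2).le
      have h2 : (sc i : ℝ) * Real.log 2 - sc j * Real.log 2 ≤ 0 := by
        rw [← sub_mul]
        apply mul_nonpos_of_nonpos_of_nonneg _ hl2.le
        rw [sub_nonpos]
        exact_mod_cast hi'
      rw [abs_of_nonpos h2, hr, ← Real.exp_nat_mul, Nat.cast_sub hi']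
      congr 1
      ring
    · intro a ha b hb hab
      have ha' := not_le.1 (Finset.mem_filter.1 (Finset.mem_coe.1 ha)).2
      have hb' := not_le.1 (Finset.mem_filter.1 (Finset.mem_coe.1 hb)).2
      apply hsc
      simp only at hab
      omega
  linarith

theorem exists_pow_le_exp (n : ℕ) {e C : ℝ} (he : 0 < e) (hC : 0 < C) :
    ∃ x0 : ℝ, ∀ x, x0 ≤ x → C * x ^ n ≤ Real.exp (e * x) := by
  have h := Real.tendsto_pow_mul_exp_neg_atTop_nhds_zero n
  have h2 : 0 < e ^ n / C := by positivity
  have h3 := h.eventually (gt_mem_nhds h2)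
  obtain ⟨y0, hy0⟩ := Filter.eventually_atTop.1 h3
  refine ⟨y0 / e, fun x hx => ?_⟩
  have h4 : y0 ≤ e * x := by
    rw [div_le_iff₀ he] at hx
    linarith
  have h5 := hy0 (e * x) h4
  rw [mul_pow] at h5
  have h6 : e ^ n * x ^ n * Real.exp (-(e * x)) * Real.exp (e * x) = e ^ n * x ^ n := by
    rw [mul_assoc, ← Real.exp_add]
    simp
  have h7 : e ^ n * x ^ n < e ^ n / C * Real.exp (e * x) := by
    rw [← h6]
    exact mul_lt_mul_of_pos_right h5 (Real.exp_pos _)
  have h8 : 0 < e ^ n := by positivity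
  have h9 : e ^ n * (C * x ^ n) < e ^ n * Real.exp (e * x) := by
    calc e ^ n * (C * x ^ n) = C * (e ^ n * x ^ n) := by ring
      _ < C * (e ^ n / C * Real.exp (e * x)) := mul_lt_mul_of_pos_left h7 hC
      _ = e ^ n * Real.exp (e * x) := by field_simp
  exact (lt_of_mul_lt_mul_left h9 h8.le).le

end dyad

section out

theorem toMultiset_single' {J : Type v} (j : J) :
    Finsupp.toMultiset (Finsupp.single j 1) = j ::ₘ 0 := by
  rw [Finsupp.toMultiset_single, one_smul]
  rfl

/-- **The output of typed block C.** -/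
theorem seam_out {c1 g' : ℝ} (hc1 : 0 < c1) (hg' : 0 < g') (hgc : g' ≤ c1) (A : ℕ) :
    ∃ l0 : ℕ, ∀ (J : Type v) [Fintype J] [DecidableEq J] (sc : J → ℕ) (ell : J → ℝ) (b0 : ℕ)
      (g : ℝ) (z w : Multiset J → ℝ), Function.Injective sc → (∀ j, l0 ≤ sc j) →
      (∀ j, ell j = sc j * Real.log 2) → 0 ≤ g → 8 * g ≤ g' → 2 ≤ b0 → z 0 = 1 → MC z w →
      (∀ (l : J) (s : Multiset J), (∀ m ∈ s, ell l ≤ ell m) → Multiset.card s + 1 ≤ b0 →
        ∃ (σ : ℝ) (z' w' : Multiset J → ℝ), 0 < σ ∧ σ⁻¹ ≤ ((l ::ₘ s).map ell).sum ^ A ∧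
          z' 0 = 1 ∧ MC z' w' ∧ (∀ τ ≤ l ::ₘ s, z' τ = z τ * σ ^ Multiset.card τ) ∧
          |w' (l ::ₘ s)| ≤ ((2 * Multiset.card s + 2).factorial : ℝ) *
            Real.exp (bex g c1 ell l s)) →
      (∀ j, |co w (Finsupp.single j 1)| ≤ Real.exp (g' * ell j)) ∧
      (∀ j, ∑ i, |co w (Finsupp.single i 1 + Finsupp.single j 1)| ≤ Real.exp (g' * ell j)) ∧
      (∀ a : J →₀ ℕ, 3 ≤ a.degree → a.degree ≤ b0 → |co w a| ≤
        Real.exp ((A + 4) * a.degree * Real.log (∑ j, (a j : ℝ) * ell j)
          - c1 / 6 * ∑ j, (a j : ℝ) * ell j)) := by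
  have he : 0 < g' / 4 := by linarith
  obtain ⟨x0, hx0⟩ := exists_pow_le_exp (2 * A) (C := 24 * 2 ^ (2 * A)) he (by positivity)
  obtain ⟨x1, hx1⟩ := exists_pow_le_exp A (C := 2) (e := g' / 4) he (by norm_num)
  set S : ℝ := 2 * (1 - Real.exp (-(c1 / 2 * Real.log 2)))⁻¹ with hS
  obtain ⟨x2, hx2⟩ := exists_pow_le_exp 0 (C := max S 1) (e := g' / 4) he (by positivity)
  obtain ⟨l0, hl0⟩ := exists_nat_ge ((max (max x0 x1) (max x2 1)) / Real.log 2)
  refine ⟨l0, ?_⟩
  intro J _ _ sc ell b0 g z w hinj hsc hell hg hgg hb0 hz hw H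
  have hl2 : 0 < Real.log 2 := Real.log_pos (by norm_num)
  have hbig : ∀ j, max (max x0 x1) (max x2 1) ≤ ell j := by
    intro j
    rw [div_le_iff₀ hl2] at hl0
    rw [hell j]
    refine hl0.trans ?_
    apply mul_le_mul_of_nonneg_right _ hl2.le
    exact_mod_cast hsc j
  have he0 : ∀ j, x0 ≤ ell j := fun j => (le_max_left _ _).trans ((le_max_left _ _).trans (hbig j))
  have he1 : ∀ j, x1 ≤ ell j := fun j =>
    (le_max_right _ _).trans ((le_max_left _ _).trans (hbig j))
  have he2 : ∀ j, x2 ≤ ell j := fun j =>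
    (le_max_left _ _).trans ((le_max_right _ _).trans (hbig j))
  have hone : ∀ j, 1 ≤ ell j := fun j =>
    (le_max_right _ _).trans ((le_max_right _ _).trans (hbig j))
  refine ⟨?_, ?_, ?_⟩
  · -- order one
    intro j
    have hj := hone j
    obtain ⟨σ, z', w', hσ, hσA, hz', hw', hzz, hww⟩ := H j 0 (fun m hm =>
      absurd hm (Multiset.notMem_zero m)) (by simpa using le_trans (by norm_num) hb0)
    have h1 := mc_scale_eq' hz hw hz' hw' σ (j ::ₘ 0) (Multiset.cons_ne_zero) hzz
    have hc : Multiset.card (j ::ₘ (0 : Multiset J)) = 1 := by simp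
    rw [hc, pow_one] at h1
    have h2 : |w (j ::ₘ 0)| = |w' (j ::ₘ 0)| * σ⁻¹ := by
      rw [h1, abs_mul, abs_of_pos hσ, mul_assoc, mul_inv_cancel₀ hσ.ne', mul_one]
    have h3 : |w' (j ::ₘ 0)| ≤ 2 * Real.exp (2 * g * ell j) := by
      refine hww.trans (le_of_eq ?_)
      simp [bex]
    have h4 : σ⁻¹ ≤ ell j ^ A := by
      simpa using hσA
    have h5 := hx1 (ell j) (he1 j)
    refine (abs_co_le w _).trans ?_
    rw [toMultiset_single', h2]
    calc |w' (j ::ₘ 0)| * σ⁻¹ ≤ (2 * Real.exp (2 * g * ell j)) * ell j ^ A :=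
          mul_le_mul h3 h4 (inv_nonneg.2 hσ.le) (by positivity)
      _ = Real.exp (2 * g * ell j) * (2 * ell j ^ A) := by ring
      _ ≤ Real.exp (2 * g * ell j) * Real.exp (g' / 4 * ell j) :=
          mul_le_mul_of_nonneg_left h5 (Real.exp_pos _).le
      _ = Real.exp ((2 * g + g' / 4) * ell j) := by rw [← Real.exp_add]; congr 1; ring
      _ ≤ Real.exp (g' * ell j) := by
          apply Real.exp_le_exp.2
          apply mul_le_mul_of_nonneg_right _ (by linarith)
          linarith
  · -- order two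
    intro j
    have key : ∀ l m : J, ell l ≤ ell m → |w (l ::ₘ m ::ₘ 0)| ≤
        Real.exp ((3 * g + g' / 4) * ell l - (c1 - g' / 4) * (ell m - ell l)) := by
      intro l m hlm
      have hl := hone l
      have hm := hone m
      obtain ⟨σ, z', w', hσ, hσA, hz', hw', hzz, hww⟩ := H l (m ::ₘ 0) (by
        intro x hx
        have : x = m := by simpa using hx
        rw [this]; exact hlm) (by simpa using hb0)
      have h1 := mc_scale_eq' hz hw hz' hw' σ (l ::ₘ m ::ₘ 0) (Multiset.cons_ne_zero) hzz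
      have hc : Multiset.card (l ::ₘ m ::ₘ (0 : Multiset J)) = 2 := by simp
      rw [hc] at h1
      have hσ2 : 0 < σ ^ 2 := by positivity
      have h2 : |w (l ::ₘ m ::ₘ 0)| = |w' (l ::ₘ m ::ₘ 0)| * (σ⁻¹) ^ 2 := by
        rw [h1, abs_mul, abs_of_pos hσ2, mul_assoc, ← mul_pow, mul_inv_cancel₀ hσ.ne', one_pow,
          mul_one]
      have h3 : |w' (l ::ₘ m ::ₘ 0)| ≤
          24 * Real.exp ((c1 + 3 * g) * ell l - c1 * ell m) := by
        refine hww.trans (le_of_eq ?_)
        have hc1 : Multiset.card (m ::ₘ (0 : Multiset J)) = 1 := by simp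
        unfold bex
        rw [hc1]
        norm_num [Nat.factorial]
      have h4 : σ⁻¹ ≤ (2 * ell m) ^ A := by
        refine hσA.trans ?_
        apply pow_le_pow_left₀
        · simp only [Multiset.map_cons, Multiset.sum_cons, Multiset.map_zero, Multiset.sum_zero]
          linarith
        · simp only [Multiset.map_cons, Multiset.sum_cons, Multiset.map_zero, Multiset.sum_zero]
          linarith
      have h4' : (σ⁻¹) ^ 2 ≤ 2 ^ (2 * A) * ell m ^ (2 * A) := by
        calc (σ⁻¹) ^ 2 ≤ ((2 * ell m) ^ A) ^ 2 := pow_le_pow_left₀ (inv_nonneg.2 hσ.le) h4 2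
          _ = 2 ^ (2 * A) * ell m ^ (2 * A) := by
            rw [← pow_mul, mul_comm A 2, mul_pow]
      have h5 := hx0 (ell m) (he0 m)
      rw [h2]
      calc |w' (l ::ₘ m ::ₘ 0)| * (σ⁻¹) ^ 2
          ≤ (24 * Real.exp ((c1 + 3 * g) * ell l - c1 * ell m)) *
            (2 ^ (2 * A) * ell m ^ (2 * A)) :=
            mul_le_mul h3 h4' (by positivity) (by positivity)
        _ = Real.exp ((c1 + 3 * g) * ell l - c1 * ell m) *
            (24 * 2 ^ (2 * A) * ell m ^ (2 * A)) := by ring
        _ ≤ Real.exp ((c1 + 3 * g) * ell l - c1 * ell m) * Real.exp (g' / 4 * ell m) :=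
            mul_le_mul_of_nonneg_left h5 (Real.exp_pos _).le
        _ = _ := by rw [← Real.exp_add]; congr 1; ring
    have key2 : ∀ i : J, |co w (Finsupp.single i 1 + Finsupp.single j 1)| ≤
        Real.exp ((3 * g + g' / 4) * ell j) * Real.exp (-(c1 / 2 * |ell i - ell j|)) := by
      intro i
      refine (abs_co_le w _).trans ?_
      rw [map_add, toMultiset_single', toMultiset_single', ← Real.exp_add]
      have h34 : 0 ≤ 3 * g + g' / 4 := by linarith
      rcases le_total (ell i) (ell j) with hij | hij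
      · have e1 : (i ::ₘ (0 : Multiset J)) + (j ::ₘ 0) = i ::ₘ j ::ₘ 0 := by
          rw [Multiset.cons_add, zero_add]
        rw [e1]
        refine (key i j hij).trans ?_
        apply Real.exp_le_exp.2
        rw [abs_of_nonpos (by linarith)]
        have h5 : 0 ≤ (c1 - g' / 4 - c1 / 2) * (ell j - ell i) :=
          mul_nonneg (by linarith) (by linarith)
        have h6 : (3 * g + g' / 4) * ell i ≤ (3 * g + g' / 4) * ell j :=
          mul_le_mul_of_nonneg_left hij h34
        linarith
      · have e1 : (i ::ₘ (0 : Multiset J)) + (j ::ₘ 0) = j ::ₘ i ::ₘ 0 := by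
          rw [Multiset.cons_add, zero_add, Multiset.cons_swap]
        rw [e1]
        refine (key j i hij).trans ?_
        apply Real.exp_le_exp.2
        rw [abs_of_nonneg (by linarith)]
        have h5 : 0 ≤ (c1 - g' / 4 - c1 / 2) * (ell i - ell j) :=
          mul_nonneg (by linarith) (by linarith)
        linarith
    calc ∑ i, |co w (Finsupp.single i 1 + Finsupp.single j 1)|
        ≤ ∑ i, Real.exp ((3 * g + g' / 4) * ell j) * Real.exp (-(c1 / 2 * |ell i - ell j|)) :=
          Finset.sum_le_sum fun i _ => key2 i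
      _ = Real.exp ((3 * g + g' / 4) * ell j) * ∑ i, Real.exp (-(c1 / 2 * |ell i - ell j|)) := by
          rw [Finset.mul_sum]
      _ ≤ Real.exp ((3 * g + g' / 4) * ell j) * S := by
          apply mul_le_mul_of_nonneg_left _ (Real.exp_pos _).le
          have := dyad_sum sc hinj (c := c1 / 2) (by linarith) j
          simp only [hell]
          exact this
      _ ≤ Real.exp ((3 * g + g' / 4) * ell j) * Real.exp (g' / 4 * ell j) := by
          apply mul_le_mul_of_nonneg_left _ (Real.exp_pos _).le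
          have := hx2 (ell j) (he2 j)
          rw [pow_zero, mul_one] at this
          exact (le_max_left _ _).trans this
      _ = Real.exp ((3 * g + g' / 4 + g' / 4) * ell j) := by rw [← Real.exp_add]; congr 1; ring
      _ ≤ Real.exp (g' * ell j) := by
          apply Real.exp_le_exp.2
          apply mul_le_mul_of_nonneg_right _ (by linarith [hone j])
          linarith
  · -- higher order
    intro a h3 hb
    have hD := D_co hz hw hone (b0 := b0) (A := A) (c := (c1 - 3 * g) / 3) ?_ a h3 hb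
    · refine hD.trans ?_
      set x := ∑ j, (a j : ℝ) * ell j with hx
      have hx1' : (1 : ℝ) ≤ x := by
        have h5 : (a.degree : ℝ) ≤ x := by
          rw [hx, Finsupp.degree_eq_sum]
          push_cast
          refine Finset.sum_le_sum fun j _ => ?_
          have := mul_le_mul_of_nonneg_left (hone j) (Nat.cast_nonneg (α := ℝ) (a j))
          linarith
        have h6 : (3 : ℝ) ≤ a.degree := by exact_mod_cast h3
        linarith
      have hx0' : 0 < x := by linarith
      have h7 : x ^ ((A + 4) * a.degree) = Real.exp ((A + 4) * a.degree * Real.log x) := by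
        rw [← Real.rpow_natCast, Real.rpow_def_of_pos hx0']
        congr 1
        push_cast
        ring
      rw [h7, ← Real.exp_add]
      apply Real.exp_le_exp.2
      have h8 : 0 ≤ ((c1 - 3 * g) / 3 - c1 / 6) * x := mul_nonneg (by linarith) hx0'.le
      linarith
    · intro τ hτ3 hτb
      have hne : τ.toFinset.Nonempty := by
        rw [Multiset.toFinset_nonempty]
        rintro rfl
        simp at hτ3
      obtain ⟨l, hl, hmin⟩ := Finset.exists_min_image τ.toFinset ell hne
      obtain ⟨s, rfl⟩ := Multiset.exists_cons_of_mem (Multiset.mem_toFinset.1 hl)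
      have hmin' : ∀ m ∈ l ::ₘ s, ell l ≤ ell m := fun m hm =>
        hmin m (Multiset.mem_toFinset.2 hm)
      obtain ⟨σ, z', w', hσ, hσA, hz', hw', hzz, hww⟩ := H l s
        (fun m hm => hmin' m (Multiset.mem_cons_of_mem hm))
        (by rw [Multiset.card_cons] at hτb; exact hτb)
      refine ⟨σ, z', w', hσ, hσA, hz', hw', hzz, hww.trans ?_⟩
      rw [Multiset.card_cons] at hτ3
      have hcard : 2 * Multiset.card s + 2 = 2 * Multiset.card (l ::ₘ s) := by
        rw [Multiset.card_cons]; ring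
      rw [hcard]
      apply mul_le_mul_of_nonneg_left _ (Nat.cast_nonneg _)
      apply Real.exp_le_exp.2
      unfold bex
      rw [if_neg (by omega)]
      have h4 := card_mul_le (l ::ₘ s) hmin'
      have h5 : (3 : ℝ) * ell l ≤ Multiset.card (l ::ₘ s) * ell l := by
        apply mul_le_mul_of_nonneg_right _ (by linarith [hone l])
        rw [Multiset.card_cons]
        exact_mod_cast hτ3
      have h6 : 3 * ell l ≤ ((l ::ₘ s).map ell).sum := h5.trans h4
      have h7 : 0 ≤ 2 * c1 + 3 * g := by linarith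
      have h8 := mul_le_mul_of_nonneg_left h6 h7
      rw [Multiset.map_cons, Multiset.sum_cons] at h8 ⊢
      linarith

end out

end Vale.Agent.P042.H284
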