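import Vale.Agent.P042.H232.PairT
import Vale.Agent.P042.H284.SeamP

/-!
# P042: from the bounds of the typed cumulants to the coefficients of the logarithm

For a law pair `mu, mu'`, kernels `K` (helper365's `OB`) and types `sc` of the coordinates:
`zF` is the generating multiset function of the family `F_B`, `wF` its cumulants.  If for every
order and every top scale the scaled cumulants satisfy `BdT`, then the coefficients of the
logarithm are bounded as in `seam_out`.
-/

open Finset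

set_option linter.unusedSectionVars false

namespace Vale.Agent.P042.H284

open Vale.Agent.P042.H159 (MC)
open Vale.Agent.P042.H232 (xo Mn Tn co_kernel cv_xo mn_zero mc_mn)

universe u v u1 u2

section zF

variable {J : Type v} [Fintype J] [DecidableEq J] {ι : Type u1} [Fintype ι] [DecidableEq ι]

/-- The generating multiset function of a family `f` on the sets of coordinates. -/
noncomputable def zF (sc : ι → J) (f : Finset ι → ℝ) (τ : Multiset J) : ℝ :=
  fa (Multiset.toFinsupp τ) *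
    ∑ B ∈ (univ : Finset ι).powerset.filter (fun B => B.val.map sc = τ), f B

/-- Its cumulants. -/
noncomputable def wF (sc : ι → J) (f : Finset ι → ℝ) : Multiset J → ℝ := H232.cumT (zF sc f)

theorem fa_co (z : Multiset J → ℝ) (τ : Multiset J) :
    fa (Multiset.toFinsupp τ) * co z (Multiset.toFinsupp τ) = z τ := by
  unfold co
  rw [Multiset.toFinsupp_toMultiset, mul_div_cancel₀ _ (fa_pos _).ne']

theorem co_zF (sc : ι → J) (f : Finset ι → ℝ) (a : J →₀ ℕ) :
    co (zF sc f) a =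
      ∑ B ∈ (univ : Finset ι).powerset.filter (fun B => tyi sc B = a), f B := by
  unfold co zF
  rw [Finsupp.toMultiset_toFinsupp, mul_div_assoc, mul_comm, div_mul_cancel₀ _ (fa_pos a).ne']
  refine Finset.sum_congr ?_ fun _ _ => rfl
  refine Finset.filter_congr fun B _ => ?_
  unfold tyi
  constructor
  · intro h1
    rw [h1, Finsupp.toMultiset_toFinsupp]
  · intro h1
    rw [← h1, Multiset.toFinsupp_toMultiset]

theorem zF_eq_of_co (sc : ι → J) (f : Finset ι → ℝ) {z : Multiset J → ℝ}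
    (h : ∀ a, co z a = ∑ B ∈ (univ : Finset ι).powerset.filter (fun B => tyi sc B = a), f B)
    (τ : Multiset J) : z τ = zF sc f τ := by
  rw [← fa_co z, ← fa_co (zF sc f), h, co_zF]

theorem zF_zero (sc : ι → J) (f : Finset ι → ℝ) : zF sc f 0 = f ∅ := by
  have h1 : co (zF sc f) 0 = f ∅ := by
    rw [co_zF]
    have h2 : (univ : Finset ι).powerset.filter (fun B => tyi sc B = 0) = {∅} := by
      ext B
      rw [Finset.mem_filter, Finset.mem_singleton]
      constructor
      · rintro ⟨_, h⟩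
        have := tyi_degree sc B
        rw [h, map_zero] at this
        exact Finset.card_eq_zero.1 this.symm
      · rintro rfl
        exact ⟨Finset.mem_powerset.2 (Finset.subset_univ _), tyi_empty sc⟩
    rw [h2, Finset.sum_singleton]
  rw [← h1, co_zero]

theorem mc_wF (sc : ι → J) {f : Finset ι → ℝ} (hf : f ∅ = 1) : MC (zF sc f) (wF sc f) :=
  mc_cumT (by rw [zF_zero, hf])

theorem zF_scale (sc : ι → J) (f f' : Finset ι → ℝ) (σ : ℝ) (τ : Multiset J)
    (h : ∀ B : Finset ι, B.val.map sc = τ → f' B = σ ^ B.card * f B) :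
    zF sc f' τ = zF sc f τ * σ ^ Multiset.card τ := by
  unfold zF
  rw [mul_assoc, Finset.sum_mul]
  congr 1
  refine Finset.sum_congr rfl fun B hB => ?_
  have hB' := (Finset.mem_filter.1 hB).2
  have hc : Multiset.card τ = B.card := by
    rw [← hB', Multiset.card_map, Finset.card_val]
  rw [h B hB', hc, mul_comm]

end zF

section kernels

variable {ι : Type u1} [Fintype ι] [DecidableEq ι] {V : ι → Type u2} [∀ i, Fintype (V i)]
  [∀ i, DecidableEq (V i)]

/-- The pairing of two laws with a product of kernels. -/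
noncomputable def FK (K : ∀ i, V i → V i → ℝ) (mu mu' : (∀ i, V i) → ℝ) (B : Finset ι) : ℝ :=
  ∑ x, ∑ y, mu x * mu' y * ∏ i ∈ B, K i (x i) (y i)

theorem FK_empty {K : ∀ i, V i → V i → ℝ} {mu mu' : (∀ i, V i) → ℝ} (h : ∑ x, mu x = 1)
    (h' : ∑ x, mu' x = 1) : FK K mu mu' ∅ = 1 := by
  unfold FK
  simp only [Finset.prod_empty, mul_one, ← Finset.mul_sum, h', h]

variable {lam : ∀ i, V i → ℝ} {K : ∀ i, V i → V i → ℝ} {c : ι → ℝ} {u u' : ∀ i, V i → ℝ}
  {s : ∀ i, V i → V i → ℝ} {rho e : ι → ℝ}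

/-- The class of kernels is homogeneous, with individual factors. -/
theorem OB_scale (H : H365.OB lam K c u u' s rho e) {χ : ι → ℝ} (hχ : ∀ i, 0 ≤ χ i) :
    H365.OB lam (fun i a b => χ i * K i a b) (fun i => χ i * c i) (fun i a => χ i * u i a)
      (fun i a => χ i * u' i a) (fun i a b => χ i * s i a b) (fun i => χ i * rho i)
      (fun i => χ i * e i) where
  rho0 i := mul_nonneg (hχ i) (H.rho0 i)
  e0 i := mul_nonneg (hχ i) (H.e0 i)
  split i a b := by rw [H.split]; ring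
  sl i b := by
    have : ∀ a, lam i a * (χ i * s i a b) = χ i * (lam i a * s i a b) := fun a => by ring
    simp only [this, ← Finset.mul_sum, H.sl, mul_zero]
  sr i a := by
    have : ∀ b, lam i b * (χ i * s i a b) = χ i * (lam i b * s i a b) := fun b => by ring
    simp only [this, ← Finset.mul_sum, H.sr, mul_zero]
  ul i := by
    have : ∀ a, lam i a * (χ i * u i a) = χ i * (lam i a * u i a) := fun a => by ring
    simp only [this, ← Finset.mul_sum, H.ul, mul_zero]
  ur i := by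
    have : ∀ a, lam i a * (χ i * u' i a) = χ i * (lam i a * u' i a) := fun a => by ring
    simp only [this, ← Finset.mul_sum, H.ur, mul_zero]
  cn i := by
    rw [abs_mul, abs_of_nonneg (hχ i)]
    exact mul_le_mul_of_nonneg_left (H.cn i) (hχ i)
  un i := by
    have : ∀ a, lam i a * (χ i * u i a) ^ 2 = χ i ^ 2 * (lam i a * u i a ^ 2) := fun a => by ring
    simp only [this, ← Finset.mul_sum]
    calc _ ≤ χ i ^ 2 * (rho i * e i) := mul_le_mul_of_nonneg_left (H.un i) (sq_nonneg _)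
      _ = _ := by ring
  un' i := by
    have : ∀ a, lam i a * (χ i * u' i a) ^ 2 = χ i ^ 2 * (lam i a * u' i a ^ 2) :=
      fun a => by ring
    simp only [this, ← Finset.mul_sum]
    calc _ ≤ χ i ^ 2 * (rho i * e i) := mul_le_mul_of_nonneg_left (H.un' i) (sq_nonneg _)
      _ = _ := by ring
  sn i f := by
    have : ∀ a, lam i a * (∑ b, lam i b * (χ i * s i a b * f b)) ^ 2
        = χ i ^ 2 * (lam i a * (∑ b, lam i b * (s i a b * f b)) ^ 2) := by
      intro a
      have h2 : ∀ b, lam i b * (χ i * s i a b * f b) = χ i * (lam i b * (s i a b * f b)) :=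
        fun b => by ring
      simp only [h2, ← Finset.mul_sum]
      ring
    simp only [this, ← Finset.mul_sum]
    calc _ ≤ χ i ^ 2 * (rho i ^ 2 * ∑ b, lam i b * f b ^ 2) :=
          mul_le_mul_of_nonneg_left (H.sn i f) (sq_nonneg _)
      _ = _ := by ring

variable {J : Type v} [Fintype J] [DecidableEq J]

/-- The letters of type `l`, for `l` of size at most that of `j`. -/
noncomputable def VJ (V : ι → Type u2) [∀ i, Fintype (V i)] (sc : ι → J) (ell : J → ℝ) (j l : J) :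
    Finset (Σ i, Option (V i)) :=
  if ell l ≤ ell j then univ.filter (fun ω : Σ i, Option (V i) => sc ω.1 = l) else ∅

/-- **The bounds of the typed cumulants at one order and one top scale.** -/
structure BT (lam : ∀ i, V i → ℝ) (rho e : ι → ℝ) (mu mu' : (∀ i, V i) → ℝ) (sc : ι → J)
    (ell : J → ℝ) (g c1 c2 : ℝ) (A b : ℕ) (j : J) (σ : ℝ) (R E : ι → ℝ) (N : J → J → ℝ) :
    Prop where
  s0 : 0 < σ
  s1 : σ⁻¹ ≤ (b * ell j) ^ A
  R0 : ∀ i, 0 < R i
  E0 : ∀ i, 0 < E i
  R1 : ∀ i, ell (sc i) ≤ ell j → 2 * (σ * rho i) ≤ R i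
  E1 : ∀ i, ell (sc i) ≤ ell j → 2 * (σ * e i) ≤ E i
  bd : BdT (VJ V sc ell j) b (fun l => Real.exp (g * ell l)) (fun l => Real.exp (-(c1 * ell l))) N
    (Tn lam mu R E)
  bd' : BdT (VJ V sc ell j) b (fun l => Real.exp (g * ell l)) (fun l => Real.exp (-(c1 * ell l)))
    N (Tn lam mu' R E)
  N0 : ∀ l m, 0 ≤ N l m
  N1 : ∀ l m, N l m ≤ Real.exp (g * ell l) * Real.exp (g * ell m)
  N2 : ∀ l m, ell l ≤ ell m → N l m ≤ Real.exp (g * ell l - c2 * (ell m - ell l))

theorem H_of_BT (h0 : ∀ i a, 0 ≤ lam i a) (H : H365.OB lam K c u u' s rho e)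
    {mu mu' : (∀ i, V i) → ℝ} (hmu : ∑ x, mu x = 1) (hmu' : ∑ x, mu' x = 1)
    (hac : ∀ x, mu x ≠ 0 → ∀ i, lam i (x i) ≠ 0) (hac' : ∀ x, mu' x ≠ 0 → ∀ i, lam i (x i) ≠ 0)
    {sc : ι → J} {ell : J → ℝ} (hell : ∀ j, 1 ≤ ell j) {g c1 c2 : ℝ} (hg : 0 ≤ g) (hc1 : 0 ≤ c1)
    (hc : g + c1 ≤ c2) {A b0 : ℕ}
    (HB : ∀ b, 1 ≤ b → b ≤ b0 → ∀ j : J, ∃ σ R E N,
      BT lam rho e mu mu' sc ell g c1 c2 A b j σ R E N)
    (l : J) (t : Multiset J) (hmin : ∀ m ∈ t, ell l ≤ ell m) (hb : Multiset.card t + 1 ≤ b0) :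
    ∃ (σ : ℝ) (z' w' : Multiset J → ℝ), 0 < σ ∧ σ⁻¹ ≤ ((l ::ₘ t).map ell).sum ^ (2 * A) ∧
      z' 0 = 1 ∧ MC z' w' ∧
      (∀ τ ≤ l ::ₘ t, z' τ = zF sc (FK K mu mu') τ * σ ^ Multiset.card τ) ∧
      |w' (l ::ₘ t)| ≤ ((2 * Multiset.card t + 2).factorial : ℝ) *
        Real.exp (bex g c1 ell l t) := by
  classical
  -- the top scale
  have hne : (l ::ₘ t).toFinset.Nonempty := by
    rw [Multiset.toFinset_nonempty]
    exact Multiset.cons_ne_zero
  obtain ⟨j, hj, hmax⟩ := Finset.exists_max_image (l ::ₘ t).toFinset ell hne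
  have hmax' : ∀ m ∈ l ::ₘ t, ell m ≤ ell j := fun m hm => hmax m (Multiset.mem_toFinset.2 hm)
  have hj' : j ∈ l ::ₘ t := Multiset.mem_toFinset.1 hj
  obtain ⟨σ, R, E, N, hB⟩ := HB (Multiset.card t + 1) (by omega) hb j
  -- the scaled kernels
  set χ : ι → ℝ := fun i => if ell (sc i) ≤ ell j then σ else 0 with hχ
  have hχ0 : ∀ i, 0 ≤ χ i := fun i => by
    rw [hχ]; beta_reduce; split_ifs; exacts [hB.s0.le, le_rfl]
  have hOB := OB_scale H hχ0
  set VA : J → Finset (Σ i, Option (V i)) :=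
    fun l => univ.filter (fun ω : Σ i, Option (V i) => sc ω.1 = l) with hVA
  have hVA' : ∀ l ω, ω ∈ VA l ↔ sc ω.1 = l := fun l ω => by simp [hVA]
  have hR1 : ∀ i, 2 * (χ i * rho i) ≤ R i := by
    intro i
    rw [hχ]; beta_reduce
    split_ifs with h
    · exact hB.R1 i h
    · rw [zero_mul, mul_zero]; exact (hB.R0 i).le
  have hE1 : ∀ i, 2 * (χ i * e i) ≤ E i := by
    intro i
    rw [hχ]; beta_reduce
    split_ifs with h
    · exact hB.E1 i h
    · rw [zero_mul, mul_zero]; exact (hB.E0 i).le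
  set ξ := xo lam (fun i => χ i * c i) (fun i a => χ i * u i a) (fun i a => χ i * u' i a)
    (fun i a b => χ i * s i a b) R E with hξdef
  have hCVA : CV VA ξ := cv_xo hVA' h0 hOB hB.R0 hB.E0 hR1 hE1
  have hCV : CV (VJ V sc ell j) ξ := by
    intro m
    by_cases hm : ell m ≤ ell j
    · have : VJ V sc ell j m = VA m := by unfold VJ; rw [if_pos hm]
      rw [this]; exact hCVA m
    · have : VJ V sc ell j m = ∅ := by unfold VJ; rw [if_neg hm]
      rw [this]
      intro φ ψ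
      simp
  set z' := zt (VJ V sc ell j) ξ (Mn lam mu R E) (Mn lam mu' R E) with hz'
  have hM0 : Mn lam mu R E 0 = 1 := mn_zero hmu
  have hM0' : Mn lam mu' R E 0 = 1 := mn_zero hmu'
  have hw' := exists_w (VJ V sc ell j) ξ hM0 hM0'
  -- comparison with the unscaled family
  have hzz : ∀ τ ≤ l ::ₘ t, z' τ = zF sc (FK K mu mu') τ * σ ^ Multiset.card τ := by
    intro τ hτ
    have hτ' : ∀ m ∈ τ, ell m ≤ ell j := fun m hm => hmax' m (Multiset.mem_of_le hτ hm)
    have e1 : z' τ = zt VA ξ (Mn lam mu R E) (Mn lam mu' R E) τ := by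
      rw [hz']
      apply zt_restrict
      intro m hm
      unfold VJ
      rw [if_pos (hτ' m hm)]
    have e2 := zF_eq_of_co sc (FK (fun i a b => χ i * K i a b) mu mu')
      (fun a => co_kernel hVA' h0 hOB hB.R0 hB.E0 hac hac' a) τ
    rw [e1, e2]
    apply zF_scale
    intro B hBτ
    have h3 : ∀ i ∈ B, χ i = σ := by
      intro i hi
      rw [hχ]; beta_reduce
      rw [if_pos]
      apply hτ'
      rw [← hBτ]
      exact Multiset.mem_map_of_mem _ hi
    unfold FK
    rw [Finset.mul_sum]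
    refine Finset.sum_congr rfl fun x _ => ?_
    rw [Finset.mul_sum]
    refine Finset.sum_congr rfl fun y _ => ?_
    rw [Finset.prod_mul_distrib, Finset.prod_congr rfl h3, Finset.prod_const]
    ring
  refine ⟨σ, z', H232.cumT z', hB.s0, ?_, ?_, hw', hzz, ?_⟩
  · -- size of the scaling
    refine hB.s1.trans ?_
    have hcard := card_mul_le (ell := ell) (e := 1) (l ::ₘ t) fun m _ => hell m
    rw [mul_one, Multiset.card_cons] at hcard
    push_cast at hcard
    have hsum : ell j ≤ ((l ::ₘ t).map ell).sum := by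
      obtain ⟨r, hr⟩ := Multiset.exists_cons_of_mem hj'
      rw [hr, Multiset.map_cons, Multiset.sum_cons]
      have : 0 ≤ (r.map ell).sum := by
        apply Multiset.sum_nonneg
        intro x hx
        obtain ⟨m, _, rfl⟩ := Multiset.mem_map.1 hx
        linarith [hell m]
      linarith
    have hj0 : 0 ≤ ell j := by linarith [hell j]
    rw [pow_mul]
    apply pow_le_pow_left₀ (mul_nonneg (Nat.cast_nonneg _) hj0)
    rw [sq]
    push_cast
    exact mul_le_mul hcard hsum hj0 (le_trans hj0 hsum)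
  · rw [hz', zt_zero, hM0, hM0', one_mul]
  · exact w_all hCV hM0 (mc_mn hmu) hM0' (mc_mn hmu') (fun m => by linarith [hell m]) hg hc1 hc
      hB.bd hB.bd' hB.N0 hB.N1 hB.N2 hw' l t hmin le_rfl

/-- **The glue.**  Orders one, two, and the direct bound, for the family `F_B`. -/
theorem glue {c1 g' : ℝ} (hc1 : 0 < c1) (hg' : 0 < g') (hgc : g' ≤ c1) (A : ℕ) :
    ∃ l0 : ℕ, ∀ (J : Type v) [Fintype J] [DecidableEq J] (sn : J → ℕ) (ell : J → ℝ) (b0 : ℕ)
      (g c2 : ℝ), Function.Injective sn → (∀ j, l0 ≤ sn j) → (∀ j, ell j = sn j * Real.log 2) →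
      0 ≤ g → 8 * g ≤ g' → g + c1 ≤ c2 → 2 ≤ b0 →
      ∀ (ι : Type u1) [Fintype ι] [DecidableEq ι] (V : ι → Type u2) [∀ i, Fintype (V i)]
        [∀ i, DecidableEq (V i)] (lam : ∀ i, V i → ℝ) (K : ∀ i, V i → V i → ℝ) (c : ι → ℝ)
        (u u' : ∀ i, V i → ℝ) (s : ∀ i, V i → V i → ℝ) (rho e : ι → ℝ)
        (mu mu' : (∀ i, V i) → ℝ) (sc : ι → J),
        (∀ i a, 0 ≤ lam i a) → H365.OB lam K c u u' s rho e → (∑ x, mu x = 1) →
        (∑ x, mu' x = 1) → (∀ x, mu x ≠ 0 → ∀ i, lam i (x i) ≠ 0) →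
        (∀ x, mu' x ≠ 0 → ∀ i, lam i (x i) ≠ 0) →
        (∀ b, 1 ≤ b → b ≤ b0 → ∀ j : J, ∃ σ R E N,
          BT lam rho e mu mu' sc ell g c1 c2 A b j σ R E N) →
      (∀ j, |co (wF sc (FK K mu mu')) (Finsupp.single j 1)| ≤ Real.exp (g' * ell j)) ∧
      (∀ j, ∑ i, |co (wF sc (FK K mu mu')) (Finsupp.single i 1 + Finsupp.single j 1)| ≤
        Real.exp (g' * ell j)) ∧
      (∀ a : J →₀ ℕ, 3 ≤ a.degree → a.degree ≤ b0 → |co (wF sc (FK K mu mu')) a| ≤
        Real.exp (((2 * A : ℕ) + 4) * a.degree * Real.log (∑ j, (a j : ℝ) * ell j)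
          - c1 / 6 * ∑ j, (a j : ℝ) * ell j)) := by
  obtain ⟨l0, hl0⟩ := seam_out.{v} hc1 hg' hgc (2 * A)
  obtain ⟨l1, hl1⟩ := exists_nat_ge (1 / Real.log 2)
  refine ⟨max l0 l1, ?_⟩
  intro J _ _ sn ell b0 g c2 hinj hsn hell hg hgg hc hb0 ι _ _ V _ _ lam K c u u' s rho e mu mu' sc
    h0 H hmu hmu' hac hac' HB
  have hl2 : 0 < Real.log 2 := Real.log_pos (by norm_num)
  have hone : ∀ j, 1 ≤ ell j := by
    intro j
    rw [hell j]
    rw [div_le_iff₀ hl2] at hl1
    refine hl1.trans ?_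
    apply mul_le_mul_of_nonneg_right _ hl2.le
    exact_mod_cast (le_max_right _ _).trans (hsn j)
  have hf : FK K mu mu' ∅ = 1 := FK_empty hmu hmu'
  exact hl0 J sn ell b0 g (zF sc (FK K mu mu')) (wF sc (FK K mu mu')) hinj
    (fun j => (le_max_left _ _).trans (hsn j)) hell hg hgg hb0 (by rw [zF_zero, hf])
    (mc_wF sc hf) (fun l t hmin hb => H_of_BT h0 H hmu hmu' hac hac' hone hg hc1.le hc HB l t
      hmin hb)

end kernels

end Vale.Agent.P042.H284
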