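import Vale.Agent.P042.H365.Marg
import Vale.Agent.P042.H284.Glue

/-!
# P042: the typed bounds of marginal laws give the coefficients of the logarithm

`p` is a set of coordinates containing all coordinates of the types under consideration.
`co_sub`, `zt_sub`: block [C] of the marginal laws `msub p mu`, `msub p mu'` with the kernels
scaled by `σ` has the coefficients of block [C] of `mu, mu'` times `σ ^ order`.
`BTS`, `H_of_BTS`, `glueS`: as `BT`, `H_of_BT`, `glue`, with the bounds of the marginal laws.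
-/

open Finset

set_option linter.unusedSectionVars false

namespace Vale.Agent.P042.H284

open Vale.Agent.P042.H159 (MC)
open Vale.Agent.P042.H232 (xo Mn Tn co_kernel cv_xo mn_zero mc_mn)
open Vale.Agent.P042.H365 (rsub msub lsub msub_sum)
open Vale.Agent.P042.H461 (push sum_push)

universe u v u1 u2

section sets

variable {J : Type v} [Fintype J] [DecidableEq J] {ι : Type u1} [Fintype ι] [DecidableEq ι]
  (p : ι → Prop) [DecidablePred p]

/-- The inclusion of the coordinates with `p`. -/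
def esb : {i // p i} ↪ ι := ⟨Subtype.val, Subtype.val_injective⟩

theorem map_esb (sc : ι → J) (B : Finset {i // p i}) :
    (B.map (esb p)).val.map sc = B.val.map fun i : {i // p i} => sc i := by
  rw [Finset.map_val, Multiset.map_map]
  rfl

variable {p}

theorem tyi_esb (sc : ι → J) (B : Finset {i // p i}) :
    tyi sc (B.map (esb p)) = tyi (fun i : {i // p i} => sc i) B := by
  unfold tyi
  rw [map_esb]

/-- Sets of coordinates all of which satisfy `p` are sets of coordinates with `p`. -/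
theorem sum_esb {Q : Finset ι → Prop} [DecidablePred Q] {Q' : Finset {i // p i} → Prop}
    [DecidablePred Q'] (hQ : ∀ B, Q B → ∀ i ∈ B, p i) (hQ' : ∀ B, Q (B.map (esb p)) ↔ Q' B)
    (f : Finset ι → ℝ) :
    ∑ B ∈ (univ : Finset ι).powerset.filter Q, f B =
      ∑ B ∈ (univ : Finset {i // p i}).powerset.filter Q', f (B.map (esb p)) := by
  symm
  refine Finset.sum_bij' (fun B _ => B.map (esb p)) (fun B _ => B.subtype p) ?_ ?_ ?_ ?_ ?_
  · intro B hB
    rw [Finset.mem_filter] at hB ⊢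
    exact ⟨Finset.mem_powerset.2 (Finset.subset_univ _), (hQ' B).2 hB.2⟩
  · intro B hB
    rw [Finset.mem_filter] at hB ⊢
    refine ⟨Finset.mem_powerset.2 (Finset.subset_univ _), ?_⟩
    rw [← hQ']
    have h1 : (B.subtype p).map (esb p) = B := by
      ext i
      simp only [Finset.mem_map, Finset.mem_subtype]
      constructor
      · rintro ⟨j, hj, rfl⟩
        exact hj
      · intro hi
        exact ⟨⟨i, hQ B hB.2 i hi⟩, hi, rfl⟩
    rw [h1]
    exact hB.2
  · intro B _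
    ext i
    simp only [Finset.mem_subtype, Finset.mem_map]
    constructor
    · rintro ⟨j, hj, hji⟩
      rwa [← Subtype.ext (by exact hji : (j : ι) = i)]
    · intro hi
      exact ⟨i, hi, rfl⟩
  · intro B hB
    rw [Finset.mem_filter] at hB
    ext i
    simp only [Finset.mem_map, Finset.mem_subtype]
    constructor
    · rintro ⟨j, hj, rfl⟩
      exact hj
    · intro hi
      exact ⟨⟨i, hQ B hB.2 i hi⟩, hi, rfl⟩
  · intro B _
    rfl

/-- The generating function on types with `p` sees only the coordinates with `p`. -/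
theorem zF_sub (sc : ι → J) (f : Finset ι → ℝ) {τ : Multiset J}
    (hτ : ∀ i, sc i ∈ τ → p i) :
    zF sc f τ = zF (fun i : {i // p i} => sc i) (fun B => f (B.map (esb p))) τ := by
  unfold zF
  rw [sum_esb (p := p) (Q := fun B => B.val.map sc = τ)
    (Q' := fun B : Finset {i // p i} => B.val.map (fun i : {i // p i} => sc i) = τ)]
  · intro B hB i hi
    apply hτ
    rw [← hB]
    exact Multiset.mem_map_of_mem _ hi
  · intro B
    rw [map_esb]

end sets

section kernels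

variable {ι : Type u1} [Fintype ι] [DecidableEq ι] {V : ι → Type u2} [∀ i, Fintype (V i)]
  [∀ i, DecidableEq (V i)] {p : ι → Prop} [DecidablePred p]

/-- The pairing of the marginal laws. -/
theorem FK_sub (K : ∀ i, V i → V i → ℝ) (mu mu' : (∀ i, V i) → ℝ) (B : Finset {i // p i}) :
    FK (V := fun i : {i // p i} => V i) (fun i => K i) (msub p mu) (msub p mu') B =
      FK K mu mu' (B.map (esb p)) := by
  unfold FK
  have h1 : ∀ x : ∀ i : {i // p i}, V i, ∑ y : ∀ i : {i // p i}, V i, msub p mu x * msub p mu' y *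
      ∏ i ∈ B, K i (x i) (y i) = msub p mu x * ∑ y : ∀ i, V i, mu' y *
        ∏ i ∈ B, K i (x i) (rsub p y i) := by
    intro x
    rw [← sum_push (rsub p) mu' fun y => ∏ i ∈ B, K i (x i) (y i), Finset.mul_sum]
    exact Finset.sum_congr rfl fun y _ => by unfold msub; ring
  rw [Finset.sum_congr rfl fun x _ => h1 x]
  unfold msub
  rw [sum_push (rsub p) mu fun x => ∑ y : ∀ i, V i, mu' y * ∏ i ∈ B, K i (x i) (rsub p y i)]
  refine Finset.sum_congr rfl fun x _ => ?_
  rw [Finset.mul_sum]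
  refine Finset.sum_congr rfl fun y _ => ?_
  rw [Finset.prod_map, mul_assoc]
  rfl

theorem ac_sub {lam : ∀ i, V i → ℝ} {mu : (∀ i, V i) → ℝ}
    (hac : ∀ x, mu x ≠ 0 → ∀ i, lam i (x i) ≠ 0) (x : ∀ i : {i // p i}, V i)
    (hx : msub p mu x ≠ 0) (i : {i // p i}) : lsub p lam i (x i) ≠ 0 := by
  unfold msub push at hx
  obtain ⟨y, hy, hmy⟩ := Finset.exists_ne_zero_of_sum_ne_zero hx
  have h1 := (Finset.mem_filter.1 hy).2
  rw [← h1]
  exact hac y hmy i

variable {lam : ∀ i, V i → ℝ} {K : ∀ i, V i → V i → ℝ} {c : ι → ℝ} {u u' : ∀ i, V i → ℝ}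
  {s : ∀ i, V i → V i → ℝ} {rho e : ι → ℝ}

/-- The class of kernels, on the coordinates with `p`. -/
theorem OB_sub (H : H365.OB lam K c u u' s rho e) :
    H365.OB (V := fun i : {i // p i} => V i) (lsub p lam) (fun i => K i) (fun i => c i)
      (fun i => u i) (fun i => u' i) (fun i => s i) (fun i => rho i) (fun i => e i) where
  rho0 i := H.rho0 i
  e0 i := H.e0 i
  split i a b := H.split i a b
  sl i b := H.sl i b
  sr i a := H.sr i a
  ul i := H.ul i
  ur i := H.ur i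
  cn i := H.cn i
  un i := H.un i
  un' i := H.un' i
  sn i f := H.sn i f

/-- The class of kernels, on the coordinates with `p`, scaled. -/
theorem OB_sub_scale (H : H365.OB lam K c u u' s rho e) {σ : ℝ} (hσ : 0 ≤ σ) :
    H365.OB (V := fun i : {i // p i} => V i) (lsub p lam) (fun i a b => σ * K i a b)
      (fun i => σ * c i) (fun i a => σ * u i a) (fun i a => σ * u' i a)
      (fun i a b => σ * s i a b) (fun i => σ * rho i) (fun i => σ * e i) :=
  OB_scale (OB_sub H) fun _ => hσ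

variable {J : Type v} [Fintype J] [DecidableEq J] {sc : ι → J}

/-- **Block [C] of the marginal laws**, as a function of multisets of types. -/
theorem zt_sub {VV' : J → Finset (Σ i : {i // p i}, Option (V i))}
    (hV' : ∀ l ω, ω ∈ VV' l ↔ sc ω.1 = l)
    (h0 : ∀ i a, 0 ≤ lam i a) (H : H365.OB lam K c u u' s rho e) {σ : ℝ} (hσ : 0 < σ)
    {R' E' : {i // p i} → ℝ} (hR' : ∀ i, 0 < R' i) (hE' : ∀ i, 0 < E' i)
    {mu mu' : (∀ i, V i) → ℝ} (hac : ∀ x, mu x ≠ 0 → ∀ i, lam i (x i) ≠ 0)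
    (hac' : ∀ x, mu' x ≠ 0 → ∀ i, lam i (x i) ≠ 0) {τ : Multiset J}
    (hτ : ∀ i, sc i ∈ τ → p i) :
    zt VV' (xo (lsub p lam) (fun i => σ * c i) (fun i a => σ * u i a) (fun i a => σ * u' i a)
        (fun i a b => σ * s i a b) R' E') (Mn (lsub p lam) (msub p mu) R' E')
        (Mn (lsub p lam) (msub p mu') R' E') τ
      = zF sc (FK K mu mu') τ * σ ^ Multiset.card τ := by
  have H' := OB_sub_scale (p := p) H hσ.le
  have e2 := zF_eq_of_co (fun i : {i // p i} => sc i)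
    (FK (V := fun i : {i // p i} => V i) (fun i a b => σ * K i a b) (msub p mu) (msub p mu'))
    (fun a => co_kernel (lam := lsub p lam) (sc := fun i : {i // p i} => sc i) hV'
      (fun i a => h0 i a) H' hR' hE' (ac_sub hac) (ac_sub hac') a) τ
  rw [e2, zF_sub (p := p) sc _ hτ]
  apply zF_scale
  intro B _
  rw [← FK_sub]
  unfold FK
  rw [Finset.mul_sum]
  refine Finset.sum_congr rfl fun x _ => ?_
  rw [Finset.mul_sum]
  refine Finset.sum_congr rfl fun y _ => ?_
  rw [Finset.prod_mul_distrib, Finset.prod_const]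
  ring

/-- **Block [C] of the marginal laws**, literal form of helper365's leaf (B). -/
theorem co_sub {VV : J → Finset (Σ i, Option (V i))} (hV : ∀ l ω, ω ∈ VV l ↔ sc ω.1 = l)
    {VV' : J → Finset (Σ i : {i // p i}, Option (V i))}
    (hV' : ∀ l ω, ω ∈ VV' l ↔ sc ω.1 = l)
    (h0 : ∀ i a, 0 ≤ lam i a) (H : H365.OB lam K c u u' s rho e) {σ : ℝ} (hσ : 0 < σ)
    {R E : ι → ℝ} (hR : ∀ i, 0 < R i) (hE : ∀ i, 0 < E i)
    {R' E' : {i // p i} → ℝ} (hR' : ∀ i, 0 < R' i) (hE' : ∀ i, 0 < E' i)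
    {mu mu' : (∀ i, V i) → ℝ} (hac : ∀ x, mu x ≠ 0 → ∀ i, lam i (x i) ≠ 0)
    (hac' : ∀ x, mu' x ≠ 0 → ∀ i, lam i (x i) ≠ 0) {a : J →₀ ℕ}
    (ha : ∀ i, a (sc i) ≠ 0 → p i) :
    co (zt VV (xo lam c u u' s R E) (Mn lam mu R E) (Mn lam mu' R E)) a * σ ^ a.degree =
      co (zt VV' (xo (lsub p lam) (fun i => σ * c i) (fun i a => σ * u i a)
        (fun i a => σ * u' i a) (fun i a b => σ * s i a b) R' E')
        (Mn (lsub p lam) (msub p mu) R' E') (Mn (lsub p lam) (msub p mu') R' E')) a := by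
  have hτ : ∀ i, sc i ∈ Finsupp.toMultiset a → p i := fun i hi => by
    apply ha
    rw [Finsupp.mem_toMultiset, Finsupp.mem_support_iff] at hi
    exact hi
  have h1 := zt_sub hV' h0 H hσ hR' hE' hac hac' hτ
  have h2 := zF_eq_of_co sc (FK K mu mu') (fun a => co_kernel hV h0 H hR hE hac hac' a)
    (Finsupp.toMultiset a)
  have h3 : Multiset.card (Finsupp.toMultiset a) = a.degree := by
    rw [Finsupp.card_toMultiset]
    rfl
  unfold co
  rw [h1, ← h2, h3]
  ring

/-- **The bounds of the typed cumulants of the marginal laws at one order and one top scale.**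
`p` = the coordinates of the marginal law. -/
structure BTS (p : ι → Prop) [DecidablePred p] (lam : ∀ i, V i → ℝ) (rho e : ι → ℝ)
    (mu mu' : (∀ i, V i) → ℝ) (sc : ι → J) (ell : J → ℝ) (g c1 c2 : ℝ) (A b : ℕ) (j : J) (σ : ℝ)
    (VV : J → Finset (Σ i : {i // p i}, Option (V i))) (R E : {i // p i} → ℝ) (N : J → J → ℝ) :
    Prop where
  hp : ∀ i, ell (sc i) ≤ ell j → p i
  hV : ∀ l ω, ω ∈ VV l ↔ sc ω.1 = l
  s0 : 0 < σ
  s1 : σ⁻¹ ≤ (b * ell j) ^ A
  R0 : ∀ i, 0 < R i
  E0 : ∀ i, 0 < E i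
  R1 : ∀ i : {i // p i}, 2 * (σ * rho i) ≤ R i
  E1 : ∀ i : {i // p i}, 2 * (σ * e i) ≤ E i
  bd : BdT VV b (fun l => Real.exp (g * ell l)) (fun l => Real.exp (-(c1 * ell l))) N
    (Tn (lsub p lam) (msub p mu) R E)
  bd' : BdT VV b (fun l => Real.exp (g * ell l)) (fun l => Real.exp (-(c1 * ell l))) N
    (Tn (lsub p lam) (msub p mu') R E)
  N0 : ∀ l m, 0 ≤ N l m
  N1 : ∀ l m, N l m ≤ Real.exp (g * ell l) * Real.exp (g * ell m)
  N2 : ∀ l m, ell l ≤ ell m → N l m ≤ Real.exp (g * ell l - c2 * (ell m - ell l))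

/-- The bounds of the marginal laws give hypothesis (H) of `seam_out`. -/
theorem H_of_BTS (h0 : ∀ i a, 0 ≤ lam i a) (H : H365.OB lam K c u u' s rho e)
    {mu mu' : (∀ i, V i) → ℝ} (hmu : ∑ x, mu x = 1) (hmu' : ∑ x, mu' x = 1)
    (hac : ∀ x, mu x ≠ 0 → ∀ i, lam i (x i) ≠ 0) (hac' : ∀ x, mu' x ≠ 0 → ∀ i, lam i (x i) ≠ 0)
    {ell : J → ℝ} (hell : ∀ j, 1 ≤ ell j) {g c1 c2 : ℝ} (hg : 0 ≤ g) (hc1 : 0 ≤ c1)
    (hc : g + c1 ≤ c2) {A b0 : ℕ}
    (HB : ∀ b, 1 ≤ b → b ≤ b0 → ∀ j : J, ∃ (p : ι → Prop) (_ : DecidablePred p) (σ : ℝ)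
      (VV : J → Finset (Σ i : {i // p i}, Option (V i))) (R E : {i // p i} → ℝ) (N : J → J → ℝ),
      BTS p lam rho e mu mu' sc ell g c1 c2 A b j σ VV R E N)
    (l : J) (t : Multiset J) (hmin : ∀ m ∈ t, ell l ≤ ell m) (hb : Multiset.card t + 1 ≤ b0) :
    ∃ (σ : ℝ) (z' w' : Multiset J → ℝ), 0 < σ ∧ σ⁻¹ ≤ ((l ::ₘ t).map ell).sum ^ (2 * A) ∧
      z' 0 = 1 ∧ MC z' w' ∧
      (∀ τ ≤ l ::ₘ t, z' τ = zF sc (FK K mu mu') τ * σ ^ Multiset.card τ) ∧
      |w' (l ::ₘ t)| ≤ ((2 * Multiset.card t + 2).factorial : ℝ) *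
        Real.exp (bex g c1 ell l t) := by
  classical
  -- the top scale
  have hne : (l ::ₘ t).toFinset.Nonempty := by
    rw [Multiset.toFinset_nonempty]
    exact Multiset.cons_ne_zero
  obtain ⟨j, hj, hmax⟩ := Finset.exists_max_image (l ::ₘ t).toFinset ell hne
  have hmax' : ∀ m ∈ l ::ₘ t, ell m ≤ ell j := fun m hm => hmax m (Multiset.mem_toFinset.2 hm)
  have hj' : j ∈ l ::ₘ t := Multiset.mem_toFinset.1 hj
  obtain ⟨p, _, σ, VV, R, E, N, hB⟩ := HB (Multiset.card t + 1) (by omega) hb j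
  -- the kernels of the marginal laws
  have hOB := OB_sub_scale (p := p) H hB.s0.le
  set ξ := xo (lsub p lam) (fun i => σ * c i) (fun i a => σ * u i a) (fun i a => σ * u' i a)
    (fun i a b => σ * s i a b) R E with hξdef
  have hCV : CV VV ξ := cv_xo (sc := fun i : {i // p i} => sc i) hB.hV (fun i a => h0 i a) hOB
    hB.R0 hB.E0 hB.R1 hB.E1
  set z' := zt VV ξ (Mn (lsub p lam) (msub p mu) R E) (Mn (lsub p lam) (msub p mu') R E) with hz'
  have hs : ∑ x, msub p mu x = 1 := by rw [msub_sum, hmu]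
  have hs' : ∑ x, msub p mu' x = 1 := by rw [msub_sum, hmu']
  have hM0 : Mn (lsub p lam) (msub p mu) R E 0 = 1 := mn_zero hs
  have hM0' : Mn (lsub p lam) (msub p mu') R E 0 = 1 := mn_zero hs'
  have hw' := exists_w VV ξ hM0 hM0'
  have hzz : ∀ τ ≤ l ::ₘ t, z' τ = zF sc (FK K mu mu') τ * σ ^ Multiset.card τ := by
    intro τ hτ
    exact zt_sub hB.hV h0 H hB.s0 hB.R0 hB.E0 hac hac'
      fun i hi => hB.hp i (hmax' _ (Multiset.mem_of_le hτ hi))
  refine ⟨σ, z', H232.cumT z', hB.s0, ?_, ?_, hw', hzz, ?_⟩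
  · -- size of the scaling
    refine hB.s1.trans ?_
    have hcard := card_mul_le (ell := ell) (e := 1) (l ::ₘ t) fun m _ => hell m
    rw [mul_one, Multiset.card_cons] at hcard
    push_cast at hcard
    have hsum : ell j ≤ ((l ::ₘ t).map ell).sum := by
      obtain ⟨r, hr⟩ := Multiset.exists_cons_of_mem hj'
      rw [hr, Multiset.map_cons, Multiset.sum_cons]
      have : 0 ≤ (r.map ell).sum := by
        apply Multiset.sum_nonneg
        intro x hx
        obtain ⟨m, _, rfl⟩ := Multiset.mem_map.1 hx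
        linarith [hell m]
      linarith
    have hj0 : 0 ≤ ell j := by linarith [hell j]
    rw [pow_mul]
    apply pow_le_pow_left₀ (mul_nonneg (Nat.cast_nonneg _) hj0)
    rw [sq]
    push_cast
    exact mul_le_mul hcard hsum hj0 (le_trans hj0 hsum)
  · rw [hz', zt_zero, hM0, hM0', one_mul]
  · exact w_all hCV hM0 (mc_mn hs) hM0' (mc_mn hs') (fun m => by linarith [hell m]) hg hc1
      hc hB.bd hB.bd' hB.N0 hB.N1 hB.N2 hw' l t hmin le_rfl

/-- **The glue, marginal laws.**  Orders one, two, and the direct bound, for the family `F_B`. -/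
theorem glueS {c1 g' : ℝ} (hc1 : 0 < c1) (hg' : 0 < g') (hgc : g' ≤ c1) (A : ℕ) :
    ∃ l0 : ℕ, ∀ (J : Type v) [Fintype J] [DecidableEq J] (sn : J → ℕ) (ell : J → ℝ) (b0 : ℕ)
      (g c2 : ℝ), Function.Injective sn → (∀ j, l0 ≤ sn j) → (∀ j, ell j = sn j * Real.log 2) →
      0 ≤ g → 8 * g ≤ g' → g + c1 ≤ c2 → 2 ≤ b0 →
      ∀ (ι : Type u1) [Fintype ι] [DecidableEq ι] (V : ι → Type u2) [∀ i, Fintype (V i)]
        [∀ i, DecidableEq (V i)] (lam : ∀ i, V i → ℝ) (K : ∀ i, V i → V i → ℝ) (c : ι → ℝ)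
        (u u' : ∀ i, V i → ℝ) (s : ∀ i, V i → V i → ℝ) (rho e : ι → ℝ)
        (mu mu' : (∀ i, V i) → ℝ) (sc : ι → J),
        (∀ i a, 0 ≤ lam i a) → H365.OB lam K c u u' s rho e → (∑ x, mu x = 1) →
        (∑ x, mu' x = 1) → (∀ x, mu x ≠ 0 → ∀ i, lam i (x i) ≠ 0) →
        (∀ x, mu' x ≠ 0 → ∀ i, lam i (x i) ≠ 0) →
        (∀ b, 1 ≤ b → b ≤ b0 → ∀ j : J, ∃ (p : ι → Prop) (_ : DecidablePred p) (σ : ℝ)
          (VV : J → Finset (Σ i : {i // p i}, Option (V i))) (R E : {i // p i} → ℝ)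
          (N : J → J → ℝ), BTS p lam rho e mu mu' sc ell g c1 c2 A b j σ VV R E N) →
      (∀ j, |co (wF sc (FK K mu mu')) (Finsupp.single j 1)| ≤ Real.exp (g' * ell j)) ∧
      (∀ j, ∑ i, |co (wF sc (FK K mu mu')) (Finsupp.single i 1 + Finsupp.single j 1)| ≤
        Real.exp (g' * ell j)) ∧
      (∀ a : J →₀ ℕ, 3 ≤ a.degree → a.degree ≤ b0 → |co (wF sc (FK K mu mu')) a| ≤
        Real.exp (((2 * A : ℕ) + 4) * a.degree * Real.log (∑ j, (a j : ℝ) * ell j)
          - c1 / 6 * ∑ j, (a j : ℝ) * ell j)) := by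
  obtain ⟨l0, hl0⟩ := seam_out.{v} hc1 hg' hgc (2 * A)
  obtain ⟨l1, hl1⟩ := exists_nat_ge (1 / Real.log 2)
  refine ⟨max l0 l1, ?_⟩
  intro J _ _ sn ell b0 g c2 hinj hsn hell hg hgg hc hb0 ι _ _ V _ _ lam K c u u' s rho e mu mu' sc
    h0 H hmu hmu' hac hac' HB
  have hl2 : 0 < Real.log 2 := Real.log_pos (by norm_num)
  have hone : ∀ j, 1 ≤ ell j := by
    intro j
    rw [hell j]
    rw [div_le_iff₀ hl2] at hl1
    refine hl1.trans ?_
    apply mul_le_mul_of_nonneg_right _ hl2.le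
    exact_mod_cast (le_max_right _ _).trans (hsn j)
  have hf : FK K mu mu' ∅ = 1 := FK_empty hmu hmu'
  exact hl0 J sn ell b0 g (zF sc (FK K mu mu')) (wF sc (FK K mu mu')) hinj
    (fun j => (le_max_left _ _).trans (hsn j)) hell hg hgg hb0 (by rw [zF_zero, hf])
    (mc_wF sc hf) (fun l t hmin hb => H_of_BTS h0 H hmu hmu' hac hac' hone hg hc1.le hc HB l t
      hmin hb)

end kernels

end Vale.Agent.P042.H284
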