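import Vale.Agent.P042.H92.PLocal
import Vale.Agent.P042.H365.BTx
import Vale.Agent.P042.H161.TbHi

/-!
# P042, power regime: the numbers of `BTSof` in the order of `Regime`

`BtN c1 c2 g K0 Q` = all numeric facts used between 92's `PLaw` and 365's `bts_of_law2`;
`regime_bt` = they hold in the order of the quantifiers of `Regime`, together with any statement of
the shape of `ph_plaw`.
-/

set_option autoImplicit false
set_option linter.unusedSectionVars false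

namespace Vale.Agent.P042.H284

open Filter Real
open Vale.Agent.P042.H92 (Prm Regime LF)

/-! ### Eventual inequalities -/

theorem ev_pow {c : ℝ} (hc : 0 < c) (k : ℕ) (C : ℝ) : ∀ᶠ x : ℝ in atTop, C * x ^ k ≤ exp (c * x) := by
  have h := (isLittleO_pow_exp_pos_mul_atTop (k := k) hc).def
    (show (0 : ℝ) < (|C| + 1)⁻¹ by positivity)
  filter_upwards [h, eventually_ge_atTop (0 : ℝ)] with x h1 h2
  rw [Real.norm_of_nonneg (by positivity), Real.norm_of_nonneg (exp_pos _).le] at h1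
  have h3 : (|C| + 1) * x ^ k ≤ exp (c * x) := by
    have := mul_le_mul_of_nonneg_left h1 (show (0 : ℝ) ≤ |C| + 1 by positivity)
    rwa [← mul_assoc, mul_inv_cancel₀ (by positivity), one_mul] at this
  refine le_trans (mul_le_mul_of_nonneg_right ?_ (by positivity)) h3
  linarith [le_abs_self C]

theorem ev_exp {a b : ℝ} (hab : a < b) (C : ℝ) (k : ℕ) :
    ∀ᶠ x : ℝ in atTop, C * x ^ k * exp (a * x) ≤ exp (b * x) := by
  filter_upwards [ev_pow (sub_pos.2 hab) k C] with x h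
  have : exp (b * x) = exp ((b - a) * x) * exp (a * x) := by rw [← exp_add]; congr 1; ring
  rw [this]
  exact mul_le_mul_of_nonneg_right h (exp_pos _).le

/-- the exponent of the mixed rates of 161 -/
noncomputable def etaN (C1 : ℝ) : ℝ := 1 / (24 * C1) / (12 * (C1 + 1))

theorem etaN_pos {C1 : ℝ} (h : 4 ≤ C1) : 0 < etaN C1 := by unfold etaN; positivity

theorem etaN_le {C1 : ℝ} (h : 4 ≤ C1) : etaN C1 ≤ 1 / 5760 := by
  unfold etaN
  rw [div_div, div_le_div_iff₀ (by positivity) (by norm_num)]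
  nlinarith

/-- **The numbers of block F.B** (`h = g / 16`, `A0 = 2`, `cs = 1 / (24 C1)`,
`Kf b s = ((b + 1) sn s) ^ CK`, `b0 = ⌊exp (d1 p)⌋`). -/
structure BtN (c1 c2 g : ℝ) (K0 : ℕ) (Q : Prm) : Prop where
  C1 : 4 ≤ Q.C1
  CK : 8 ≤ Q.CK
  k1000 : 1000 ≤ K0
  p1 : 1000 ≤ Q.p
  G0 : 0 < Q.G
  G1 : Q.G ≤ etaN Q.C1 / 8
  c1eq : c1 = Q.G / 400
  c2eq : c2 = Q.G / 200
  g0 : 0 < g
  g1 : g ≤ Q.G / 800
  kap0 : 0 < Q.kap
  kap1 : Q.kap ≤ g / 32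
  γ0 : 0 < Q.γ
  γ1 : Q.γ ≤ g / 1024
  γ2 : Q.γ ≤ Q.kap / 32
  d0 : 0 < Q.d1
  d1 : Q.d1 ≤ Q.G / 64
  a0 : 0 ≤ Q.a0
  θ0 : 0 < Q.θ
  c0 : 0 < Q.c0
  cD0 : 0 < Q.cD
  cD1 : 64 * Q.C1 * Q.cD ≤ Q.γ * Q.θ
  numG : H365.NumG Q.G (g / 16) g c1 c2
  numC : ∀ Kf : ℝ, 1 ≤ Kf →
    H161.NumC Q.p Q.G (g / 16) Kf (Q.C1 + 1) (1 / (24 * Q.C1)) (etaN Q.C1)
  /-- the two conditions of `tb_hi2` -/
  hc : c1 + g ≤ etaN Q.C1 / 8 - 2 * (g / 16)
  hc2 : c2 ≤ etaN Q.C1 / 8 - 2 * (g / 16)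
  /-- scales: costs -/
  xa : ∀ x : ℝ, K0 * log 2 ≤ x → Q.a0 ≤ g / 256 * x
  xb : ∀ x : ℝ, K0 * log 2 ≤ x → 16 * (Q.a0 + 5 + x) ^ 2 ≤ exp (g / 16 / 8 * x)
  xc : ∀ x : ℝ, K0 * log 2 ≤ x →
    4000 * (Q.a0 + 1) ^ 2 * exp (2 * Q.a0) * exp ((3 * Q.γ + Q.kap / 2) * x) ≤ exp (g / 32 * x)
  /-- `p` large -/
  pa : exp (Q.d1 * Q.p) + 3 ≤ exp (2 * Q.d1 * Q.p)
  pb : exp (4 * Q.d1 * Q.p) * (Q.C1 * Q.p + 2) ≤ Q.θ * exp Q.p
  pc : exp ((1 - Q.G / 2) * Q.p) ≤ Q.θ * exp Q.p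
  pd : 2 * exp ((1 - Q.G / 2) * Q.p) + 100 * (Q.C1 + 1) * Q.p ≤ Q.c0 / 2 * exp Q.p
  pe : 100 * (Q.C1 * Q.p + 2) ^ 3 * exp ((1 - Q.G) * Q.p) ≤ exp ((1 - Q.G / 2) * Q.p)
  pf : exp (4 * Q.d1 * Q.p) * (Q.C1 * Q.p + 2) ≤ exp ((1 - Q.G / 2) * Q.p)
  pG : 3 ≤ (4 * Q.G - Q.kap) * Q.p
  pL : Q.C1 * Q.p + 2 ≤ exp (Q.d1 * Q.p)

/-- The order of the quantifiers of 386's `ph_plaw`. -/
def RegP (stm : ℕ → Prm → Prop) (C1 : ℝ) : Prop :=
  ∃ k0 : ℝ, 0 < k0 ∧ ∀ γ d1 : ℝ, 0 < γ → γ ≤ k0 → 0 < d1 → d1 ≤ k0 → ∀ a0 : ℝ, 0 ≤ a0 →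
    ∃ K1 : ℕ, ∀ K0 : ℕ, K1 ≤ K0 → ∀ θ c0 cD : ℝ, 0 < θ → 0 < c0 → 0 < cD →
      cD ≤ k0 * (γ * θ) → ∃ p0 : ℝ, ∀ p : ℝ, p0 ≤ p → ∀ (kap G : ℝ) (CK : ℕ),
        stm K0 ⟨p, C1, γ, a0, θ, c0, cD, kap, d1, G, CK⟩

/-- The regime is monotone. -/
theorem Regime.mono {C1 : ℝ} {s1 s2 : (c1 c2 g : ℝ) → (A : ℕ) → (K0 : ℕ) → Prm → Prop}
    (h : ∀ c1 c2 g A K0 Q, Q.C1 = C1 → s1 c1 c2 g A K0 Q → s2 c1 c2 g A K0 Q)
    (H : Regime s1 C1) : Regime s2 C1 := by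
  obtain ⟨CK0, H⟩ := H
  refine ⟨CK0, fun CK hCK => ?_⟩
  obtain ⟨G0, hG0, H⟩ := H CK hCK
  refine ⟨G0, hG0, fun G hG hG1 => ?_⟩
  obtain ⟨c1, c2, A, hc1, hc2, g0, hg0, k0, hk0, H⟩ := H G hG hG1
  refine ⟨c1, c2, A, hc1, hc2, g0, hg0, k0, hk0, fun g kap γ d1 h1 h2 h3 h4 h5 h6 h7 h8 a0 ha0 => ?_⟩
  obtain ⟨K0, H⟩ := H g kap γ d1 h1 h2 h3 h4 h5 h6 h7 h8 a0 ha0
  refine ⟨K0, fun θ c0 cD t1 t2 t3 t4 => ?_⟩
  obtain ⟨p0, H⟩ := H θ c0 cD t1 t2 t3 t4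
  exact ⟨p0, fun p hp => h _ _ _ _ _ _ rfl (H p hp)⟩

theorem ev_x {g γ kap a0 : ℝ} (hg : 0 < g) (hkap1 : kap ≤ g / 32)
    (hγ1 : γ ≤ g / 1024) :
    ∀ᶠ x : ℝ in atTop, a0 ≤ g / 256 * x ∧ 16 * (a0 + 5 + x) ^ 2 ≤ exp (g / 16 / 8 * x) ∧
      4000 * (a0 + 1) ^ 2 * exp (2 * a0) * exp ((3 * γ + kap / 2) * x) ≤ exp (g / 32 * x) := by
  have e1 := eventually_ge_atTop (a0 / (g / 256))
  have e2 := ev_pow (show 0 < g / 16 / 8 by positivity) 2 64
  have e3 := eventually_ge_atTop (a0 + 5)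
  have e4 := ev_exp (a := 3 * γ + kap / 2) (b := g / 32) (by linarith)
    (4000 * (a0 + 1) ^ 2 * exp (2 * a0)) 0
  filter_upwards [e1, e2, e3, e4, eventually_ge_atTop (-(a0 + 5)), eventually_ge_atTop (0 : ℝ)]
    with x h1 h2 h3 h4 h5 h6
  refine ⟨?_, ?_, ?_⟩
  · have := (div_le_iff₀ (show 0 < g / 256 by positivity)).1 h1
    linarith
  · refine le_trans ?_ h2
    have : (a0 + 5 + x) ^ 2 ≤ (2 * x) ^ 2 := by
      apply pow_le_pow_left₀ <;> linarith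
    nlinarith
  · rwa [pow_zero, mul_one] at h4

theorem ev_p {C1 G d1 θ c0 : ℝ} (hC1 : 4 ≤ C1) (hG : G ≤ 1 / 4) (hd0 : 0 < d1)
    (hd1 : d1 ≤ G / 64) (hθ : 0 < θ) (hc0 : 0 < c0) :
    ∀ᶠ p : ℝ in atTop, 1000 ≤ p ∧ exp (d1 * p) + 3 ≤ exp (2 * d1 * p) ∧
      exp (4 * d1 * p) * (C1 * p + 2) ≤ θ * exp p ∧
      exp ((1 - G / 2) * p) ≤ θ * exp p ∧
      2 * exp ((1 - G / 2) * p) + 100 * (C1 + 1) * p ≤ c0 / 2 * exp p ∧
      100 * (C1 * p + 2) ^ 3 * exp ((1 - G) * p) ≤ exp ((1 - G / 2) * p) ∧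
      exp (4 * d1 * p) * (C1 * p + 2) ≤ exp ((1 - G / 2) * p) ∧ 3 ≤ G * p ∧
      C1 * p + 2 ≤ exp (d1 * p) := by
  have e8 := ev_pow hd0 1 (C1 + 2)
  have e1 := ev_exp (a := d1) (b := 2 * d1) (by linarith) 4 0
  have e2 := ev_exp (a := 4 * d1) (b := 1) (by linarith) ((C1 + 2) / θ) 1
  have e3 := ev_exp (a := 1 - G / 2) (b := 1) (by linarith) (1 / θ) 0
  have e4 := ev_exp (a := 1 - G / 2) (b := 1) (by linarith) (8 / c0) 0
  have e5 := ev_pow (show (0 : ℝ) < 1 by norm_num) 1 (400 * (C1 + 1) / c0)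
  have e6 := ev_exp (a := 1 - G) (b := 1 - G / 2) (by linarith)
    (100 * (C1 + 2) ^ 3) 3
  have e7 := ev_exp (a := 4 * d1) (b := 1 - G / 2) (by linarith) (C1 + 2) 1
  filter_upwards [e1, e2, e3, e4, e5, e6, e7, eventually_ge_atTop (1000 : ℝ),
    eventually_ge_atTop (4 / d1), e8] with p h1 h2 h3 h4 h5 h6 h7 h8 h9 h9'
  have hG0 : 0 < G := by linarith
  simp only [pow_zero, mul_one, pow_one, one_mul] at h1 h2 h3 h4 h5 h7
  have hd1p : 4 ≤ d1 * p := by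
    have := (div_le_iff₀ hd0).1 h9
    linarith
  have hlin : C1 * p + 2 ≤ (C1 + 2) * p := by nlinarith
  refine ⟨h8, ?_, ?_, ?_, ?_, ?_, ?_, ?_, ?_⟩
  · have : (1 : ℝ) ≤ exp (d1 * p) := by
      rw [← exp_zero]; exact exp_le_exp.2 (by linarith)
    linarith
  · have h10 : (C1 + 2) * p * exp (4 * d1 * p) ≤ θ * exp p := by
      have := mul_le_mul_of_nonneg_left h2 hθ.le
      calc (C1 + 2) * p * exp (4 * d1 * p) = θ * ((C1 + 2) / θ * p * exp (4 * d1 * p)) := by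
            field_simp
        _ ≤ _ := this
    refine le_trans ?_ h10
    rw [mul_comm]
    exact mul_le_mul_of_nonneg_right hlin (exp_pos _).le
  · have := mul_le_mul_of_nonneg_left h3 hθ.le
    calc exp ((1 - G / 2) * p) = θ * (1 / θ * exp ((1 - G / 2) * p)) := by field_simp
      _ ≤ _ := this
  · have h10 : 8 * exp ((1 - G / 2) * p) ≤ c0 * exp p := by
      have := mul_le_mul_of_nonneg_left h4 hc0.le
      calc 8 * exp ((1 - G / 2) * p) = c0 * (8 / c0 * exp ((1 - G / 2) * p)) := by field_simp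
        _ ≤ _ := this
    have h11 : 400 * (C1 + 1) * p ≤ c0 * exp p := by
      have := mul_le_mul_of_nonneg_left h5 hc0.le
      calc 400 * (C1 + 1) * p = c0 * (400 * (C1 + 1) / c0 * p) := by field_simp
        _ ≤ _ := this
    linarith
  · refine le_trans (mul_le_mul_of_nonneg_right ?_ (exp_pos _).le) h6
    have := pow_le_pow_left₀ (by nlinarith) hlin 3
    calc 100 * (C1 * p + 2) ^ 3 ≤ 100 * ((C1 + 2) * p) ^ 3 := by linarith
      _ = _ := by ring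
  · refine le_trans ?_ h7
    rw [mul_comm]
    exact mul_le_mul_of_nonneg_right hlin (exp_pos _).le
  · have h10 : d1 * p ≤ G / 64 * p := mul_le_mul_of_nonneg_right hd1 (by linarith)
    linarith
  · rw [pow_one] at h9'
    linarith

/-- **The numbers of block F.B in the order of `Regime`.** -/
theorem regime_bt {C1 : ℝ} (hC1 : 4 ≤ C1) (fA : ℕ → ℕ) {stm : ℕ → Prm → Prop}
    (hP : RegP stm C1) :
    Regime (fun c1 c2 g A K0 Q => BtN c1 c2 g K0 Q ∧ A = fA Q.CK ∧ stm K0 Q) C1 := by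
  obtain ⟨kP, hkP, hP⟩ := hP
  have hη := etaN_pos hC1
  have hη1 := etaN_le hC1
  refine ⟨8, fun CK hCK => ⟨etaN C1 / 8, by positivity, fun G hG hG1 => ?_⟩⟩
  refine ⟨G / 400, G / 200, fA CK, by positivity, by linarith, G / 800, by positivity,
    min kP (min (1 / 32) (min (G / 64) (1 / (64 * C1)))), ?_, ?_⟩
  · refine lt_min hkP (lt_min (by norm_num) (lt_min (by positivity) (by positivity)))
  intro g kap γ d1 hg hg1 hkap hkap1 hγ hγ1 hd hd1 a0 ha0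
  set k0 := min kP (min (1 / 32) (min (G / 64) (1 / (64 * C1)))) with hk0
  have k1 : k0 ≤ kP := min_le_left _ _
  have k2 : k0 ≤ 1 / 32 := (min_le_right _ _).trans (min_le_left _ _)
  have k3 : k0 ≤ G / 64 := (min_le_right _ _).trans ((min_le_right _ _).trans (min_le_left _ _))
  have k4 : k0 ≤ 1 / (64 * C1) :=
    (min_le_right _ _).trans ((min_le_right _ _).trans (min_le_right _ _))
  have hkap2 : kap ≤ g / 32 := by linarith
  have hγ2 : γ ≤ kap / 32 := by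
    have := mul_le_mul_of_nonneg_right k2 hkap.le
    linarith
  have hγ3 : γ ≤ g / 1024 := by linarith
  have hk0p : 0 < k0 := by
    by_contra hcon
    have : k0 * kap ≤ 0 := mul_nonpos_of_nonpos_of_nonneg (not_lt.1 hcon) hkap.le
    linarith
  have hγk : γ ≤ k0 := by
    have : k0 * kap ≤ k0 * 1 := mul_le_mul_of_nonneg_left (by linarith) hk0p.le
    linarith
  obtain ⟨K1, hP⟩ := hP γ d1 hγ (hγk.trans k1) hd (hd1.trans k1) a0 ha0
  obtain ⟨X, hX⟩ := eventually_atTop.1 (ev_x (γ := γ) (kap := kap) (a0 := a0) hg hkap2 hγ3)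
  refine ⟨max K1 (max 1000 ⌈X / log 2⌉₊), fun θ c0 cD hθ hc0 hcD hcD1 => ?_⟩
  set K0 := max K1 (max 1000 ⌈X / log 2⌉₊) with hK0
  have hcD2 : cD ≤ kP * (γ * θ) :=
    hcD1.trans (mul_le_mul_of_nonneg_right k1 (by positivity))
  obtain ⟨p0, hp0⟩ := hP K0 (le_max_left _ _) θ c0 cD hθ hc0 hcD hcD2
  obtain ⟨p1, hp1⟩ := eventually_atTop.1
    (ev_p hC1 (by linarith) hd (hd1.trans k3) hθ hc0)
  refine ⟨max p0 p1, fun p hp => ⟨?_, rfl, hp0 p ((le_max_left _ _).trans hp) kap G CK⟩⟩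
  obtain ⟨q1, q2, q3, q4, q5, q6, q7, q8, q9⟩ := hp1 p ((le_max_right _ _).trans hp)
  have hlog : 0 < log 2 := log_pos (by norm_num)
  have hx : ∀ x : ℝ, K0 * log 2 ≤ x → X ≤ x := by
    intro x hx
    have h1 : ⌈X / log 2⌉₊ ≤ K0 := (le_max_right _ _).trans (le_max_right _ _)
    have h2 : X / log 2 ≤ K0 := (Nat.le_ceil _).trans (by exact_mod_cast h1)
    have h3 := (div_le_iff₀ hlog).1 h2
    linarith
  have hcD3 : 64 * C1 * cD ≤ γ * θ := by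
    have h1 : cD ≤ 1 / (64 * C1) * (γ * θ) :=
      hcD1.trans (mul_le_mul_of_nonneg_right k4 (by positivity))
    have h2 := mul_le_mul_of_nonneg_left h1 (show 0 ≤ 64 * C1 by linarith)
    rwa [← mul_assoc, mul_one_div_cancel (by positivity), one_mul] at h2
  exact {
    C1 := hC1
    CK := hCK
    k1000 := (le_max_left _ _).trans (le_max_right _ _)
    p1 := q1
    G0 := hG
    G1 := hG1
    c1eq := rfl
    c2eq := rfl
    g0 := hg
    g1 := hg1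
    kap0 := hkap
    kap1 := hkap2
    γ0 := hγ
    γ1 := hγ3
    γ2 := hγ2
    d0 := hd
    d1 := hd1.trans k3
    a0 := ha0
    θ0 := hθ
    c0 := hc0
    cD0 := hcD
    cD1 := hcD3
    numG := {
      hh := by linarith
      hg := by linarith
      c10 := by linarith
      c20 := by linarith
      c21 := by linarith
      hc := by linarith
      hcs := by linarith }
    numC := fun Kf hKf => {
      p0 := by show (0 : ℝ) < p; linarith
      c1 := by show (1 : ℝ) ≤ C1 + 1; linarith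
      cs0 := by show (0 : ℝ) < 1 / (24 * C1); positivity
      cs1 := by
        show 1 / (24 * C1) ≤ 1 / 2
        rw [div_le_div_iff₀ (by positivity) (by norm_num)]
        linarith
      eta := rfl
      G0 := hG.le
      G1 := hG1
      h0 := by positivity
      h1 := by show g / 16 ≤ etaN C1 / 64; linarith
      Kf1 := hKf }
    hc := by show G / 400 + g ≤ etaN C1 / 8 - 2 * (g / 16); linarith
    hc2 := by show G / 200 ≤ etaN C1 / 8 - 2 * (g / 16); linarith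
    xa := fun x h => (hX x (hx x h)).1
    xb := fun x h => (hX x (hx x h)).2.1
    xc := fun x h => (hX x (hx x h)).2.2
    pa := q2
    pb := q3
    pc := q4
    pd := q5
    pe := q6
    pf := q7
    pG := by
      show 3 ≤ (4 * G - kap) * p
      have : G * p ≤ (4 * G - kap) * p := mul_le_mul_of_nonneg_right (by linarith) (by linarith)
      linarith
    pL := q9 }

/-! ### Consequences -/

/-- the constants of the families of order `b` and top scale `n` -/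
noncomputable def KfN (CK b n : ℕ) : ℝ := (((b + 1 : ℕ) : ℝ) * n) ^ CK

section facts

variable {c1 c2 g : ℝ} {K0 : ℕ} {Q : Prm} (N : BtN c1 c2 g K0 Q)
include N

theorem BtN.log2 : (1 : ℝ) / 2 < log 2 := by
  have := log_two_gt_d9
  linarith

theorem BtN.n1000 {n : ℕ} (hn : K0 ≤ n) : (1000 : ℝ) ≤ n := by
  exact_mod_cast N.k1000.trans hn

theorem BtN.x500 {x : ℝ} (hx : K0 * log 2 ≤ x) : 500 ≤ x := by
  have h1 := N.n1000 le_rfl
  have h2 := N.log2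
  nlinarith

theorem BtN.kn {n : ℕ} (hn : K0 ≤ n) : K0 * log 2 ≤ n * log 2 := by
  have h2 := N.log2
  have h3 : (K0 : ℝ) ≤ n := by exact_mod_cast hn
  exact mul_le_mul_of_nonneg_right h3 (by linarith)

theorem BtN.kf_ge {b n : ℕ} (hn : K0 ≤ n) {m : ℕ} (hm : m ≤ Q.CK) :
    (((b + 1 : ℕ) : ℝ) * n) ^ m ≤ KfN Q.CK b n := by
  have h1 := N.n1000 hn
  have h2 : (1 : ℝ) ≤ ((b + 1 : ℕ) : ℝ) := by push_cast; linarith [Nat.cast_nonneg (α := ℝ) b]
  exact pow_le_pow_right₀ (by nlinarith) hm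

theorem BtN.kf1 {b n : ℕ} (hn : K0 ≤ n) : 128 * (b : ℝ) ≤ KfN Q.CK b n := by
  refine le_trans ?_ (N.kf_ge (b := b) hn (m := 1) (by have := N.CK; omega))
  have h1 := N.n1000 hn
  have h2 := Nat.cast_nonneg (α := ℝ) b
  rw [pow_one]
  push_cast
  nlinarith

theorem BtN.kf_one {b n : ℕ} (hn : K0 ≤ n) : 1 ≤ KfN Q.CK b n := by
  refine le_trans ?_ (N.kf_ge (b := b) hn (m := 0) (Nat.zero_le _))
  simp

theorem BtN.lamF {b n : ℕ} (hn : K0 ≤ n) :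
    H365.LamF 2 b (n * log 2) ≤ LF (b + 1) n := by
  unfold H365.LamF LF
  have h1 := N.n1000 hn
  have h2 := Nat.cast_nonneg (α := ℝ) b
  have h3 : log 2 ≤ 1 := by have := log_two_lt_d9; linarith
  have h4 : ((2 * 2 + 9 : ℝ)) * (b : ℝ) ^ 2 * (n * log 2) ≤ 13 * (b : ℝ) ^ 2 * n := by
    have : (n : ℝ) * log 2 ≤ n := mul_le_of_le_one_right (by linarith) h3
    have := mul_le_mul_of_nonneg_left this (show 0 ≤ 13 * (b : ℝ) ^ 2 by positivity)
    linarith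
  refine h4.trans ?_
  push_cast
  have h5 : (b : ℝ) ^ 2 ≤ ((b : ℝ) + 1) ^ 4 := by
    have h6 : (b : ℝ) ^ 2 ≤ ((b : ℝ) + 1) ^ 2 := pow_le_pow_left₀ h2 (by linarith) 2
    exact h6.trans (pow_le_pow_right₀ (by linarith) (by norm_num))
  have h7 : 13 * (n : ℝ) ≤ (n : ℝ) ^ 4 := by
    have : (n : ℝ) * 13 ≤ n * (n : ℝ) ^ 3 :=
      mul_le_mul_of_nonneg_left (by nlinarith [pow_le_pow_left₀ (by norm_num : (0:ℝ) ≤ 1000) h1 3])
        (by linarith)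
    nlinarith
  calc 13 * (b : ℝ) ^ 2 * n = (b : ℝ) ^ 2 * (13 * n) := by ring
    _ ≤ ((b : ℝ) + 1) ^ 4 * (n : ℝ) ^ 4 := mul_le_mul h5 h7 (by linarith) (by positivity)
    _ = _ := by ring

theorem BtN.lf_ge {b n : ℕ} (hn : K0 ≤ n) : 1408 * ((b : ℝ) + 1) ≤ LF (b + 1) n := by
  unfold LF
  have h1 := N.n1000 hn
  have h2 := Nat.cast_nonneg (α := ℝ) b
  push_cast
  have h3 : (1408 : ℝ) ≤ (n : ℝ) ^ 4 := by
    have := pow_le_pow_left₀ (by norm_num : (0:ℝ) ≤ 1000) h1 4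
    linarith
  have h4 : (b : ℝ) + 1 ≤ ((b : ℝ) + 1) ^ 4 := le_self_pow₀ (by linarith) (by norm_num)
  calc 1408 * ((b : ℝ) + 1) = ((b : ℝ) + 1) * 1408 := by ring
    _ ≤ ((b : ℝ) + 1) ^ 4 * (n : ℝ) ^ 4 := mul_le_mul h4 h3 (by norm_num) (by positivity)
    _ = _ := by ring

theorem BtN.lf_err {b n : ℕ} (hn : K0 ≤ n) : 1 / LF (b + 1) n ≤ 1 / (1408 * (b + 1)) := by
  have h2 := Nat.cast_nonneg (α := ℝ) b
  exact one_div_le_one_div_of_le (by positivity) (N.lf_ge hn)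

theorem BtN.kfA {b n n' : ℕ} (hb : 1 ≤ b) (hn : K0 ≤ n) (hn' : n ≤ n') :
    KfN Q.CK b n ≤ (b * (n' * log 2)) ^ (3 * Q.CK) := by
  have h1 := N.n1000 hn
  have h2 : (1 : ℝ) ≤ b := by exact_mod_cast hb
  have h3 := N.log2
  have h4 : (n : ℝ) ≤ n' := by exact_mod_cast hn'
  rw [pow_mul]
  unfold KfN
  refine pow_le_pow_left₀ (by positivity) ?_ _
  push_cast
  set y : ℝ := b * (n' * log 2) with hy
  have h5 : (b : ℝ) * n' ≤ 2 * y := by
    have : (b : ℝ) * n' * 1 ≤ (b : ℝ) * n' * (2 * log 2) :=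
      mul_le_mul_of_nonneg_left (by linarith) (by positivity)
    rw [hy]
    linarith
  have h6 : 2 ≤ y := by
    have : (1000 : ℝ) ≤ b * n' := by nlinarith
    linarith
  calc ((b : ℝ) + 1) * n ≤ (2 * b) * n' := mul_le_mul (by linarith) h4 (by linarith) (by linarith)
    _ ≤ 4 * y := by linarith
    _ ≤ y ^ 3 := by nlinarith [mul_nonneg (by linarith : 0 ≤ y) (by linarith : (0:ℝ) ≤ y - 2)]

theorem BtN.kflo {b n : ℕ} (hn : K0 ≤ n) (hp : Q.p ≤ n * log 2) :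
    4 * (2 * Q.p + 2) ≤ KfN Q.CK b n := by
  refine le_trans ?_ (N.kf_ge (b := b) hn (m := 2) (by have := N.CK; omega))
  have h1 := N.n1000 hn
  have h2 := Nat.cast_nonneg (α := ℝ) b
  have h3 : log 2 ≤ 1 := by have := log_two_lt_d9; linarith
  have h4 : (n : ℝ) * log 2 ≤ n := mul_le_of_le_one_right (by linarith) h3
  have h5 := N.p1
  have h6 : (n : ℝ) ≤ ((b + 1 : ℕ) : ℝ) * n := by
    push_cast
    nlinarith
  have h7 : (n : ℝ) ^ 2 ≤ (((b + 1 : ℕ) : ℝ) * n) ^ 2 := pow_le_pow_left₀ (by linarith) h6 2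
  nlinarith

theorem BtN.kf12 {b n : ℕ} (hn : K0 ≤ n) : 12 * (n * log 2) ≤ KfN Q.CK b n := by
  refine le_trans ?_ (N.kf_ge (b := b) hn (m := 2) (by have := N.CK; omega))
  have h1 := N.n1000 hn
  have h2 := Nat.cast_nonneg (α := ℝ) b
  have h3 : log 2 ≤ 1 := by have := log_two_lt_d9; linarith
  have h4 : (n : ℝ) * log 2 ≤ n := mul_le_of_le_one_right (by linarith) h3
  have h6 : (n : ℝ) ≤ ((b + 1 : ℕ) : ℝ) * n := by
    push_cast
    nlinarith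
  have h7 : (n : ℝ) ^ 2 ≤ (((b + 1 : ℕ) : ℝ) * n) ^ 2 := pow_le_pow_left₀ (by linarith) h6 2
  nlinarith

/-- the top scale -/
theorem BtN.top {x : ℝ} (hx : x ≤ Q.C1 * Q.p + 1) : x ≤ (Q.C1 + 1) * Q.p := by
  have := N.p1
  linarith

/-- below `(2 - 4 G) p` every site is low -/
theorem BtN.kapG : (2 - 4 * Q.G) * Q.p + 3 ≤ (2 - Q.kap) * Q.p := by
  have h1 := N.kap1
  have h2 := N.g1
  have h3 := N.p1
  have h4 := N.G0
  have h5 : 3 ≤ (4 * Q.G - Q.kap) * Q.p := N.pG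
  linarith

theorem BtN.ord {b : ℕ} (hb : (b : ℝ) ≤ exp (Q.d1 * Q.p)) : b ≤ ⌊exp (Q.d1 * Q.p)⌋₊ :=
  Nat.le_floor hb

theorem BtN.ord2 : ((⌊exp (Q.d1 * Q.p)⌋₊ : ℕ) : ℝ) + 3 ≤ exp (2 * Q.d1 * Q.p) := by
  have h1 := Nat.floor_le (exp_pos (Q.d1 * Q.p)).le
  linarith [N.pa]

theorem BtN.ord3 {b : ℕ} (hb : (b : ℝ) ≤ exp (Q.d1 * Q.p)) :
    b + 2 ≤ ⌊exp (3 * Q.d1 * Q.p)⌋₊ := by
  apply Nat.le_floor
  push_cast
  have h1 := N.pa
  have h2 : exp (2 * Q.d1 * Q.p) ≤ exp (3 * Q.d1 * Q.p) := exp_le_exp.2 (by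
    have := mul_nonneg N.d0.le (show 0 ≤ Q.p by linarith [N.p1])
    linarith)
  linarith

theorem BtN.numL {J : Type*} {sn : J → ℕ} {ell : J → ℝ} (hinj : Function.Injective sn)
    (hell : ∀ j, ell j = sn j * log 2) (hK : ∀ j, K0 ≤ sn j) :
    H365.NumL sn ell Q.p Q.G (g / 16) 2 where
  inj := hinj
  elleq := hell
  big j := by
    have h1 : K0 * log 2 ≤ ell j := by rw [hell]; exact N.kn (hK j)
    have h2 := N.xb _ h1
    have h3 := N.x500 h1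
    have h4 := N.a0
    refine le_trans ?_ h2
    nlinarith
  ell2 j := by
    have h1 : K0 * log 2 ≤ ell j := by rw [hell]; exact N.kn (hK j)
    linarith [N.x500 h1]
  A01 := by norm_num
  h0 := by have := N.g0; positivity
  G0 := N.G0
  G1 := by
    have := N.G1
    have := etaN_le N.C1
    linarith
  p0 := by have := N.p1; linarith

/-- cost of one pin -/
theorem BtN.cost {x y : ℝ} (hx : K0 * log 2 ≤ x) (hy : y ≤ x) :
    Q.a0 + Q.γ * y ≤ g / 16 / 8 * x := by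
  have h1 := N.xa x hx
  have h2 := N.x500 hx
  have h3 : Q.γ * y ≤ Q.γ * x := mul_le_mul_of_nonneg_left hy N.γ0.le
  have h4 : Q.γ * x ≤ g / 1024 * x := mul_le_mul_of_nonneg_right N.γ1 (by linarith)
  have h5 : 0 ≤ g * x := mul_nonneg N.g0.le (by linarith)
  linarith

theorem BtN.gam {x y : ℝ} (hx : K0 * log 2 ≤ x) (hy : y ≤ x) : Q.γ * y ≤ g / 16 / 8 * x := by
  have := N.cost hx hy
  have := N.a0
  linarith

/-- `lm s = exp (-(γ ell s))` -/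
theorem BtN.lm {x : ℝ} (hx : K0 * log 2 ≤ x) : exp (-(g / 16 / 8 * x)) ≤ exp (-(Q.γ * x)) :=
  exp_le_exp.2 (by linarith [N.gam hx le_rfl])

/-- `aa s`, `cc s i`: any quadratic polynomial cost -/
theorem BtN.aa {x : ℝ} (hx : K0 * log 2 ≤ x) : 16 * (Q.a0 + 5 + x) ^ 2 ≤ exp (g / 16 / 8 * x) :=
  N.xb x hx

theorem BtN.aa' {x : ℝ} (hx : K0 * log 2 ≤ x) : 5 + Q.a0 + x ≤ exp (g / 16 / 8 * x) := by
  have h1 := N.xb x hx
  have h2 := N.x500 hx
  have h3 := N.a0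
  nlinarith

theorem BtN.rr {x y : ℝ} (hx : K0 * log 2 ≤ x) (hy : y ≤ x) :
    exp (Q.γ * y) ≤ exp (g / 16 / 2 * x) := by
  refine exp_le_exp.2 ?_
  have := N.gam hx hy
  have h2 := N.x500 hx
  have h5 : 0 ≤ g * x := mul_nonneg N.g0.le (by linarith)
  linarith

/-- the main bound: `4000 (a0+1)^2 e^(2 a0) e^(γ' x) ≤ e^(h x / 2)`, `γ' ≤ 3 γ + kap / 2` -/
theorem BtN.main {x y : ℝ} (hx : K0 * log 2 ≤ x) (hy : y ≤ (3 * Q.γ + Q.kap / 2) * x) :
    4000 * (Q.a0 + 1) ^ 2 * exp (2 * Q.a0) * exp y ≤ exp (g / 16 / 2 * x) := by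
  refine le_trans (mul_le_mul_of_nonneg_left (exp_le_exp.2 hy) (by positivity)) ?_
  refine (N.xc x hx).trans (le_of_eq ?_)
  congr 1
  ring

theorem BtN.half {x : ℝ} (hx : K0 * log 2 ≤ x) : exp (g / 16 / 2 * x) ≤ exp (g / 16 * x) := by
  refine exp_le_exp.2 ?_
  have h2 := N.x500 hx
  have h5 : 0 ≤ g * x := mul_nonneg N.g0.le (by linarith)
  linarith

/-- the masses of `PH` -/
theorem BtN.mp {x y : ℝ} (hx : K0 * log 2 ≤ x) (hy : y ≤ x) :
    (41 * exp Q.a0) ^ 2 * exp (2 * Q.γ * y) ≤ exp (g / 16 / 2 * x) := by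
  have h2 := N.x500 hx
  have h3 : 2 * Q.γ * y ≤ (3 * Q.γ + Q.kap / 2) * x := by
    have h4 : 2 * Q.γ * y ≤ 2 * Q.γ * x := mul_le_mul_of_nonneg_left hy (by linarith [N.γ0])
    have h5 : 0 ≤ Q.γ * x := mul_nonneg N.γ0.le (by linarith)
    have h6 : 0 ≤ Q.kap * x := mul_nonneg N.kap0.le (by linarith)
    linarith
  refine le_trans ?_ (N.main hx h3)
  have e1 : (41 * exp Q.a0) ^ 2 = 1681 * exp (2 * Q.a0) := by
    rw [mul_pow, ← exp_nat_mul]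
    push_cast
    norm_num
  rw [e1]
  refine mul_le_mul_of_nonneg_right (mul_le_mul_of_nonneg_right ?_ (exp_pos _).le) (exp_pos _).le
  have := N.a0
  nlinarith

/-- the masses of 386's `PHof` -/
theorem BtN.mp' {x y : ℝ} (hx : K0 * log 2 ≤ x) (hy : y ≤ x) :
    (2 * exp 3 * exp Q.a0) ^ 2 * exp (2 * (Q.γ * y)) ≤ exp (g / 16 / 2 * x) := by
  refine le_trans ?_ (N.mp hx hy)
  have h1 : 2 * exp 3 ≤ 41 := by
    have h2 := exp_one_lt_d9
    have h3 : exp 3 = exp 1 ^ 3 := by rw [← exp_nat_mul]; norm_num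
    have h4 : exp 1 ^ 3 ≤ (2.7182818286 : ℝ) ^ 3 := pow_le_pow_left₀ (exp_pos _).le h2.le 3
    rw [h3]
    norm_num at h4 ⊢
    linarith
  have h5 : (2 * exp 3 * exp Q.a0) ^ 2 ≤ (41 * exp Q.a0) ^ 2 :=
    pow_le_pow_left₀ (by positivity) (mul_le_mul_of_nonneg_right h1 (exp_pos _).le) 2
  have h6 : exp (2 * (Q.γ * y)) = exp (2 * Q.γ * y) := by congr 1; ring
  rw [h6]
  exact mul_le_mul_of_nonneg_right h5 (exp_pos _).le

/-- the kernels: `2 rho`, `2 e` -/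
theorem BtN.two {x y : ℝ} (hx : K0 * log 2 ≤ x) (hy : y ≤ x) :
    2 * exp (Q.γ * y) ≤ exp (g / 16 * x) := by
  have h2 := N.x500 hx
  have h3 : Q.γ * y ≤ (3 * Q.γ + Q.kap / 2) * x := by
    have h4 : Q.γ * y ≤ Q.γ * x := mul_le_mul_of_nonneg_left hy (by linarith [N.γ0])
    have h5 : 0 ≤ Q.γ * x := mul_nonneg N.γ0.le (by linarith)
    have h6 : 0 ≤ Q.kap * x := mul_nonneg N.kap0.le (by linarith)
    linarith
  refine le_trans ?_ ((N.main hx h3).trans (N.half hx))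
  have h4 : 1 ≤ exp (2 * Q.a0) := Real.one_le_exp (by linarith [N.a0])
  have h5 : (2 : ℝ) ≤ 4000 * (Q.a0 + 1) ^ 2 * exp (2 * Q.a0) := by
    have h6 : (1 : ℝ) ≤ (Q.a0 + 1) ^ 2 := by nlinarith [N.a0]
    nlinarith
  exact mul_le_mul_of_nonneg_right h5 (exp_pos _).le

theorem BtN.rho {x r : ℝ} (hx : K0 * log 2 ≤ x) (hr : r ≤ exp (-(1 / 2) * x + Q.γ * x)) :
    2 * r ≤ exp (-(1 / 2) * x + g / 16 * x) := by
  have h1 := N.two hx le_rfl
  calc 2 * r ≤ 2 * exp (-(1 / 2) * x + Q.γ * x) := by linarith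
    _ = exp (-(1 / 2) * x) * (2 * exp (Q.γ * x)) := by rw [exp_add]; ring
    _ ≤ exp (-(1 / 2) * x) * exp (g / 16 * x) := mul_le_mul_of_nonneg_left h1 (exp_pos _).le
    _ = _ := by rw [← exp_add]

theorem BtN.e {x r : ℝ} (hx : K0 * log 2 ≤ x) (hr : r ≤ exp (-x + Q.γ * x)) :
    2 * r ≤ exp (-x + g / 16 * x) := by
  have h1 := N.two hx le_rfl
  calc 2 * r ≤ 2 * exp (-x + Q.γ * x) := by linarith
    _ = exp (-x) * (2 * exp (Q.γ * x)) := by rw [exp_add]; ring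
    _ ≤ exp (-x) * exp (g / 16 * x) := mul_le_mul_of_nonneg_left h1 (exp_pos _).le
    _ = _ := by rw [← exp_add]

/-- order one, reference `lam`: `∑ (R ‖g‖² + E) ≤ e^(-x/2+hx) S + e^(hx)` with
`S ≤ 2 a0 e^(a0 + 2 γ x)`. -/
theorem BtN.lev {x S : ℝ} (hx : K0 * log 2 ≤ x)
    (hS : S ≤ 100 * (Q.a0 + 1) * exp (Q.a0 + 2 * Q.γ * x)) :
    exp (-(1 / 2) * x + g / 16 * x) * S + exp (g / 16 * x) ≤ exp (2 * (g / 16) * x) := by
  have h2 := N.x500 hx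
  have ha := N.a0
  have h3 : 2 * Q.γ * x ≤ (3 * Q.γ + Q.kap / 2) * x := by
    have h5 : 0 ≤ Q.γ * x := mul_nonneg N.γ0.le (by linarith)
    have h6 : 0 ≤ Q.kap * x := mul_nonneg N.kap0.le (by linarith)
    linarith
  have hm := (N.main hx h3).trans (N.half hx)
  have e1 : exp (Q.a0 + 2 * Q.γ * x) = exp Q.a0 * exp (2 * Q.γ * x) := exp_add _ _
  have e2 : exp (2 * Q.a0) = exp Q.a0 * exp Q.a0 := by rw [← exp_add]; congr 1; ring
  have h7 : 1 ≤ exp Q.a0 := Real.one_le_exp ha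
  have h8 : 1 ≤ exp (2 * Q.γ * x) := Real.one_le_exp (by
    have := mul_nonneg N.γ0.le (show 0 ≤ x by linarith); linarith)
  set X := exp (g / 16 * x) with hX
  have hkey : 100 * (Q.a0 + 1) * exp (Q.a0 + 2 * Q.γ * x) + 1 ≤ X := by
    refine le_trans ?_ hm
    rw [e1, e2]
    have t1 : 1 ≤ exp Q.a0 * exp (2 * Q.γ * x) := by nlinarith
    have t2 : Q.a0 + 1 ≤ (Q.a0 + 1) ^ 2 := by nlinarith
    have t3 : exp Q.a0 * exp (2 * Q.γ * x) ≤ exp Q.a0 * exp Q.a0 * exp (2 * Q.γ * x) :=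
      mul_le_mul_of_nonneg_right (by nlinarith) (exp_pos _).le
    have t4 : (Q.a0 + 1) * (exp Q.a0 * exp (2 * Q.γ * x)) ≤
        (Q.a0 + 1) ^ 2 * (exp Q.a0 * exp Q.a0 * exp (2 * Q.γ * x)) :=
      mul_le_mul t2 t3 (by positivity) (by positivity)
    have t5 : 1 ≤ (Q.a0 + 1) * (exp Q.a0 * exp (2 * Q.γ * x)) := by nlinarith
    nlinarith
  have h9 : exp (-(1 / 2) * x + g / 16 * x) ≤ X := exp_le_exp.2 (by linarith)
  have h10 : exp (2 * (g / 16) * x) = X * X := by rw [hX, ← exp_add]; congr 1; ring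
  have hX0 : 0 < X := exp_pos _
  have h11 : exp (-(1 / 2) * x + g / 16 * x) * S ≤
      X * (100 * (Q.a0 + 1) * exp (Q.a0 + 2 * Q.γ * x)) := by
    refine (mul_le_mul_of_nonneg_left hS (exp_pos _).le).trans ?_
    exact mul_le_mul_of_nonneg_right h9 (by positivity)
  rw [h10]
  nlinarith

/-- order one, reference uniform, high scales `x ≥ (2 - kap) p - log 2`. -/
theorem BtN.lev2 {x S : ℝ} (hx : K0 * log 2 ≤ x) (hxp : (2 - Q.kap) * Q.p - log 2 ≤ x)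
    (hS : S ≤ 100 * (Q.a0 + 1) * exp (Q.a0 + 3 * Q.γ * x) + 100 * exp ((1 + Q.γ) * Q.p)) :
    exp (-(1 / 2) * x + g / 16 * x) * S + exp (g / 16 * x) ≤ exp (2 * (g / 16) * x) := by
  have h2 := N.x500 hx
  have ha := N.a0
  have hp := N.p1
  have hkap : Q.kap ≤ 1 / 2 := by
    have h1 := N.kap1
    have h3 := N.g1
    have h4 := N.G1
    have h5 := etaN_le N.C1
    linarith
  have hl2 : log 2 ≤ 1 := by have := log_two_lt_d9; linarith
  have hpx : Q.p ≤ x := by nlinarith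
  have g1 : 0 ≤ Q.γ * x := mul_nonneg N.γ0.le (by linarith)
  have g2 : 0 ≤ Q.kap * x := mul_nonneg N.kap0.le (by linarith)
  have h3 : 3 * Q.γ * x ≤ (3 * Q.γ + Q.kap / 2) * x := by linarith
  have hm := N.main hx (le_refl ((3 * Q.γ + Q.kap / 2) * x))
  have hm := hm.trans (N.half hx)
  have h7 : 1 ≤ exp Q.a0 := Real.one_le_exp ha
  set Y := exp ((3 * Q.γ + Q.kap / 2) * x) with hY
  set X := exp (g / 16 * x) with hX
  have hX0 : 0 < X := exp_pos _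
  have hY1 : 1 ≤ Y := Real.one_le_exp (by linarith)
  have e2 : exp (2 * Q.a0) = exp Q.a0 * exp Q.a0 := by rw [← exp_add]; congr 1; ring
  have k1 : exp (Q.a0 + 3 * Q.γ * x) ≤ exp Q.a0 * Y := by
    rw [exp_add]
    exact mul_le_mul_of_nonneg_left (exp_le_exp.2 h3) (exp_pos _).le
  have k2 : exp (-(1 / 2) * x) * exp ((1 + Q.γ) * Q.p) ≤ 3 * Y := by
    have h4 : exp (1 : ℝ) ≤ 3 := by have := exp_one_lt_d9; linarith
    rw [← exp_add]
    calc exp (-(1 / 2) * x + (1 + Q.γ) * Q.p) ≤ exp (1 + (3 * Q.γ + Q.kap / 2) * x) := by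
          refine exp_le_exp.2 ?_
          have h5 : Q.γ * Q.p ≤ Q.γ * x := mul_le_mul_of_nonneg_left hpx N.γ0.le
          have h6 : Q.kap * Q.p ≤ Q.kap * x := mul_le_mul_of_nonneg_left hpx N.kap0.le
          linarith
      _ = exp 1 * Y := by rw [exp_add]
      _ ≤ 3 * Y := mul_le_mul_of_nonneg_right h4 (by linarith)
  have k3 : exp (-(1 / 2) * x) ≤ 1 := Real.exp_le_one_iff.2 (by linarith)
  have k4 : exp (-(1 / 2) * x) * S ≤ 100 * (Q.a0 + 1) * (exp Q.a0 * Y) + 300 * Y := by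
    refine (mul_le_mul_of_nonneg_left hS (exp_pos _).le).trans ?_
    rw [mul_add]
    have h4 : exp (-(1 / 2) * x) * (100 * (Q.a0 + 1) * exp (Q.a0 + 3 * Q.γ * x)) ≤
        1 * (100 * (Q.a0 + 1) * (exp Q.a0 * Y)) := by
      refine mul_le_mul k3 ?_ (by positivity) (by norm_num)
      exact mul_le_mul_of_nonneg_left k1 (by positivity)
    linarith
  have k5 : exp (-(1 / 2) * x) * S + 1 ≤ X := by
    refine le_trans ?_ hm
    rw [e2]
    have t1 : 1 ≤ exp Q.a0 * Y := by nlinarith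
    have t2 : Q.a0 + 1 ≤ (Q.a0 + 1) ^ 2 := by nlinarith
    have t3 : exp Q.a0 * Y ≤ exp Q.a0 * exp Q.a0 * Y :=
      mul_le_mul_of_nonneg_right (by nlinarith) (by linarith)
    have t4 : (Q.a0 + 1) * (exp Q.a0 * Y) ≤ (Q.a0 + 1) ^ 2 * (exp Q.a0 * exp Q.a0 * Y) :=
      mul_le_mul t2 t3 (by positivity) (by positivity)
    have t5 : Y ≤ (Q.a0 + 1) * (exp Q.a0 * Y) := by nlinarith
    nlinarith
  have h10 : exp (2 * (g / 16) * x) = X * X := by rw [hX, ← exp_add]; congr 1; ring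
  have h11 : exp (-(1 / 2) * x + g / 16 * x) = exp (-(1 / 2) * x) * X := exp_add _ _
  rw [h10, h11]
  have := mul_le_mul_of_nonneg_left k5 hX0.le
  linarith

end facts

end Vale.Agent.P042.H284
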