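import Vale.Agent.P042.H365.TB
import Vale.Agent.P042.H284.SubK

/-!
# P042: `BT` (letters of the full law) gives `BTS` (letters of the marginal law)
-/

open Finset

set_option linter.unusedSectionVars false

namespace Vale.Agent.P042.H284

open Vale.Agent.P042.H232 (Tn)
open Vale.Agent.P042.H365 (rsub msub lsub eso eso_inj Tn_eso typ_eso)

universe u v u1 u2

variable {ι : Type u1} [Fintype ι] [DecidableEq ι] {V : ι → Type u2} [∀ i, Fintype (V i)]
  [∀ i, DecidableEq (V i)] {J : Type v} [Fintype J] [DecidableEq J]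

/-- The letters of a type, for the marginal law on the coordinates of size at most `ell j`. -/
noncomputable def VS (V : ι → Type u2) [∀ i, Fintype (V i)] (sc : ι → J) (ell : J → ℝ) (j l : J) :
    Finset (Σ i : {i // ell (sc i) ≤ ell j}, Option (V i)) :=
  univ.filter fun ω => sc ω.1 = l

theorem mem_VS (sc : ι → J) (ell : J → ℝ) (j l : J)
    (ω : Σ i : {i // ell (sc i) ≤ ell j}, Option (V i)) :
    ω ∈ VS V sc ell j l ↔ sc ω.1 = l := by
  unfold VS
  simp

theorem VJ_eq_map (sc : ι → J) (ell : J → ℝ) (j l : J) :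
    VJ V sc ell j l = (VS V sc ell j l).map
      ⟨eso (V := V) (fun i => ell (sc i) ≤ ell j), eso_inj⟩ := by
  ext ω
  rw [Finset.mem_map]
  unfold VJ
  constructor
  · intro h
    by_cases hl : ell l ≤ ell j
    · rw [if_pos hl, Finset.mem_filter] at h
      refine ⟨⟨⟨ω.1, by rw [h.2]; exact hl⟩, ω.2⟩, (mem_VS sc ell j l _).2 h.2, rfl⟩
    · rw [if_neg hl] at h
      simp at h
  · rintro ⟨ω', hω', rfl⟩
    have h1 := (mem_VS sc ell j l ω').1 hω'
    have h2 : ell l ≤ ell j := by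
      rw [← h1]
      exact ω'.1.2
    rw [if_pos h2, Finset.mem_filter]
    exact ⟨Finset.mem_univ _, h1⟩

/-- The operator norms, from the full law to the marginal law. -/
theorem BV_sub {p : ι → Prop} [DecidablePred p] {lam : ∀ i, V i → ℝ} {mu : (∀ i, V i) → ℝ}
    (hmu : ∑ x, mu x = 1) (R E : ι → ℝ) {X Y : Finset (Σ i, Option (V i))}
    {X' Y' : Finset (Σ i : {i // p i}, Option (V i))} (hX : X = X'.map ⟨eso p, eso_inj⟩)
    (hY : Y = Y'.map ⟨eso p, eso_inj⟩) {w : ℝ}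
    (h : BV w X Y fun a b => Tn lam mu R E (a ::ₘ b ::ₘ 0)) :
    BV w X' Y' fun a b => Tn (lsub p lam) (msub p mu) (fun i => R i) (fun i => E i)
      (a ::ₘ b ::ₘ 0) := by
  intro u v
  have h1 := h (Function.extend (eso p) u 0) (Function.extend (eso p) v 0)
  rw [hX, hY, Finset.sum_map, Finset.sum_map, Finset.sum_map] at h1
  simp only [Function.Embedding.coeFn_mk, Finset.sum_map, eso_inj.extend_apply] at h1
  refine le_trans (le_of_eq ?_) h1
  congr 1
  refine Finset.sum_congr rfl fun a _ => ?_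
  refine Finset.sum_congr rfl fun b _ => ?_
  have h2 := Tn_eso (p := p) (lam := lam) hmu R E (S := a ::ₘ b ::ₘ 0) (Multiset.cons_ne_zero)
  beta_reduce
  rw [← h2]
  rfl

/-- `BdT`, from the full law to the marginal law. -/
theorem BdT_sub {lam : ∀ i, V i → ℝ} {mu : (∀ i, V i) → ℝ} (hmu : ∑ x, mu x = 1) (R E : ι → ℝ)
    {sc : ι → J} {ell : J → ℝ} {j : J} {b : ℕ} {y κ : J → ℝ} {N : J → J → ℝ}
    (h : BdT (VJ V sc ell j) b y κ N (Tn lam mu R E)) :
    BdT (VS V sc ell j) b y κ N (Tn (lsub (fun i => ell (sc i) ≤ ell j) lam)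
      (msub (fun i => ell (sc i) ≤ ell j) mu) (fun i => R i) (fun i => E i)) where
  one l := by
    rw [← typ_eso hmu R E (List.cons_ne_nil _ _) fun l _ => VJ_eq_map sc ell j l]
    exact h.one l
  two l m := by
    rw [← typ_eso hmu R E (List.cons_ne_nil _ _) fun l _ => VJ_eq_map sc ell j l]
    exact h.two l m
  op l m := BV_sub hmu R E (VJ_eq_map sc ell j l) (VJ_eq_map sc ell j m) (h.op l m)
  hs τ h3 hb := by
    rw [← typ_eso hmu R E (by rintro rfl; simp at h3) fun l _ => VJ_eq_map sc ell j l]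
    exact h.hs τ h3 hb

/-- **`BT` gives `BTS`.** -/
theorem BT.toBTS {lam : ∀ i, V i → ℝ} {rho e : ι → ℝ} {mu mu' : (∀ i, V i) → ℝ}
    {sc : ι → J} {ell : J → ℝ} {g c1 c2 : ℝ} {A b : ℕ} {j : J} {σ : ℝ} {R E : ι → ℝ}
    {N : J → J → ℝ} (h : BT lam rho e mu mu' sc ell g c1 c2 A b j σ R E N)
    (hmu : ∑ x, mu x = 1) (hmu' : ∑ x, mu' x = 1) :
    BTS (fun i => ell (sc i) ≤ ell j) lam rho e mu mu' sc ell g c1 c2 A b j σ
      (VS V sc ell j) (fun i => R i) (fun i => E i) N where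
  hp _ hi := hi
  hV l ω := mem_VS sc ell j l ω
  s0 := h.s0
  s1 := h.s1
  R0 i := h.R0 i
  E0 i := h.E0 i
  R1 i := h.R1 i i.2
  E1 i := h.E1 i i.2
  bd := BdT_sub hmu R E h.bd
  bd' := BdT_sub hmu' R E h.bd'
  N0 := h.N0
  N1 := h.N1
  N2 := h.N2

/-- The family of hypotheses, from `BT` to `BTS`. -/
theorem BTS_of_BT {lam : ∀ i, V i → ℝ} {rho e : ι → ℝ} {mu mu' : (∀ i, V i) → ℝ}
    {sc : ι → J} {ell : J → ℝ} {g c1 c2 : ℝ} {A b0 : ℕ}
    (hmu : ∑ x, mu x = 1) (hmu' : ∑ x, mu' x = 1)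
    (HB : ∀ b, 1 ≤ b → b ≤ b0 → ∀ j : J, ∃ σ R E N,
      BT lam rho e mu mu' sc ell g c1 c2 A b j σ R E N) :
    ∀ b, 1 ≤ b → b ≤ b0 → ∀ j : J, ∃ (p : ι → Prop) (_ : DecidablePred p) (σ : ℝ)
      (VV : J → Finset (Σ i : {i // p i}, Option (V i))) (R E : {i // p i} → ℝ)
      (N : J → J → ℝ), BTS p lam rho e mu mu' sc ell g c1 c2 A b j σ VV R E N := by
  intro b h1 h2 j
  obtain ⟨σ, R, E, N, h⟩ := HB b h1 h2 j
  exact ⟨_, _, σ, _, _, _, N, h.toBTS hmu hmu'⟩

end Vale.Agent.P042.H284
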