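import Vale.Agent.P042.H284.Glue

/-!
# P042: the glue for arbitrary letters

The two laws live on arbitrary finite sets, the kernels `K i x y` are arbitrary functions; for every
order and top scale they are written as bilinear forms in a finite type of letters.
-/

open Finset

set_option linter.unusedSectionVars false

namespace Vale.Agent.P042.H284

open Vale.Agent.P042.H159 (MC)
open Vale.Agent.P042.H232 (mom mom_zero isCumC_mom cumT)

universe u v u1 u2 u3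

variable {J : Type v} [Fintype J] [DecidableEq J] {ι : Type u1} [Fintype ι] [DecidableEq ι]
  {X : Type u2} {Y : Type u3}

/-- The pairing of two laws with a product of kernels. -/
noncomputable def FG (D : Finset X) (D' : Finset Y) (μ : X → ℝ) (μ' : Y → ℝ) (K : ι → X → Y → ℝ)
    (B : Finset ι) : ℝ :=
  ∑ x ∈ D, ∑ y ∈ D', μ x * μ' y * ∏ i ∈ B, K i x y

theorem FG_empty {D : Finset X} {D' : Finset Y} {μ : X → ℝ} {μ' : Y → ℝ} {K : ι → X → Y → ℝ}
    (h : ∑ x ∈ D, μ x = 1) (h' : ∑ x ∈ D', μ' x = 1) : FG D D' μ μ' K ∅ = 1 := by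
  unfold FG
  simp only [Finset.prod_empty, mul_one, ← Finset.mul_sum, h', h]

/-- The letters of type `l`, for `l` of size at most that of `j`. -/
noncomputable def VG {Ω : Type u} [Fintype Ω] (c : Ω → ι) (sc : ι → J) (ell : J → ℝ) (j l : J) :
    Finset Ω :=
  if ell l ≤ ell j then univ.filter (fun ω => sc (c ω) = l) else ∅

/-- **The bounds of the typed cumulants at one order and one top scale, arbitrary letters.** -/
structure BG (D : Finset X) (D' : Finset Y) (μ : X → ℝ) (μ' : Y → ℝ) (K : ι → X → Y → ℝ)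
    (sc : ι → J) (ell : J → ℝ) (g c1 c2 : ℝ) (A b : ℕ) (j : J) (σ : ℝ) (N : J → J → ℝ)
    {Ω : Type u} [Fintype Ω] (c : Ω → ι) (U : Ω → X → ℝ) (U' : Ω → Y → ℝ) (ξ : Ω → Ω → ℝ) :
    Prop where
  s0 : 0 < σ
  s1 : σ⁻¹ ≤ (b * ell j) ^ A
  diag : ∀ p q, c p ≠ c q → ξ p q = 0
  cv : CV (VG c sc ell j) ξ
  ker : ∀ i, ell (sc i) ≤ ell j → ∀ x ∈ D, μ x ≠ 0 → ∀ y ∈ D', μ' y ≠ 0 →
    Kc c U U' ξ i x y = σ * K i x y
  bd : BdT (VG c sc ell j) b (fun l => Real.exp (g * ell l)) (fun l => Real.exp (-(c1 * ell l))) N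
    (cumT (mom c D μ U))
  bd' : BdT (VG c sc ell j) b (fun l => Real.exp (g * ell l)) (fun l => Real.exp (-(c1 * ell l)))
    N (cumT (mom c D' μ' U'))
  N0 : ∀ l m, 0 ≤ N l m
  N1 : ∀ l m, N l m ≤ Real.exp (g * ell l) * Real.exp (g * ell m)
  N2 : ∀ l m, ell l ≤ ell m → N l m ≤ Real.exp (g * ell l - c2 * (ell m - ell l))

theorem H_of_BG {D : Finset X} {D' : Finset Y} {μ : X → ℝ} {μ' : Y → ℝ} {K : ι → X → Y → ℝ}
    (hmu : ∑ x ∈ D, μ x = 1) (hmu' : ∑ x ∈ D', μ' x = 1)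
    {sc : ι → J} {ell : J → ℝ} (hell : ∀ j, 1 ≤ ell j) {g c1 c2 : ℝ} (hg : 0 ≤ g) (hc1 : 0 ≤ c1)
    (hc : g + c1 ≤ c2) {A b0 : ℕ}
    (HB : ∀ b, 1 ≤ b → b ≤ b0 → ∀ j : J, ∃ (σ : ℝ) (N : J → J → ℝ) (Ω : Type u) (_ : Fintype Ω)
      (c : Ω → ι) (U : Ω → X → ℝ) (U' : Ω → Y → ℝ) (ξ : Ω → Ω → ℝ),
      BG D D' μ μ' K sc ell g c1 c2 A b j σ N c U U' ξ)
    (l : J) (t : Multiset J) (hmin : ∀ m ∈ t, ell l ≤ ell m) (hb : Multiset.card t + 1 ≤ b0) :
    ∃ (σ : ℝ) (z' w' : Multiset J → ℝ), 0 < σ ∧ σ⁻¹ ≤ ((l ::ₘ t).map ell).sum ^ (2 * A) ∧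
      z' 0 = 1 ∧ MC z' w' ∧
      (∀ τ ≤ l ::ₘ t, z' τ = zF sc (FG D D' μ μ' K) τ * σ ^ Multiset.card τ) ∧
      |w' (l ::ₘ t)| ≤ ((2 * Multiset.card t + 2).factorial : ℝ) *
        Real.exp (bex g c1 ell l t) := by
  classical
  -- the top scale
  have hne : (l ::ₘ t).toFinset.Nonempty := by
    rw [Multiset.toFinset_nonempty]
    exact Multiset.cons_ne_zero
  obtain ⟨j, hj, hmax⟩ := Finset.exists_max_image (l ::ₘ t).toFinset ell hne
  have hmax' : ∀ m ∈ l ::ₘ t, ell m ≤ ell j := fun m hm => hmax m (Multiset.mem_toFinset.2 hm)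
  have hj' : j ∈ l ::ₘ t := Multiset.mem_toFinset.1 hj
  obtain ⟨σ, N, Ω, _, c, U, U', ξ, hB⟩ := HB (Multiset.card t + 1) (by omega) hb j
  set VA : J → Finset Ω := fun l => univ.filter (fun ω : Ω => sc (c ω) = l) with hVA
  have hVA' : ∀ l ω, ω ∈ VA l ↔ sc (c ω) = l := fun l ω => by simp [hVA]
  set M := mom c D μ U with hM
  set M' := mom c D' μ' U' with hM'
  set z' := zt (VG c sc ell j) ξ M M' with hz'
  have hM0 : M 0 = 1 := mom_zero c D μ U hmu
  have hM0' : M' 0 = 1 := mom_zero c D' μ' U' hmu'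
  have hw' := exists_w (VG c sc ell j) ξ hM0 hM0'
  -- comparison with the unscaled family
  have hzz : ∀ τ ≤ l ::ₘ t, z' τ = zF sc (FG D D' μ μ' K) τ * σ ^ Multiset.card τ := by
    intro τ hτ
    have hτ' : ∀ m ∈ τ, ell m ≤ ell j := fun m hm => hmax' m (Multiset.mem_of_le hτ hm)
    have e1 : z' τ = zt VA ξ M M' τ := by
      rw [hz']
      apply zt_restrict
      intro m hm
      unfold VG
      rw [if_pos (hτ' m hm)]
    have e2 := zF_eq_of_co sc (FB c D D' μ μ' U U' ξ)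
      (fun a => co_zt_mom sc c D D' μ μ' U U' ξ hVA' hB.diag a) τ
    rw [e1, e2]
    apply zF_scale
    intro B hBτ
    have h3 : ∀ i ∈ B, ell (sc i) ≤ ell j := by
      intro i hi
      apply hτ'
      rw [← hBτ]
      exact Multiset.mem_map_of_mem _ hi
    unfold FB FG
    rw [Finset.mul_sum]
    refine Finset.sum_congr rfl fun x hx => ?_
    rw [Finset.mul_sum]
    refine Finset.sum_congr rfl fun y hy => ?_
    by_cases hx0 : μ x = 0
    · rw [hx0]; ring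
    by_cases hy0 : μ' y = 0
    · rw [hy0]; ring
    rw [Finset.prod_congr rfl fun i hi => hB.ker i (h3 i hi) x hx hx0 y hy hy0,
      Finset.prod_mul_distrib, Finset.prod_const]
    ring
  refine ⟨σ, z', cumT z', hB.s0, ?_, ?_, hw', hzz, ?_⟩
  · -- size of the scaling
    refine hB.s1.trans ?_
    have hcard := card_mul_le (ell := ell) (e := 1) (l ::ₘ t) fun m _ => hell m
    rw [mul_one, Multiset.card_cons] at hcard
    push_cast at hcard
    have hsum : ell j ≤ ((l ::ₘ t).map ell).sum := by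
      obtain ⟨r, hr⟩ := Multiset.exists_cons_of_mem hj'
      rw [hr, Multiset.map_cons, Multiset.sum_cons]
      have : 0 ≤ (r.map ell).sum := by
        apply Multiset.sum_nonneg
        intro x hx
        obtain ⟨m, _, rfl⟩ := Multiset.mem_map.1 hx
        linarith [hell m]
      linarith
    have hj0 : 0 ≤ ell j := by linarith [hell j]
    rw [pow_mul]
    apply pow_le_pow_left₀ (mul_nonneg (Nat.cast_nonneg _) hj0)
    rw [sq]
    push_cast
    exact mul_le_mul hcard hsum hj0 (le_trans hj0 hsum)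
  · rw [hz', zt_zero, hM0, hM0', one_mul]
  · exact w_all hB.cv hM0 (mc_cumT hM0) hM0' (mc_cumT hM0') (fun m => by linarith [hell m]) hg hc1
      hc hB.bd hB.bd' hB.N0 hB.N1 hB.N2 hw' l t hmin le_rfl

/-- **The glue, arbitrary letters.** -/
theorem glueG {c1 g' : ℝ} (hc1 : 0 < c1) (hg' : 0 < g') (hgc : g' ≤ c1) (A : ℕ) :
    ∃ l0 : ℕ, ∀ (J : Type v) [Fintype J] [DecidableEq J] (sn : J → ℕ) (ell : J → ℝ) (b0 : ℕ)
      (g c2 : ℝ), Function.Injective sn → (∀ j, l0 ≤ sn j) → (∀ j, ell j = sn j * Real.log 2) →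
      0 ≤ g → 8 * g ≤ g' → g + c1 ≤ c2 → 2 ≤ b0 →
      ∀ (ι : Type u1) [Fintype ι] [DecidableEq ι] (X : Type u2) (Y : Type u3) (D : Finset X)
        (D' : Finset Y) (μ : X → ℝ) (μ' : Y → ℝ) (K : ι → X → Y → ℝ) (sc : ι → J),
        (∑ x ∈ D, μ x = 1) → (∑ x ∈ D', μ' x = 1) →
        (∀ b, 1 ≤ b → b ≤ b0 → ∀ j : J, ∃ (σ : ℝ) (N : J → J → ℝ) (Ω : Type u) (_ : Fintype Ω)
          (c : Ω → ι) (U : Ω → X → ℝ) (U' : Ω → Y → ℝ) (ξ : Ω → Ω → ℝ),
          BG D D' μ μ' K sc ell g c1 c2 A b j σ N c U U' ξ) →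
      (∀ j, |co (wF sc (FG D D' μ μ' K)) (Finsupp.single j 1)| ≤ Real.exp (g' * ell j)) ∧
      (∀ j, ∑ i, |co (wF sc (FG D D' μ μ' K)) (Finsupp.single i 1 + Finsupp.single j 1)| ≤
        Real.exp (g' * ell j)) ∧
      (∀ a : J →₀ ℕ, 3 ≤ a.degree → a.degree ≤ b0 → |co (wF sc (FG D D' μ μ' K)) a| ≤
        Real.exp (((2 * A : ℕ) + 4) * a.degree * Real.log (∑ j, (a j : ℝ) * ell j)
          - c1 / 6 * ∑ j, (a j : ℝ) * ell j)) := by
  obtain ⟨l0, hl0⟩ := seam_out.{v} hc1 hg' hgc (2 * A)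
  obtain ⟨l1, hl1⟩ := exists_nat_ge (1 / Real.log 2)
  refine ⟨max l0 l1, ?_⟩
  intro J _ _ sn ell b0 g c2 hinj hsn hell hg hgg hc hb0 ι _ _ X Y D D' μ μ' K sc hmu hmu' HB
  have hl2 : 0 < Real.log 2 := Real.log_pos (by norm_num)
  have hone : ∀ j, 1 ≤ ell j := by
    intro j
    rw [hell j]
    rw [div_le_iff₀ hl2] at hl1
    refine hl1.trans ?_
    apply mul_le_mul_of_nonneg_right _ hl2.le
    exact_mod_cast (le_max_right _ _).trans (hsn j)
  have hf : FG D D' μ μ' K ∅ = 1 := FG_empty hmu hmu'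
  exact hl0 J sn ell b0 g (zF sc (FG D D' μ μ' K)) (wF sc (FG D D' μ μ' K)) hinj
    (fun j => (le_max_left _ _).trans (hsn j)) hell hg hgg hb0 (by rw [zF_zero, hf])
    (mc_wF sc hf) (fun l t hmin hb => H_of_BG hmu hmu' hone hg hc1.le hc HB l t hmin hb)

end Vale.Agent.P042.H284
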