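import Vale.Agent.P042.H284.Oo

/-!
# P042: (E*), (D*) for an arbitrary index type with one distinguished coordinate `o`
-/

open Finset

set_option linter.unusedSectionVars false

namespace Vale.Agent.P042.H284

open Vale.Agent.P042.H159 (MC)

universe u v u1 u2

section sets

variable {J : Type v} [Fintype J] [DecidableEq J] {ι : Type u1} [Fintype ι] [DecidableEq ι]

/-- The types: `o` has the extra type. -/
def sco (sc : ι → J) (o : ι) (i : ι) : Option J := if i = o then none else some (sc i)

@[simp] theorem sco_self (sc : ι → J) (o : ι) : sco sc o o = none := if_pos rfl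

theorem sco_ne (sc : ι → J) {o i : ι} (h : i ≠ o) : sco sc o i = some (sc i) := if_neg h

theorem sco_eq_none (sc : ι → J) {o i : ι} : sco sc o i = none ↔ i = o := by
  unfold sco
  split_ifs with h
  · simp [h]
  · simp [h]

theorem map_sco (sc : ι → J) {o : ι} {B : Finset ι} (h : o ∉ B) :
    B.val.map (sco sc o) = (B.val.map sc).map some := by
  rw [Multiset.map_map]
  refine Multiset.map_congr rfl fun i hi => ?_
  exact sco_ne sc (by rintro rfl; exact h hi)

theorem map_sco_insert (sc : ι → J) {o : ι} {B : Finset ι} (h : o ∉ B) :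
    (insert o B).val.map (sco sc o) = none ::ₘ (B.val.map sc).map some := by
  rw [Finset.insert_val_of_notMem h, Multiset.map_cons, sco_self, map_sco sc h]

/-- Sets of ordinary coordinates. -/
theorem zF_gen_some (sc : ι → J) (o : ι) (f : Finset ι → ℝ) (τ : Multiset J) :
    zF (sco sc o) f (τ.map some) = fa (Multiset.toFinsupp τ) *
      ∑ B ∈ (univ.erase o).powerset.filter (fun B => B.val.map sc = τ), f B := by
  unfold zF
  rw [fa_some]
  congr 1
  refine Finset.sum_congr ?_ fun _ _ => rfl
  ext B
  rw [Finset.mem_filter, Finset.mem_filter, Finset.mem_powerset, Finset.mem_powerset]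
  constructor
  · rintro ⟨_, h⟩
    have ho : o ∉ B := fun hB => by
      have h1 : sco sc o o ∈ B.val.map (sco sc o) := Multiset.mem_map_of_mem _ hB
      rw [h] at h1
      simp at h1
    refine ⟨fun i hi => Finset.mem_erase.2 ⟨by rintro rfl; exact ho hi, Finset.mem_univ _⟩, ?_⟩
    rw [map_sco sc ho] at h
    exact Multiset.map_injective (Option.some_injective J) h
  · rintro ⟨h1, h2⟩
    have ho : o ∉ B := fun hB => by
      have := h1 hB
      simp at this
    exact ⟨Finset.subset_univ _, by rw [map_sco sc ho, h2]⟩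

/-- Sets with the extra coordinate. -/
theorem zF_gen_none (sc : ι → J) (o : ι) (f : Finset ι → ℝ) (τ : Multiset J) :
    zF (sco sc o) f (none ::ₘ τ.map some) = fa (Multiset.toFinsupp τ) *
      ∑ B ∈ (univ.erase o).powerset.filter (fun B => B.val.map sc = τ), f (insert o B) := by
  unfold zF
  rw [fa_none]
  congr 1
  symm
  refine Finset.sum_bij' (fun B _ => insert o B) (fun B _ => B.erase o) ?_ ?_ ?_ ?_ ?_
  · intro B hB
    rw [Finset.mem_filter, Finset.mem_powerset] at hB
    have ho : o ∉ B := fun h => by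
      have := hB.1 h
      simp at this
    rw [Finset.mem_filter]
    exact ⟨Finset.mem_powerset.2 (Finset.subset_univ _), by rw [map_sco_insert sc ho, hB.2]⟩
  · intro B hB
    rw [Finset.mem_filter] at hB
    have ho : o ∈ B := by
      have h1 : (none : Option J) ∈ B.val.map (sco sc o) := by
        rw [hB.2]
        exact Multiset.mem_cons_self _ _
      obtain ⟨i, hi, hin⟩ := Multiset.mem_map.1 h1
      rw [sco_eq_none] at hin
      rwa [← hin]
    rw [Finset.mem_filter, Finset.mem_powerset]
    refine ⟨fun i hi => Finset.mem_erase.2 ⟨Finset.ne_of_mem_erase hi, Finset.mem_univ _⟩, ?_⟩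
    have h3 := hB.2
    rw [← Finset.insert_erase ho, map_sco_insert sc (Finset.notMem_erase o B)] at h3
    exact Multiset.map_injective (Option.some_injective J)
      ((Multiset.cons_inj_right (none : Option J)).1 h3)
  · intro B hB
    rw [Finset.mem_filter, Finset.mem_powerset] at hB
    have ho : o ∉ B := fun h => by
      have := hB.1 h
      simp at this
    exact Finset.erase_insert ho
  · intro B hB
    rw [Finset.mem_filter] at hB
    have ho : o ∈ B := by
      have h1 : (none : Option J) ∈ B.val.map (sco sc o) := by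
        rw [hB.2]
        exact Multiset.mem_cons_self _ _
      obtain ⟨i, hi, hin⟩ := Multiset.mem_map.1 h1
      rw [sco_eq_none] at hin
      rwa [← hin]
    exact Finset.insert_erase ho
  · intro B _
    rfl

theorem tyi_eq_iff (sc : ι → J) (B : Finset ι) (a : J →₀ ℕ) :
    tyi sc B = a ↔ B.val.map sc = Finsupp.toMultiset a := by
  unfold tyi
  constructor
  · rintro h
    rw [← h, Multiset.toFinsupp_toMultiset]
  · rintro h
    rw [h, Finsupp.toMultiset_toFinsupp]

/-- (E*), arbitrary index type. -/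
theorem E_gen (sc : ι → J) (o : ι) {f : Finset ι → ℝ} (hf : f ∅ = 1) (a : J →₀ ℕ) :
    ∑ B ∈ (univ.erase o).powerset.filter (fun B => tyi sc B = a), f (insert o B) =
      ∑ x ∈ antidiagonal a,
        co (wF (sco sc o) f) (x.1.mapDomain (some : J → Option J) + Finsupp.single none 1) *
        ∑ B ∈ (univ.erase o).powerset.filter (fun B => tyi sc B = x.2), f B := by
  have h := E_oo (mc_wF (sco sc o) hf) a
  have e1 : ∀ b : J →₀ ℕ, co (zF (sco sc o) f) (b.mapDomain (some : J → Option J)) =
      ∑ B ∈ (univ.erase o).powerset.filter (fun B => tyi sc B = b), f B := by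
    intro b
    rw [co_some]
    unfold co
    beta_reduce
    rw [zF_gen_some, Finsupp.toMultiset_toFinsupp, mul_div_assoc, mul_comm,
      div_mul_cancel₀ _ (fa_pos b).ne']
    exact Finset.sum_congr (Finset.filter_congr fun B _ => (tyi_eq_iff sc B b).symm)
      fun _ _ => rfl
  have e2 : co (zF (sco sc o) f) (a.mapDomain (some : J → Option J) + Finsupp.single none 1) =
      ∑ B ∈ (univ.erase o).powerset.filter (fun B => tyi sc B = a), f (insert o B) := by
    rw [co_none]
    unfold co
    beta_reduce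
    rw [zF_gen_none, Finsupp.toMultiset_toFinsupp, mul_div_assoc, mul_comm,
      div_mul_cancel₀ _ (fa_pos a).ne']
    exact Finset.sum_congr (Finset.filter_congr fun B _ => (tyi_eq_iff sc B a).symm)
      fun _ _ => rfl
  rw [← e2, h]
  exact Finset.sum_congr rfl fun x _ => by rw [e1]

end sets

section star

variable {ι : Type u1} [Fintype ι] [DecidableEq ι] {V : ι → Type u2}
  [∀ i, Fintype (V i)] [∀ i, DecidableEq (V i)] {J : Type v} [Fintype J] [DecidableEq J]
  {lam : ∀ i, V i → ℝ} {K : ∀ i, V i → V i → ℝ} {c : ι → ℝ} {u u' : ∀ i, V i → ℝ}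
  {s : ∀ i, V i → V i → ℝ} {rho e : ι → ℝ}

/-- **(E*) and (D*)**, arbitrary index type with one distinguished coordinate `o`. -/
theorem star_gen (h0 : ∀ i a, 0 ≤ lam i a) (H : H365.OB lam K c u u' s rho e)
    {mu mu' : (∀ i, V i) → ℝ} (hmu : ∑ x, mu x = 1) (hmu' : ∑ x, mu' x = 1)
    (hac : ∀ x, mu x ≠ 0 → ∀ i, lam i (x i) ≠ 0) (hac' : ∀ x, mu' x ≠ 0 → ∀ i, lam i (x i) ≠ 0)
    {sc : ι → J} {o : ι} {ell : J → ℝ} {A : ℕ} (hell : ∀ j, 2 ≤ ell j)
    (hellA : ∀ j, 2 * (A : ℝ) ≤ ell j) {g c1 c2 : ℝ} (hg : 0 ≤ g)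
    (hc1 : 0 ≤ c1) (hc : g + c1 ≤ c2) {b0 : ℕ} {y : ℝ} (hy : 0 ≤ y)
    (HB : ∀ b, 2 ≤ b → b ≤ b0 + 1 → ∀ j : J, ∃ (p : ι → Prop) (_ : DecidablePred p)
      (σ : ℝ) (VV : Option J → Finset (Σ i : {i // p i}, Option (V i))) (R E : {i // p i} → ℝ)
      (N : Option J → Option J → ℝ),
      BO p lam rho e mu mu' (sco sc o) ell g c1 c2 b j (((1 + y) * (b * ell j)) ^ A) σ VV R E N)
    {M0 k : ℝ} (hM0 : |M0| ≤ Real.exp (k * y))
    (h00 : |M0 * FK K mu mu' {o}| ≤ Real.exp ((k + 1) * y)) :
    ∃ W : (J →₀ ℕ) → ℝ,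
      (∀ a, ∑ B ∈ (univ.erase o).powerset.filter (fun B => tyi sc B = a),
          M0 * FK K mu mu' (insert o B) =
        ∑ x ∈ antidiagonal a, W x.1 *
          ∑ B ∈ (univ.erase o).powerset.filter (fun B => tyi sc B = x.2), FK K mu mu' B) ∧
      |W 0| ≤ Real.exp ((k + 1) * y) ∧
      ∀ a, a ≠ 0 → a.degree ≤ b0 → |W a| ≤
        Real.exp ((k + 1) * y +
          (10 * A + 12 : ℕ) * a.degree * Real.log (∑ j, (a j : ℝ) * ell j)
          - c1 * ∑ j, (a j : ℝ) * ell j) := by
  have hf : FK K mu mu' ∅ = 1 := FK_empty hmu hmu'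
  have hE : ∀ a, ∑ B ∈ (univ.erase o).powerset.filter (fun B => tyi sc B = a),
          M0 * FK K mu mu' (insert o B) =
        ∑ x ∈ antidiagonal a, (M0 * co (wF (sco sc o) (FK K mu mu'))
            (x.1.mapDomain (some : J → Option J) + Finsupp.single none 1)) *
          ∑ B ∈ (univ.erase o).powerset.filter (fun B => tyi sc B = x.2), FK K mu mu' B := by
    intro a
    rw [← Finset.mul_sum, E_gen sc o hf a, Finset.mul_sum]
    exact Finset.sum_congr rfl fun x _ => by ring
  refine ⟨fun a => M0 * co (wF (sco sc o) (FK K mu mu'))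
    (a.mapDomain (some : J → Option J) + Finsupp.single none 1), hE, ?_, ?_⟩
  · have h1 := hE 0
    have h2 : (univ.erase o).powerset.filter (fun B => tyi sc B = 0) = {∅} := by
      ext B
      rw [Finset.mem_filter, Finset.mem_singleton]
      constructor
      · rintro ⟨_, h⟩
        have := tyi_degree sc B
        rw [h, map_zero] at this
        exact Finset.card_eq_zero.1 this.symm
      · rintro rfl
        exact ⟨Finset.empty_mem_powerset _, tyi_empty sc⟩
    rw [h2, Finset.sum_singleton, Finset.HasAntidiagonal.antidiagonal_zero,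
      Finset.sum_singleton] at h1
    rw [h2, Finset.sum_singleton, hf, mul_one] at h1
    beta_reduce
    rw [← h1]
    exact h00
  · intro a ha hb
    have h1 := D_oo h0 H hmu hmu' hac hac' hell hellA hg hc1 hc hy HB a ha hb
    beta_reduce
    rw [abs_mul]
    refine (mul_le_mul hM0 h1 (abs_nonneg _) (Real.exp_pos _).le).trans (le_of_eq ?_)
    rw [← Real.exp_add]
    congr 1
    ring

end star

end Vale.Agent.P042.H284
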