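import Vale.Agent.P042.H284.SeamE
import Vale.Agent.P042.H284.TMain

/-!
# P042: the direct bound of the coefficients of the logarithm

* `mc_scale_eq`: cumulants of scaled moments (only sub-multisets matter);
* `zt_restrict`, `zt_scale`: restriction of the types, scaling of the kernel;
* `w_num`: `blockCT` with exponential weights, root of smallest size;
* `D_final`, `co_le`: the bound `|W a| ≤ (lf a)^(K |a|) exp (-c lf a)`.
-/

open Finset

set_option linter.unusedSectionVars false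

namespace Vale.Agent.P042.H284

open Vale.Agent.P042.H159 (MC xi xi_nil xi_cons)
open Vale.Agent.P042.H232 (sp IsCum sp_congr sp_mul_const)

universe u v

section scale

variable {Λ : Type v}

theorem sp_scale' (w : Λ → ℝ) (S : Multiset Λ) (F G : Multiset Λ → ℝ) :
    sp S (fun x y => (F x * (x.map w).prod) * (G y * (y.map w).prod))
      = sp S (fun x y => F x * G y) * (S.map w).prod := by
  rw [← sp_mul_const]
  apply sp_congr
  intro x y hxy
  rw [← hxy, Multiset.map_add, Multiset.prod_add]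
  ring

theorem isCum_scale {M T : Multiset Λ → ℝ} (h : IsCum M T) (w : Λ → ℝ) :
    IsCum (fun S => M S * (S.map w).prod) (fun S => T S * (S.map w).prod) where
  zero := by simp [h.zero]
  cons := by
    intro a S
    rw [h.cons]
    have := sp_scale' w S (fun x => T (a ::ₘ x)) M
    rw [Multiset.map_cons, Multiset.prod_cons, mul_left_comm, ← this, ← H232.sp_const_mul]
    apply sp_congr
    intro x y _
    rw [Multiset.map_cons, Multiset.prod_cons]
    ring

/-- Cumulants of scaled moments. -/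
theorem mc_scale_eq {z w z' w' : Multiset Λ → ℝ} (hz : z 0 = 1) (h : MC z w) (hz' : z' 0 = 1)
    (h' : MC z' w') (u : Λ → ℝ) (τ : Multiset Λ) (hτ : τ ≠ 0)
    (he : ∀ σ ≤ τ, z' σ = z σ * (σ.map u).prod) : w' τ = w τ * (τ.map u).prod := by
  have h1 : IsCum z' w' := ⟨hz', h'⟩
  have h2 : IsCum z w := ⟨hz, h⟩
  exact h1.unique (isCum_scale h2 u) τ hτ he

theorem mc_scale_eq' {z w z' w' : Multiset Λ → ℝ} (hz : z 0 = 1) (h : MC z w) (hz' : z' 0 = 1)
    (h' : MC z' w') (s : ℝ) (τ : Multiset Λ) (hτ : τ ≠ 0)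
    (he : ∀ σ ≤ τ, z' σ = z σ * s ^ Multiset.card σ) : w' τ = w τ * s ^ Multiset.card τ := by
  have h1 : ∀ σ : Multiset Λ, (σ.map fun _ => s).prod = s ^ Multiset.card σ := by
    intro σ
    rw [Multiset.map_const', Multiset.prod_replicate]
  rw [← h1 τ]
  exact mc_scale_eq hz h hz' h' (fun _ => s) τ hτ fun σ hσ => by rw [h1]; exact he σ hσ

end scale

section restrict

variable {Ω : Type u} [Fintype Ω] {Λ : Type v}

theorem Lt_congr {β : Type*} {P P' : Λ → Finset β} {τ : List Λ} (h : ∀ l ∈ τ, P l = P' l) :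
    Lt P τ = Lt P' τ := by
  induction τ with
  | nil => rfl
  | cons l τ ih =>
    unfold Lt
    rw [h l (List.mem_cons_self), ih fun m hm => h m (List.mem_cons_of_mem _ hm)]

/-- Only the tokens of the types occurring matter. -/
theorem zt_restrict {V V' : Λ → Finset Ω} (ξ : Ω → Ω → ℝ) (M M' : Multiset Ω → ℝ)
    (τ : Multiset Λ) (h : ∀ l ∈ τ, V l = V' l) : zt V ξ M M' τ = zt V' ξ M M' τ := by
  induction τ using Quotient.inductionOn with
  | h τ =>
    have h1 : ∀ l ∈ τ, VV V l = VV V' l := fun l hl => by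
      unfold VV
      rw [h l (Multiset.mem_coe.2 hl)]
    rw [Multiset.quot_mk_to_coe, zt_coe', zt_coe', Lt_congr h1]

theorem xi_scale {V : Λ → Finset Ω} (ξ : Ω → Ω → ℝ) (ty : Ω → Λ) (hV : ∀ l, ∀ ω ∈ V l, ty ω = l)
    (u : Λ → ℝ) (τ : List Λ) : ∀ E ∈ Lt (VV V) τ,
    xi (fun p q => u (ty p) * ξ p q) E = pr u τ * xi ξ E := by
  induction τ with
  | nil =>
    intro E hE
    rw [show E = [] from by simpa [Lt] using hE]
    simp [xi_nil]
  | cons l τ ih =>
    intro E hE
    have hlen := length_of_mem_Lt hE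
    match E, hlen with
    | e :: E, _ =>
      unfold Lt at hE
      obtain ⟨x, hx, h2⟩ := Finset.mem_map.1 hE
      obtain ⟨hx1, hx2⟩ := Finset.mem_product.1 hx
      have h3 : x.1 :: x.2 = e :: E := h2
      obtain ⟨h4, h5⟩ := List.cons.inj h3
      subst h4 h5
      rw [xi_cons, xi_cons, ih _ hx2, pr_cons, hV l _ (Finset.mem_product.1 hx1).1]
      ring

/-- Scaling the kernel scales the pairing. -/
theorem zt_scale {V : Λ → Finset Ω} (ξ : Ω → Ω → ℝ) (M M' : Multiset Ω → ℝ) (ty : Ω → Λ)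
    (hV : ∀ l, ∀ ω ∈ V l, ty ω = l) (u : Λ → ℝ) (τ : Multiset Λ) :
    zt V (fun p q => u (ty p) * ξ p q) M M' τ = zt V ξ M M' τ * (τ.map u).prod := by
  induction τ using Quotient.inductionOn with
  | h τ =>
    rw [Multiset.quot_mk_to_coe, zt_coe', zt_coe', Finset.sum_mul]
    refine Finset.sum_congr rfl fun E hE => ?_
    rw [xi_scale ξ ty hV u τ E hE, Multiset.map_coe, Multiset.prod_coe]
    unfold pr
    ring

end restrict

section num

variable {Ω : Type u} [Fintype Ω] {Λ : Type v}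

theorem card_mul_le {ell : Λ → ℝ} {e : ℝ} (τ : Multiset Λ) (h : ∀ m ∈ τ, e ≤ ell m) :
    (Multiset.card τ : ℝ) * e ≤ (τ.map ell).sum := by
  induction τ using Multiset.induction_on with
  | empty => simp
  | cons a τ ih =>
    have h1 := ih fun m hm => h m (Multiset.mem_cons_of_mem hm)
    have h2 := h a (Multiset.mem_cons_self a τ)
    rw [Multiset.card_cons, Multiset.map_cons, Multiset.sum_cons]
    push_cast
    linarith

theorem prod_exp_neg {ell : Λ → ℝ} (c : ℝ) (τ : Multiset Λ) :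
    (τ.map fun l => Real.exp (-(c * ell l))).prod = Real.exp (-(c * (τ.map ell).sum)) := by
  induction τ using Multiset.induction_on with
  | empty => simp
  | cons a τ ih =>
    rw [Multiset.map_cons, Multiset.prod_cons, ih, Multiset.map_cons, Multiset.sum_cons,
      ← Real.exp_add]
    congr 1
    ring

/-- **Block C with exponential weights.** -/
theorem w_num [DecidableEq Λ] {V : Λ → Finset Ω} {ξ : Ω → Ω → ℝ} (hξ : CV V ξ) {M T M' T' : Multiset Ω → ℝ}
    (hM0 : M 0 = 1) (hM : MC M T) (hM0' : M' 0 = 1) (hM' : MC M' T') {ell : Λ → ℝ}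
    (hell : ∀ l, 0 ≤ ell l) {g c1 c2 : ℝ} (hg : 0 ≤ g) (hc1 : 0 ≤ c1) (hc : g + c1 ≤ c2)
    {N : Λ → Λ → ℝ} {b0 : ℕ}
    (hT : BdT V b0 (fun l => Real.exp (g * ell l)) (fun l => Real.exp (-(c1 * ell l))) N T)
    (hT' : BdT V b0 (fun l => Real.exp (g * ell l)) (fun l => Real.exp (-(c1 * ell l))) N T')
    (hN : ∀ l m, 0 ≤ N l m) (hN' : ∀ l m, N l m ≤ Real.exp (g * ell l) * Real.exp (g * ell m))
    (hN2 : ∀ l m, ell l ≤ ell m → N l m ≤ Real.exp (g * ell l - c2 * (ell m - ell l)))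
    {w : Multiset Λ → ℝ} (hw : MC (zt V ξ M M') w) (τ : Multiset Λ)
    (h3 : 3 ≤ Multiset.card τ) (hb : Multiset.card τ ≤ b0) :
    |w τ| ≤ ((2 * Multiset.card τ).factorial : ℝ) *
      Real.exp (-((c1 - 3 * g) / 3 * (τ.map ell).sum)) := by
  -- the root
  have hne : τ.toFinset.Nonempty := by
    rw [Multiset.toFinset_nonempty]
    rintro rfl
    simp at h3
  obtain ⟨l, hl, hmin⟩ := Finset.exists_min_image τ.toFinset ell hne
  obtain ⟨s, rfl⟩ := Multiset.exists_cons_of_mem (Multiset.mem_toFinset.1 hl)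
  have hmin' : ∀ m ∈ l ::ₘ s, ell l ≤ ell m := fun m hm => hmin m (Multiset.mem_toFinset.2 hm)
  have hy : ∀ l, 1 ≤ Real.exp (g * ell l) := fun l =>
    Real.one_le_exp (mul_nonneg hg (hell l))
  have hκ1 : ∀ l, Real.exp (-(c1 * ell l)) ≤ 1 := fun l => by
    rw [Real.exp_le_one_iff]
    have := mul_nonneg hc1 (hell l)
    linarith
  have hl0 := hell l
  have hgl := mul_nonneg hg hl0
  have hcl := mul_nonneg hc1 hl0
  have h := blockCT hξ hM0 hM hM0' hM' hT hT' hy (fun l => (Real.exp_pos _).le) hκ1 hN hN' hw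
    (l := l) (s := s) (G := Real.exp ((c1 + 3 * g) * ell l))
    (by rw [Multiset.card_cons] at hb; exact hb)
    (by
      rw [← Real.exp_nat_mul]
      apply Real.exp_le_exp.2
      push_cast
      linarith)
    (by
      apply Real.exp_le_exp.2
      linarith)
    (by
      intro m hm
      have hlm := hmin' m (Multiset.mem_cons_of_mem hm)
      rw [← Real.exp_add, ← Real.exp_add]
      refine (mul_le_mul_of_nonneg_right (hN2 l m hlm) (Real.exp_pos _).le).trans ?_
      rw [← Real.exp_add]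
      apply Real.exp_le_exp.2
      have h1 := mul_le_mul_of_nonneg_right hc (sub_nonneg.2 hlm)
      linarith)
  have hcard : 2 * Multiset.card s + 2 = 2 * Multiset.card (l ::ₘ s) := by
    rw [Multiset.card_cons]; ring
  rw [hcard] at h
  refine h.trans ?_
  apply mul_le_mul_of_nonneg_left _ (Nat.cast_nonneg _)
  rw [prod_exp_neg, ← Real.exp_add]
  apply Real.exp_le_exp.2
  have h4 := card_mul_le (l ::ₘ s) hmin'
  have h5 : (3 : ℝ) * ell l ≤ Multiset.card (l ::ₘ s) * ell l := by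
    apply mul_le_mul_of_nonneg_right _ hl0
    exact_mod_cast h3
  have h6 : 3 * ell l ≤ ((l ::ₘ s).map ell).sum := h5.trans h4
  have h7 : 0 ≤ 2 * c1 + 3 * g := by linarith
  have h8 := mul_le_mul_of_nonneg_left h6 h7
  rw [Multiset.map_cons, Multiset.sum_cons] at h8 ⊢
  linarith

end num

section final

variable {Λ : Type v}

theorem fact_le_pow {b : ℕ} {x : ℝ} (hb : (b : ℝ) ≤ x) (hx : 2 ≤ x) :
    ((2 * b).factorial : ℝ) ≤ x ^ (4 * b) := by
  have h1 : ((2 * b).factorial : ℝ) ≤ ((2 * b : ℕ) : ℝ) ^ (2 * b) := by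
    exact_mod_cast Nat.factorial_le_pow (2 * b)
  refine h1.trans ?_
  have h2 : ((2 * b : ℕ) : ℝ) ≤ x ^ 2 := by
    push_cast
    nlinarith
  calc ((2 * b : ℕ) : ℝ) ^ (2 * b) ≤ (x ^ 2) ^ (2 * b) :=
        pow_le_pow_left₀ (Nat.cast_nonneg _) h2 _
    _ = x ^ (4 * b) := by rw [← pow_mul]; congr 1; ring

/-- **The direct bound**, from bounds of scaled copies. -/
theorem D_final {z w : Multiset Λ → ℝ} (hz : z 0 = 1) (hw : MC z w) {ell : Λ → ℝ}
    (hell : ∀ l, 1 ≤ ell l) {b0 A : ℕ} {c : ℝ}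
    (H : ∀ τ : Multiset Λ, 3 ≤ Multiset.card τ → Multiset.card τ ≤ b0 →
      ∃ (s : ℝ) (z' w' : Multiset Λ → ℝ), 0 < s ∧ s⁻¹ ≤ (τ.map ell).sum ^ A ∧ z' 0 = 1 ∧
        MC z' w' ∧ (∀ σ ≤ τ, z' σ = z σ * s ^ Multiset.card σ) ∧
        |w' τ| ≤ ((2 * Multiset.card τ).factorial : ℝ) * Real.exp (-(c * (τ.map ell).sum)))
    (τ : Multiset Λ) (h3 : 3 ≤ Multiset.card τ) (hb : Multiset.card τ ≤ b0) :
    |w τ| ≤ (τ.map ell).sum ^ ((A + 4) * Multiset.card τ) *
      Real.exp (-(c * (τ.map ell).sum)) := by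
  obtain ⟨s, z', w', hs, hsA, hz', hw', he, hb'⟩ := H τ h3 hb
  set b := Multiset.card τ with hbdef
  set x := (τ.map ell).sum with hx
  have hbx : (b : ℝ) ≤ x := by
    have := card_mul_le (ell := ell) (e := 1) τ fun m _ => hell m
    rwa [mul_one] at this
  have h3' : (3 : ℝ) ≤ b := by exact_mod_cast h3
  have hx2 : 2 ≤ x := by linarith
  have hτ : τ ≠ 0 := by
    rintro rfl
    simp [hbdef] at h3
  have h1 := mc_scale_eq' hz hw hz' hw' s τ hτ he
  rw [← hbdef] at h1
  have hsb : 0 < s ^ b := pow_pos hs b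
  have h2 : |w τ| = |w' τ| * (s⁻¹) ^ b := by
    rw [h1, abs_mul, abs_of_pos hsb, mul_assoc, ← mul_pow, mul_inv_cancel₀ hs.ne', one_pow,
      mul_one]
  rw [h2]
  have h4 : (s⁻¹) ^ b ≤ x ^ (A * b) := by
    rw [pow_mul]
    exact pow_le_pow_left₀ (inv_nonneg.2 hs.le) hsA b
  have h5 := fact_le_pow hbx hx2
  calc |w' τ| * (s⁻¹) ^ b
      ≤ (((2 * b).factorial : ℝ) * Real.exp (-(c * x))) * x ^ (A * b) :=
        mul_le_mul hb' h4 (pow_nonneg (inv_nonneg.2 hs.le) b) (by positivity)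
    _ ≤ (x ^ (4 * b) * Real.exp (-(c * x))) * x ^ (A * b) := by
        apply mul_le_mul_of_nonneg_right _ (by positivity)
        exact mul_le_mul_of_nonneg_right h5 (Real.exp_pos _).le
    _ = x ^ ((A + 4) * b) * Real.exp (-(c * x)) := by
        rw [show (A + 4) * b = A * b + 4 * b by ring, pow_add]
        ring

end final

section coeff

variable {J : Type v} [Fintype J] [DecidableEq J]

theorem sum_toMultiset (ell : J → ℝ) (a : J →₀ ℕ) :
    ((Finsupp.toMultiset a).map ell).sum = ∑ j, (a j : ℝ) * ell j := by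
  induction a using Finsupp.induction_linear with
  | zero => simp
  | add f g hf hg =>
    rw [map_add, Multiset.map_add, Multiset.sum_add, hf, hg, ← Finset.sum_add_distrib]
    refine Finset.sum_congr rfl fun j _ => ?_
    rw [Finsupp.add_apply]
    push_cast
    ring
  | single j n =>
    rw [Finsupp.toMultiset_single, Multiset.map_nsmul, Multiset.map_singleton,
      Multiset.sum_nsmul, Multiset.sum_singleton, Finset.sum_eq_single j, Finsupp.single_eq_same,
      nsmul_eq_mul]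
    · intro i _ hi
      rw [Finsupp.single_eq_of_ne hi, Nat.cast_zero, zero_mul]
    · intro h
      exact absurd (Finset.mem_univ _) h

theorem abs_co_le (w : Multiset J → ℝ) (a : J →₀ ℕ) : |co w a| ≤ |w (Finsupp.toMultiset a)| := by
  unfold co
  rw [abs_div, abs_of_pos (fa_pos a)]
  exact div_le_self (abs_nonneg _) (one_le_fa a)

/-- The direct bound for the coefficients. -/
theorem D_co {z w : Multiset J → ℝ} (hz : z 0 = 1) (hw : MC z w) {ell : J → ℝ}
    (hell : ∀ l, 1 ≤ ell l) {b0 A : ℕ} {c : ℝ}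
    (H : ∀ τ : Multiset J, 3 ≤ Multiset.card τ → Multiset.card τ ≤ b0 →
      ∃ (s : ℝ) (z' w' : Multiset J → ℝ), 0 < s ∧ s⁻¹ ≤ (τ.map ell).sum ^ A ∧ z' 0 = 1 ∧
        MC z' w' ∧ (∀ σ ≤ τ, z' σ = z σ * s ^ Multiset.card σ) ∧
        |w' τ| ≤ ((2 * Multiset.card τ).factorial : ℝ) * Real.exp (-(c * (τ.map ell).sum)))
    (a : J →₀ ℕ) (h3 : 3 ≤ a.degree) (hb : a.degree ≤ b0) :
    |co w a| ≤ (∑ j, (a j : ℝ) * ell j) ^ ((A + 4) * a.degree) *
      Real.exp (-(c * ∑ j, (a j : ℝ) * ell j)) := by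
  have h1 : Multiset.card (Finsupp.toMultiset a) = a.degree := by
    rw [Finsupp.card_toMultiset, Finsupp.degree_eq_sum, Finsupp.sum_fintype _ _ (fun _ => rfl)]
    rfl
  have h2 := D_final hz hw hell H (Finsupp.toMultiset a) (by rw [h1]; exact h3)
    (by rw [h1]; exact hb)
  rw [h1, sum_toMultiset] at h2
  exact (abs_co_le w a).trans h2

end coeff

end Vale.Agent.P042.H284
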