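import Vale.Agent.P042.H159.Rec

/-!
# P042: the cumulant recursion on multisets of types is Euler's identity for power series

`z, w : Multiset J → ℝ` with `MC z w` give `F a = z a / a!`, `W a = w a / a!` (`a` a multi-index)
with `|a| F a = ∑ |x| W x F (a - x)`.
-/

open Finset Finset.HasAntidiagonal

set_option linter.unusedSectionVars false

namespace Vale.Agent.P042.H284

open Vale.Agent.P042.H159 (MC)

variable {J : Type*} [Fintype J] [DecidableEq J]

/-- The factorial of a multi-index. -/
def fa (a : J →₀ ℕ) : ℝ := ∏ j, ((a j).factorial : ℝ)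

theorem fa_pos (a : J →₀ ℕ) : 0 < fa a :=
  Finset.prod_pos fun j _ => by exact_mod_cast Nat.factorial_pos _

theorem one_le_fa (a : J →₀ ℕ) : 1 ≤ fa a := by
  have h : (1 : ℝ) ≤ ((∏ j, (a j).factorial : ℕ) : ℝ) := by
    exact_mod_cast Finset.prod_pos fun j _ => Nat.factorial_pos _
  unfold fa
  push_cast at h
  exact h

@[simp] theorem fa_zero : fa (0 : J →₀ ℕ) = 1 := by simp [fa]

theorem fa_add_single (c : J →₀ ℕ) (j : J) :
    fa (c + Finsupp.single j 1) = ((c j : ℝ) + 1) * fa c := by
  unfold fa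
  rw [← Finset.mul_prod_erase univ _ (mem_univ j), ← Finset.mul_prod_erase univ _ (mem_univ j)]
  have h1 : ∏ x ∈ univ.erase j, (((c + Finsupp.single j 1 : J →₀ ℕ) x).factorial : ℝ) =
      ∏ x ∈ univ.erase j, ((c x).factorial : ℝ) := by
    refine Finset.prod_congr rfl fun x hx => ?_
    rw [Finsupp.add_apply, Finsupp.single_eq_of_ne (Finset.ne_of_mem_erase hx), add_zero]
  rw [h1, Finsupp.add_apply, Finsupp.single_eq_same, Nat.factorial_succ]
  push_cast
  ring

theorem sum_anti_left (c : J →₀ ℕ) (j : J) (ψ : (J →₀ ℕ) → (J →₀ ℕ) → ℝ) :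
    ∑ x ∈ antidiagonal (c + Finsupp.single j 1 : J →₀ ℕ), (x.1 j : ℝ) * ψ x.1 x.2 =
      ∑ x ∈ antidiagonal c, ((x.1 j : ℝ) + 1) * ψ (x.1 + Finsupp.single j 1) x.2 := by
  classical
  set g : (J →₀ ℕ) × (J →₀ ℕ) → (J →₀ ℕ) × (J →₀ ℕ) :=
    fun x => (x.1 + Finsupp.single j 1, x.2) with hg
  have hinj : Set.InjOn g (antidiagonal c : Finset ((J →₀ ℕ) × (J →₀ ℕ))) := by
    intro x _ y _ hxy
    have h1 := congrArg Prod.fst hxy
    have h2 := congrArg Prod.snd hxy
    exact Prod.ext (add_right_cancel h1) h2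
  have h1 : ∑ x ∈ antidiagonal c, ((x.1 j : ℝ) + 1) * ψ (x.1 + Finsupp.single j 1) x.2 =
      ∑ x ∈ (antidiagonal c).image g, (x.1 j : ℝ) * ψ x.1 x.2 := by
    rw [Finset.sum_image hinj]
    refine Finset.sum_congr rfl fun x _ => ?_
    simp [hg]
  rw [h1]
  symm
  apply Finset.sum_subset
  · intro y hy
    obtain ⟨x, hx, rfl⟩ := Finset.mem_image.1 hy
    rw [HasAntidiagonal.mem_antidiagonal] at hx ⊢
    simp only [hg]
    rw [← hx]
    abel
  · intro y hy hn
    by_cases h0 : y.1 j = 0
    · rw [h0]; simp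
    · exfalso
      apply hn
      rw [Finset.mem_image]
      rw [HasAntidiagonal.mem_antidiagonal] at hy
      have h2 : Finsupp.single j 1 ≤ y.1 := by
        rw [Finsupp.single_le_iff]
        omega
      refine ⟨(y.1 - Finsupp.single j 1, y.2), ?_, ?_⟩
      · rw [HasAntidiagonal.mem_antidiagonal]
        have h3 : y.1 - Finsupp.single j 1 + Finsupp.single j 1 = y.1 := tsub_add_cancel_of_le h2
        have h4 : (y.1 - Finsupp.single j 1 + y.2) + Finsupp.single j 1 =
            c + Finsupp.single j 1 := by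
          rw [add_right_comm, h3, hy]
        exact add_right_cancel h4
      · simp only [hg]
        rw [tsub_add_cancel_of_le h2]

theorem sum_anti_right (c : J →₀ ℕ) (j : J) (ψ : (J →₀ ℕ) → (J →₀ ℕ) → ℝ) :
    ∑ x ∈ antidiagonal (c + Finsupp.single j 1 : J →₀ ℕ), (x.2 j : ℝ) * ψ x.1 x.2 =
      ∑ x ∈ antidiagonal c, ((x.2 j : ℝ) + 1) * ψ x.1 (x.2 + Finsupp.single j 1) := by
  have h := sum_anti_left c j fun x y => ψ y x
  have e1 := Finsupp.sum_antidiagonal_swap (c + Finsupp.single j 1)
    (fun x y : J →₀ ℕ => (x j : ℝ) * ψ y x)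
  have e2 := Finsupp.sum_antidiagonal_swap c
    (fun x y : J →₀ ℕ => ((x j : ℝ) + 1) * ψ y (x + Finsupp.single j 1))
  rw [e1, e2] at h
  exact h

/-- The splittings of a multiset, counted with multiplicity. -/
theorem anti_sum (s : Multiset J) (φ : Multiset J → Multiset J → ℝ) :
    (s.antidiagonal.map fun p => φ p.1 p.2).sum =
      ∑ x ∈ antidiagonal (Multiset.toFinsupp s),
        fa (Multiset.toFinsupp s) / (fa x.1 * fa x.2) *
          φ (Finsupp.toMultiset x.1) (Finsupp.toMultiset x.2) := by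
  induction s using Multiset.induction_on generalizing φ with
  | empty => simp
  | cons j s ih =>
    have h1 : Multiset.toFinsupp (j ::ₘ s) = Multiset.toFinsupp s + Finsupp.single j 1 := by
      rw [← Multiset.singleton_add, map_add, Multiset.toFinsupp_singleton, add_comm]
    have h2 : ∀ x : J →₀ ℕ, Finsupp.toMultiset (x + Finsupp.single j 1) =
        j ::ₘ Finsupp.toMultiset x := by
      intro x
      rw [map_add, Finsupp.toMultiset_single, one_smul, add_comm, Multiset.singleton_add]
    set c := Multiset.toFinsupp s with hc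
    have h3 : ((j ::ₘ s).antidiagonal.map fun p => φ p.1 p.2).sum =
        (s.antidiagonal.map fun p => φ p.1 (j ::ₘ p.2)).sum +
          (s.antidiagonal.map fun p => φ (j ::ₘ p.1) p.2).sum := by
      simp [Multiset.antidiagonal_cons, Multiset.map_map]
    rw [h3, ih (fun p q => φ p (j ::ₘ q)), ih (fun p q => φ (j ::ₘ p) q), h1]
    have h4 : ∀ x ∈ antidiagonal (c + Finsupp.single j 1),
        fa (c + Finsupp.single j 1) / (fa x.1 * fa x.2) *
          φ (Finsupp.toMultiset x.1) (Finsupp.toMultiset x.2) =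
        (x.2 j : ℝ) * (fa c / (fa x.1 * fa x.2) *
          φ (Finsupp.toMultiset x.1) (Finsupp.toMultiset x.2)) +
        (x.1 j : ℝ) * (fa c / (fa x.1 * fa x.2) *
          φ (Finsupp.toMultiset x.1) (Finsupp.toMultiset x.2)) := by
      intro x hx
      rw [HasAntidiagonal.mem_antidiagonal] at hx
      have h5 : ((c j : ℝ) + 1) = x.2 j + x.1 j := by
        have := DFunLike.congr_fun hx j
        rw [Finsupp.add_apply, Finsupp.add_apply, Finsupp.single_eq_same] at this
        have h6 : ((x.1 j + x.2 j : ℕ) : ℝ) = ((c j + 1 : ℕ) : ℝ) := by rw [this]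
        push_cast at h6
        linarith
      rw [fa_add_single, h5]
      ring
    rw [Finset.sum_congr rfl h4, Finset.sum_add_distrib,
      sum_anti_left c j fun x y => fa c / (fa x * fa y) *
          φ (Finsupp.toMultiset x) (Finsupp.toMultiset y),
      sum_anti_right c j fun x y => fa c / (fa x * fa y) *
          φ (Finsupp.toMultiset x) (Finsupp.toMultiset y)]
    congr 1
    · refine Finset.sum_congr rfl fun x _ => ?_
      rw [h2, fa_add_single]
      have h6 : fa x.2 ≠ 0 := (fa_pos _).ne'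
      have h7 : fa x.1 ≠ 0 := (fa_pos _).ne'
      have h8 : (x.2 j : ℝ) + 1 ≠ 0 := by positivity
      field_simp
    · refine Finset.sum_congr rfl fun x _ => ?_
      rw [h2, fa_add_single]
      have h6 : fa x.2 ≠ 0 := (fa_pos _).ne'
      have h7 : fa x.1 ≠ 0 := (fa_pos _).ne'
      have h8 : (x.1 j : ℝ) + 1 ≠ 0 := by positivity
      field_simp

/-- The coefficient of the multi-index `a`. -/
noncomputable def co (z : Multiset J → ℝ) (a : J →₀ ℕ) : ℝ := z (Finsupp.toMultiset a) / fa a

theorem co_zero (z : Multiset J → ℝ) : co z 0 = z 0 := by simp [co]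

variable {z w : Multiset J → ℝ}

/-- Euler's identity, one variable. -/
theorem euler_j (h : MC z w) (a : J →₀ ℕ) (j : J) :
    (a j : ℝ) * co z a = ∑ x ∈ antidiagonal a, (x.1 j : ℝ) * co w x.1 * co z x.2 := by
  by_cases h0 : a j = 0
  · rw [h0, Nat.cast_zero, zero_mul]
    symm
    apply Finset.sum_eq_zero
    intro x hx
    rw [HasAntidiagonal.mem_antidiagonal] at hx
    have h1 : x.1 j = 0 := by
      have := DFunLike.congr_fun hx j
      rw [Finsupp.add_apply, h0] at this
      omega
    rw [h1]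
    simp
  · have h2 : Finsupp.single j 1 ≤ a := by
      rw [Finsupp.single_le_iff]
      omega
    obtain ⟨c, rfl⟩ : ∃ c, a = c + Finsupp.single j 1 :=
      ⟨a - Finsupp.single j 1, (tsub_add_cancel_of_le h2).symm⟩
    have h3 : ∀ x : J →₀ ℕ, Finsupp.toMultiset (x + Finsupp.single j 1) =
        j ::ₘ Finsupp.toMultiset x := by
      intro x
      rw [map_add, Finsupp.toMultiset_single, one_smul, add_comm, Multiset.singleton_add]
    have h4 := anti_sum (Finsupp.toMultiset c) fun p q => w (j ::ₘ p) * z q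
    rw [← h, Finsupp.toMultiset_toFinsupp] at h4
    have h5 : ∀ x : (J →₀ ℕ) × (J →₀ ℕ), (x.1 j : ℝ) * co w x.1 * co z x.2 =
        (x.1 j : ℝ) * (co w x.1 * co z x.2) := fun x => by ring
    simp only [h5]
    rw [sum_anti_left c j fun x y => co w x * co z y]
    unfold co
    rw [h3, h4, fa_add_single, Finsupp.add_apply, Finsupp.single_eq_same]
    have h6 : (c j : ℝ) + 1 ≠ 0 := by positivity
    have h7 : fa c ≠ 0 := (fa_pos _).ne'
    push_cast
    rw [mul_div_assoc', mul_div_mul_left _ _ h6, Finset.sum_div]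
    refine Finset.sum_congr rfl fun x _ => ?_
    rw [h3, fa_add_single]
    have h8 : fa x.2 ≠ 0 := (fa_pos _).ne'
    have h9 : fa x.1 ≠ 0 := (fa_pos _).ne'
    have h10 : (x.1 j : ℝ) + 1 ≠ 0 := by positivity
    field_simp

/-- **Euler's identity.** -/
theorem euler (h : MC z w) (a : J →₀ ℕ) :
    (a.degree : ℝ) * co z a =
      ∑ x ∈ antidiagonal a, (x.1.degree : ℝ) * co w x.1 * co z x.2 := by
  have h1 : ∀ b : J →₀ ℕ, (b.degree : ℝ) = ∑ j, (b j : ℝ) := by
    intro b
    rw [Finsupp.degree_eq_sum]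
    push_cast
    rfl
  simp only [h1, Finset.sum_mul]
  rw [Finset.sum_comm]
  exact Finset.sum_congr rfl fun j _ => euler_j h a j

end Vale.Agent.P042.H284
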