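import Vale.Agent.P042.H284.TRec
import Vale.Agent.P042.H159.Bound

/-!
# Typed block C: bounds for the exploration weights
-/

open Finset

set_option linter.unusedSectionVars false

namespace Vale.Agent.P042.H284

open Vale.Agent.P042.H159 (S MC xi xi_nil xi_cons xi_append xi_perm S_congr S_append S_map S_comm
  S_mul S_zero S_sum S_add MC.list S_length Bn Bn_Bn Bn_fact)

universe u v

variable {Ω : Type u} [Fintype Ω] {Λ : Type v}

section

variable (V : Λ → Finset Ω)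

/-- The norm of a function of two lists. -/
noncomputable def nt (o o' : List Λ) (f : List Ω → List Ω → ℝ) : ℝ :=
  √(∑ q ∈ Lt V o, ∑ q' ∈ Lt V o', f q q' ^ 2)

theorem nt_nonneg (o o' : List Λ) (f : List Ω → List Ω → ℝ) : 0 ≤ nt V o o' f :=
  Real.sqrt_nonneg _

theorem nt_sq (o o' : List Λ) (f : List Ω → List Ω → ℝ) :
    nt V o o' f ^ 2 = ∑ q ∈ Lt V o, ∑ q' ∈ Lt V o', f q q' ^ 2 :=
  Real.sq_sqrt (Finset.sum_nonneg fun _ _ => Finset.sum_nonneg fun _ _ => sq_nonneg _)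

/-- The product of weights over a list of types. -/
def pr (y : Λ → ℝ) (τ : List Λ) : ℝ := (τ.map y).prod

@[simp] theorem pr_nil (y : Λ → ℝ) : pr y [] = 1 := rfl

@[simp] theorem pr_cons (y : Λ → ℝ) (l : Λ) (τ : List Λ) : pr y (l :: τ) = y l * pr y τ := by
  simp [pr]

theorem pr_append (y : Λ → ℝ) (τ τ' : List Λ) : pr y (τ ++ τ') = pr y τ * pr y τ' := by
  simp [pr]

theorem pr_perm (y : Λ → ℝ) {τ τ' : List Λ} (h : τ.Perm τ') : pr y τ = pr y τ' :=
  (h.map _).prod_eq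

theorem pr_nonneg {y : Λ → ℝ} (hy : ∀ l, 0 ≤ y l) (τ : List Λ) : 0 ≤ pr y τ := by
  induction τ with
  | nil => simp
  | cons l τ ih =>
    rw [pr_cons]
    exact mul_nonneg (hy l) ih

theorem one_le_pr {y : Λ → ℝ} (hy : ∀ l, 1 ≤ y l) (τ : List Λ) : 1 ≤ pr y τ := by
  induction τ with
  | nil => simp
  | cons l τ ih =>
    rw [pr_cons]
    exact one_le_mul_of_one_le_of_one_le (hy l) ih

theorem pr_le_one {y : Λ → ℝ} (hy0 : ∀ l, 0 ≤ y l) (hy : ∀ l, y l ≤ 1) (τ : List Λ) :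
    pr y τ ≤ 1 := by
  induction τ with
  | nil => simp
  | cons l τ ih =>
    rw [pr_cons]
    exact mul_le_one₀ (hy l) (pr_nonneg hy0 τ) ih

theorem pr_div_mul {y κ : Λ → ℝ} (hy : ∀ l, 1 ≤ y l) (τ : List Λ) :
    pr (fun l => κ l / y l) τ * pr y τ = pr κ τ := by
  induction τ with
  | nil => simp
  | cons l τ ih =>
    have h : y l ≠ 0 := by linarith [hy l]
    rw [pr_cons, pr_cons, pr_cons, ← ih]
    field_simp

/-- Bounds of the cumulants, by types. -/
structure BdT (b0 : ℕ) (y κ : Λ → ℝ) (N : Λ → Λ → ℝ) (T : Multiset Ω → ℝ) : Prop where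
  one : ∀ l, ∑ ω ∈ Lt V [l], T (ω : Multiset Ω) ^ 2 ≤ y l ^ 2
  two : ∀ l m, ∑ ω ∈ Lt V [l, m], T (ω : Multiset Ω) ^ 2 ≤ N l m ^ 2
  op : ∀ l m, BV (y l * κ m / y m) (V l) (V m) fun p q => T ((p ::ₘ q ::ₘ 0 : Multiset Ω))
  hs : ∀ τ : List Λ, 3 ≤ τ.length → τ.length ≤ b0 →
    ∑ ω ∈ Lt V τ, T (ω : Multiset Ω) ^ 2 ≤ pr (fun l => κ l / y l) τ ^ 2

/-- The weight of a node with head of type `l`, old ends of types `r` and new ends of types `σ`. -/
noncomputable def wT (y κ : Λ → ℝ) (N : Λ → Λ → ℝ) (l : Λ) : List Λ → List Λ → ℝ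
  | [], [] => y l
  | [], [m] => y l * κ m / y m
  | [], m :: m' :: σ => pr (fun i => κ i / y i) (l :: m :: m' :: σ)
  | [m], [] => N l m
  | [m], m' :: σ => pr (fun i => κ i / y i) (l :: m :: m' :: σ)
  | m :: m' :: r, σ => pr (fun i => κ i / y i) (l :: m :: m' :: (r ++ σ))

variable {y κ : Λ → ℝ} {N : Λ → Λ → ℝ}

theorem wT_nonneg (hy : ∀ l, 1 ≤ y l) (hκ : ∀ l, 0 ≤ κ l) (hN0 : ∀ l m, 0 ≤ N l m) (l : Λ)
    (r σ : List Λ) : 0 ≤ wT y κ N l r σ := by
  have hy0 : ∀ l, 0 ≤ y l := fun l => by linarith [hy l]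
  have hq : ∀ l, 0 ≤ κ l / y l := fun l => div_nonneg (hκ l) (hy0 l)
  rcases r with _ | ⟨m, _ | ⟨m', r⟩⟩
  · rcases σ with _ | ⟨m, _ | ⟨m', σ⟩⟩
    · exact hy0 l
    · exact div_nonneg (mul_nonneg (hy0 l) (hκ m)) (hy0 m)
    · exact pr_nonneg hq _
  · rcases σ with _ | ⟨m', σ⟩
    · exact hN0 l m
    · exact pr_nonneg hq _
  · exact pr_nonneg hq _

theorem pr_div_le (hy : ∀ l, 1 ≤ y l) (hκ : ∀ l, 0 ≤ κ l) (hκ1 : ∀ l, κ l ≤ 1) (l : Λ)
    (r σ : List Λ) : pr (fun i => κ i / y i) (l :: (r ++ σ)) * pr y σ ≤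
      y l * pr y r * pr κ σ := by
  have hy0 : ∀ l, 0 ≤ y l := fun l => by linarith [hy l]
  have hq : ∀ l, 0 ≤ κ l / y l := fun l => div_nonneg (hκ l) (hy0 l)
  have hq1 : ∀ l, κ l / y l ≤ 1 := fun l => by
    rw [div_le_one (by linarith [hy l])]
    exact (hκ1 l).trans (hy l)
  have h2 : κ l / y l * pr (fun i => κ i / y i) r ≤ y l * pr y r := by
    calc κ l / y l * pr (fun i => κ i / y i) r ≤ 1 * 1 :=
          mul_le_mul (hq1 l) (pr_le_one hq hq1 _) (pr_nonneg hq _) zero_le_one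
      _ ≤ y l * pr y r := by
          rw [one_mul]
          exact one_le_mul_of_one_le_of_one_le (hy l) (one_le_pr hy r)
  rw [pr_cons, pr_append]
  calc κ l / y l * (pr (fun i => κ i / y i) r * pr (fun i => κ i / y i) σ) * pr y σ =
      (κ l / y l * pr (fun i => κ i / y i) r) * (pr (fun i => κ i / y i) σ * pr y σ) := by ring
    _ = (κ l / y l * pr (fun i => κ i / y i) r) * pr κ σ := by rw [pr_div_mul hy σ]
    _ ≤ y l * pr y r * pr κ σ := mul_le_mul_of_nonneg_right h2 (pr_nonneg hκ _)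

/-- The numerical inequality. -/
theorem wT_le (hy : ∀ l, 1 ≤ y l) (hκ : ∀ l, 0 ≤ κ l) (hκ1 : ∀ l, κ l ≤ 1)
    (hN : ∀ l m, N l m ≤ y l * y m) (l : Λ) (r σ : List Λ) :
    wT y κ N l r σ * pr y σ ≤ y l * pr y r * pr κ σ := by
  rcases r with _ | ⟨m, _ | ⟨m', r⟩⟩
  · rcases σ with _ | ⟨m, _ | ⟨m', σ⟩⟩
    · simp [wT]
    · have h : y m ≠ 0 := by linarith [hy m]
      refine le_of_eq ?_
      simp only [wT, pr_cons, pr_nil]
      field_simp
    · exact pr_div_le hy hκ hκ1 l [] (m :: m' :: σ)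
  · rcases σ with _ | ⟨m', σ⟩
    · simpa [wT] using hN l m
    · exact pr_div_le hy hκ hκ1 l [m] (m' :: σ)
  · exact pr_div_le hy hκ hκ1 l (m :: m' :: r) σ

variable {V}

theorem BdT.wT_sq {b0 : ℕ} {T : Multiset Ω → ℝ} (hT : BdT V b0 y κ N T) (l : Λ)
    {r σ : List Λ} (h : 1 + r.length + σ.length ≤ b0) (h1 : ¬ (r = [] ∧ σ.length = 1)) :
    ∑ ω ∈ Lt V (l :: (r ++ σ)), T (ω : Multiset Ω) ^ 2 ≤ wT y κ N l r σ ^ 2 := by
  rcases r with _ | ⟨m, _ | ⟨m', r⟩⟩
  · rcases σ with _ | ⟨m, _ | ⟨m', σ⟩⟩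
    · exact hT.one l
    · exact absurd ⟨rfl, rfl⟩ h1
    · refine hT.hs (l :: m :: m' :: σ) (by simp) ?_
      simp only [List.length_cons, List.length_nil] at h ⊢
      omega
  · rcases σ with _ | ⟨m', σ⟩
    · exact hT.two l m
    · refine hT.hs (l :: m :: m' :: σ) (by simp) ?_
      simp only [List.length_cons, List.length_nil] at h ⊢
      omega
  · refine hT.hs (l :: m :: m' :: (r ++ σ)) (by simp) ?_
    simp only [List.length_cons, List.length_append] at h ⊢
    omega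

theorem tsum4 (o : List Λ) (l : Λ) (r σ m : List Λ) (W : List Ω → List Ω → ℝ)
    (T : Multiset Ω → ℝ) :
    ∑ x ∈ Lt V o ×ˢ V l, ∑ t ∈ Lt V r, ∑ u ∈ Lt V m,
      (∑ v ∈ Lt V σ, W (x.1 ++ v) u ^ 2) * (∑ v ∈ Lt V σ, T ↑(x.2 :: (t ++ v)) ^ 2) =
      (∑ ω ∈ Lt V (l :: (r ++ σ)), T (ω : Multiset Ω) ^ 2) * nt V (o ++ σ) m W ^ 2 := by
  rw [nt_sq, Finset.sum_product, sum_Lt_cons]
  simp only [sum_Lt_append]
  rw [mul_comm, Finset.sum_mul]
  refine Finset.sum_congr rfl fun q _ => ?_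
  rw [Finset.mul_sum]
  refine Finset.sum_congr rfl fun a _ => ?_
  rw [Finset.mul_sum]
  refine Finset.sum_congr rfl fun t _ => ?_
  rw [← Finset.sum_mul]
  congr 1
  rw [Finset.sum_comm]

theorem tcontr_right {ξ : Ω → Ω → ℝ} (hξ : CV V ξ) {b0 : ℕ} {T : Multiset Ω → ℝ}
    (hT : BdT V b0 y κ N T) (hy : ∀ l, 1 ≤ y l) (hκ : ∀ l, 0 ≤ κ l) (hN0 : ∀ l m, 0 ≤ N l m)
    {o r σ m : List Λ} (l : Λ) (h : 1 + r.length + σ.length ≤ b0)
    (W : List Ω → List Ω → ℝ) :
    M3 V (Lt V o ×ˢ V l) r m (fun x t u => ∑ E ∈ Lt (VV V) σ,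
      xi ξ E * T ↑(x.2 :: (t ++ E.map Prod.snd)) * W (x.1 ++ E.map Prod.fst) u) ≤
      wT y κ N l r σ * nt V (o ++ σ) m W := by
  have hw := wT_nonneg hy hκ hN0 l r σ
  unfold M3
  rw [← Real.sqrt_sq (mul_nonneg hw (nt_nonneg _ _ _ _))]
  refine Real.sqrt_le_sqrt ?_
  rw [mul_pow]
  by_cases h1 : r = [] ∧ σ.length = 1
  · obtain ⟨rfl, h2⟩ := h1
    obtain ⟨l', rfl⟩ := List.length_eq_one_iff.1 h2
    have hw2 : wT y κ N l [] [l'] = y l * κ l' / y l' := rfl
    have hw0 : 0 ≤ y l * κ l' / y l' := hw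
    rw [hw2, nt_sq, sum_Lt_append, Finset.sum_product, Finset.mul_sum]
    refine Finset.sum_le_sum fun q _ => ?_
    simp only [sum_Lt_nil, sum_Lt_cons, List.nil_append]
    rw [Finset.sum_comm, Finset.sum_comm (s := V l') (t := Lt V m), Finset.mul_sum]
    refine Finset.sum_le_sum fun u _ => ?_
    have e1 : ∀ a : Ω, ∑ e ∈ VV V l', xi ξ [e] * T ↑(a :: List.map Prod.snd [e]) *
        W (q ++ List.map Prod.fst [e]) u =
        ∑ p' ∈ V l', T ((a ::ₘ p' ::ₘ 0 : Multiset Ω)) * ∑ p ∈ V l', ξ p p' * W (q ++ [p]) u := by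
      intro a
      rw [VV, Finset.sum_product, Finset.sum_comm]
      refine Finset.sum_congr rfl fun p' _ => ?_
      rw [Finset.mul_sum]
      refine Finset.sum_congr rfl fun p _ => ?_
      rw [xi_cons, xi_nil, mul_one]
      simp only [List.map_cons, List.map_nil]
      have e2 : T (([a, p'] : List Ω) : Multiset Ω) = T (a ::ₘ p' ::ₘ 0 : Multiset Ω) := rfl
      rw [e2]
      ring
    simp only [e1]
    refine ((hT.op l l').right hw0 _).trans ?_
    refine mul_le_mul_of_nonneg_left ?_ (sq_nonneg _)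
    have h2 := (hξ l').swap.right zero_le_one fun p => W (q ++ [p]) u
    rwa [one_pow, one_mul] at h2
  · refine le_trans ?_ (mul_le_mul_of_nonneg_right (hT.wT_sq l h h1) (sq_nonneg _))
    rw [← tsum4]
    refine Finset.sum_le_sum fun x _ => Finset.sum_le_sum fun t _ => Finset.sum_le_sum fun u _ => ?_
    have h2 := sum_xiV_sq hξ σ (fun v => W (x.1 ++ v) u) (fun v => T ↑(x.2 :: (t ++ v)))
    refine le_trans (le_of_eq ?_) h2
    congr 1
    exact Finset.sum_congr rfl fun E _ => by ring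

theorem tsum3 (l : Λ) (r σ m : List Λ) (W : List Ω → List Ω → ℝ) (T : Multiset Ω → ℝ) :
    ∑ a ∈ V l, ∑ t ∈ Lt V r, ∑ u ∈ Lt V m,
      (∑ v ∈ Lt V σ, T ↑(a :: (t ++ v)) ^ 2) * (∑ v ∈ Lt V σ, W u v ^ 2) =
      (∑ ω ∈ Lt V (l :: (r ++ σ)), T (ω : Multiset Ω) ^ 2) * nt V m σ W ^ 2 := by
  rw [nt_sq, sum_Lt_cons]
  simp only [sum_Lt_append]
  rw [Finset.sum_mul]
  refine Finset.sum_congr rfl fun a _ => ?_
  rw [Finset.sum_mul]
  refine Finset.sum_congr rfl fun t _ => ?_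
  rw [Finset.mul_sum]

theorem tcontr_left {ξ : Ω → Ω → ℝ} (hξ : CV V ξ) {b0 : ℕ} {T : Multiset Ω → ℝ}
    (hT : BdT V b0 y κ N T) (hy : ∀ l, 1 ≤ y l) (hκ : ∀ l, 0 ≤ κ l) (hN0 : ∀ l m, 0 ≤ N l m)
    {r σ m : List Λ} (l : Λ) (h : 1 + r.length + σ.length ≤ b0)
    (W : List Ω → List Ω → ℝ) :
    M3 V (V l) r m (fun a t u => ∑ E ∈ Lt (VV V) σ,
      xi ξ E * T ↑(a :: (t ++ E.map Prod.fst)) * W u (E.map Prod.snd)) ≤
      wT y κ N l r σ * nt V m σ W := by
  have hw := wT_nonneg hy hκ hN0 l r σ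
  unfold M3
  rw [← Real.sqrt_sq (mul_nonneg hw (nt_nonneg _ _ _ _))]
  refine Real.sqrt_le_sqrt ?_
  rw [mul_pow]
  by_cases h1 : r = [] ∧ σ.length = 1
  · obtain ⟨rfl, h2⟩ := h1
    obtain ⟨l', rfl⟩ := List.length_eq_one_iff.1 h2
    have hw2 : wT y κ N l [] [l'] = y l * κ l' / y l' := rfl
    have hw0 : 0 ≤ y l * κ l' / y l' := hw
    rw [hw2, nt_sq]
    simp only [sum_Lt_nil, sum_Lt_cons, List.nil_append]
    rw [Finset.sum_comm, Finset.mul_sum]
    refine Finset.sum_le_sum fun u _ => ?_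
    have e1 : ∀ a : Ω, ∑ e ∈ VV V l', xi ξ [e] * T ↑(a :: List.map Prod.fst [e]) *
        W u (List.map Prod.snd [e]) =
        ∑ p ∈ V l', T ((a ::ₘ p ::ₘ 0 : Multiset Ω)) * ∑ p' ∈ V l', ξ p p' * W u [p'] := by
      intro a
      rw [VV, Finset.sum_product]
      refine Finset.sum_congr rfl fun p _ => ?_
      rw [Finset.mul_sum]
      refine Finset.sum_congr rfl fun p' _ => ?_
      rw [xi_cons, xi_nil, mul_one]
      simp only [List.map_cons, List.map_nil]
      have e2 : T (([a, p] : List Ω) : Multiset Ω) = T (a ::ₘ p ::ₘ 0 : Multiset Ω) := rfl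
      rw [e2]
      ring
    simp only [e1]
    refine ((hT.op l l').right hw0 _).trans ?_
    refine mul_le_mul_of_nonneg_left ?_ (sq_nonneg _)
    have h2 := (hξ l').right zero_le_one fun p' => W u [p']
    rwa [one_pow, one_mul] at h2
  · refine le_trans ?_ (mul_le_mul_of_nonneg_right (hT.wT_sq l h h1) (sq_nonneg _))
    rw [← tsum3]
    refine Finset.sum_le_sum fun a _ => Finset.sum_le_sum fun t _ => Finset.sum_le_sum fun u _ => ?_
    exact sum_xiV_sq hξ σ (fun v => T ↑(a :: (t ++ v))) (fun v => W u v)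

end

/-- The number of choices. -/
theorem S_S_fact (δ n : List Λ) (A : ℕ) (h : n.length + δ.length ≤ A) (c : ℝ) (hc : 0 ≤ c) :
    S δ (fun σ _ => S n fun r _ => ((A - (r.length + σ.length)).factorial : ℝ) * c) ≤
      ((A + 1).factorial : ℝ) * c := by
  simp only [S_mul_right]
  refine mul_le_mul_of_nonneg_right ?_ hc
  have h1 : S δ (fun σ _ => S n fun r _ => ((A - (r.length + σ.length)).factorial : ℝ)) =
      Bn δ.length fun s => Bn n.length fun r => ((A - (r + s)).factorial : ℝ) := by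
    have h2 : ∀ σ : List Λ, S n (fun r _ => ((A - (r.length + σ.length)).factorial : ℝ)) =
        Bn n.length fun r => ((A - (r + σ.length)).factorial : ℝ) := fun σ =>
      S_len n fun r => ((A - (r + σ.length)).factorial : ℝ)
    simp only [h2]
    exact S_len δ fun s => Bn n.length fun r => ((A - (r + s)).factorial : ℝ)
  rw [h1, Bn_Bn δ.length n.length fun j => ((A - j).factorial : ℝ)]
  exact Bn_fact h

/-- The main estimate. -/
theorem nt_U {V : Λ → Finset Ω} {y κ : Λ → ℝ} {N : Λ → Λ → ℝ} {ξ : Ω → Ω → ℝ} (hξ : CV V ξ)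
    {b0 : ℕ} {T T' : Multiset Ω → ℝ}
    (hT : BdT V b0 y κ N T) (hT' : BdT V b0 y κ N T') (hy : ∀ l, 1 ≤ y l) (hκ : ∀ l, 0 ≤ κ l)
    (hκ1 : ∀ l, κ l ≤ 1) (hN0 : ∀ l m, 0 ≤ N l m) (hN : ∀ l m, N l m ≤ y l * y m) (k : ℕ) :
    ∀ δ o o' : List Λ, o.length + δ.length ≤ b0 → o'.length + δ.length ≤ b0 →
      nt V o o' (Ut V ξ T T' k δ) ≤
        ((o.length + o'.length + 2 * δ.length).factorial : ℝ) * (pr y o * pr y o' * pr κ δ) := by
  have hy0 : ∀ l, 0 ≤ y l := fun l => by linarith [hy l]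
  have hyp : ∀ τ, 0 ≤ pr y τ := pr_nonneg hy0
  have hκp : ∀ τ, 0 ≤ pr κ τ := pr_nonneg hκ
  induction k with
  | zero =>
    intro δ o o' _ _
    have : nt V o o' (Ut V ξ T T' 0 δ) = 0 := by simp [nt, Ut]
    rw [this]
    have := hyp o
    have := hyp o'
    have := hκp δ
    positivity
  | succ k ih =>
    intro δ o o' ho ho'
    -- the common end of the two main cases
    have fin : ∀ (o : List Λ) (l : Λ) (n : List Λ) (G : List Λ → List Λ → List Λ → List Λ → ℝ),
        (∀ σ ρ r u, (σ ++ ρ).Perm δ → (r ++ u).Perm n → G σ ρ r u ≤ wT y κ N l r σ *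
        (((o.length + σ.length + u.length + 2 * ρ.length).factorial : ℝ) *
          (pr y o * pr y σ * pr y u * pr κ ρ))) →
        S δ (fun σ ρ => S n fun r u => G σ ρ r u) ≤
          ((o.length + (l :: n).length + 2 * δ.length).factorial : ℝ) *
            (pr y o * pr y (l :: n) * pr κ δ) := by
      intro o l n G hG
      have h1 : S δ (fun σ ρ => S n fun r u => G σ ρ r u) ≤
          S δ (fun σ _ => S n fun r _ =>
            ((o.length + n.length + 2 * δ.length - (r.length + σ.length)).factorial : ℝ) *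
            (pr y o * pr y (l :: n) * pr κ δ)) := by
        refine S_mono fun σ ρ hσ => S_mono fun r u hr => (hG σ ρ r u hσ hr).trans ?_
        have l1 := S_length1 hσ
        have l2 := S_length1 hr
        rw [show o.length + σ.length + u.length + 2 * ρ.length =
          o.length + n.length + 2 * δ.length - (r.length + σ.length) by omega, mul_left_comm]
        refine mul_le_mul_of_nonneg_left ?_ (Nat.cast_nonneg _)
        have h3 := wT_le hy hκ hκ1 hN l r σ
        rw [pr_cons, ← pr_perm y hr, ← pr_perm κ hσ, pr_append, pr_append]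
        calc wT y κ N l r σ * (pr y o * pr y σ * pr y u * pr κ ρ) =
            (wT y κ N l r σ * pr y σ) * (pr y o * pr y u * pr κ ρ) := by ring
          _ ≤ (y l * pr y r * pr κ σ) * (pr y o * pr y u * pr κ ρ) :=
            mul_le_mul_of_nonneg_right h3
              (mul_nonneg (mul_nonneg (hyp _) (hyp _)) (hκp _))
          _ = _ := by ring
      refine h1.trans ((S_S_fact δ n _ (by omega) _
        (mul_nonneg (mul_nonneg (hyp _) (hyp _)) (hκp _))).trans_eq ?_)
      congr 3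
      simp only [List.length_cons]
      ring
    rcases o' with _ | ⟨l, n⟩
    · rcases o with _ | ⟨l, n⟩
      · unfold nt
        simp only [sum_Lt_nil]
        rcases δ with _ | ⟨d, δ⟩
        · simp [Ut]
        · simp only [Ut]
          rw [zero_pow two_ne_zero, Real.sqrt_zero]
          have := hκp (d :: δ)
          have h2 := hyp ([] : List Λ)
          positivity
      · have e1 : nt V (l :: n) [] (Ut V ξ T T' (k + 1) δ) = M2 V (V l) n (fun a x =>
            S δ fun σ ρ => S x fun t u => ∑ E ∈ Lt (VV V) σ,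
              xi ξ E * T ↑(a :: (t ++ E.map Prod.fst)) *
                Ut V ξ T T' k ρ u (E.map Prod.snd)) := by
          unfold nt M2
          simp only [sum_Lt_nil, sum_Lt_cons, Ut, S_sum]
        rw [e1]
        refine (M2_S _ _ _ _).trans ?_
        refine (S_mono fun σ ρ _ => M2_split n _ _).trans ?_
        have := fin [] l n (fun σ ρ r u => M3 V (V l) r u fun a t u' =>
          ∑ E ∈ Lt (VV V) σ, xi ξ E * T ↑(a :: (t ++ E.map Prod.fst)) *
            Ut V ξ T T' k ρ u' (E.map Prod.snd)) (fun σ ρ r u hσ hr => by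
          have l1 := S_length1 hσ
          have l2 := S_length1 hr
          simp only [List.length_cons, List.length_nil] at ho ho'
          refine (tcontr_left hξ hT hy hκ hN0 l (by omega) _).trans ?_
          refine mul_le_mul_of_nonneg_left ?_ (wT_nonneg hy hκ hN0 l r σ)
          refine (ih ρ u σ (by omega) (by omega)).trans_eq ?_
          rw [show u.length + σ.length + 2 * ρ.length =
            ([] : List Λ).length + σ.length + u.length + 2 * ρ.length by
              rw [List.length_nil]; ring, pr_nil]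
          ring)
        refine this.trans_eq ?_
        simp only [List.length_nil, List.length_cons, pr_nil]
        rw [show 0 + (n.length + 1) + 2 * δ.length = n.length + 1 + 0 + 2 * δ.length by ring]
        ring
    · have e1 : nt V o (l :: n) (Ut V ξ T T' (k + 1) δ) = M2 V (Lt V o ×ˢ V l) n
          (fun x x' => S δ fun σ ρ => S x' fun t u =>
            ∑ E ∈ Lt (VV V) σ, xi ξ E * T' ↑(x.2 :: (t ++ E.map Prod.snd)) *
              Ut V ξ T T' k ρ (x.1 ++ E.map Prod.fst) u) := by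
        unfold nt M2
        rw [Finset.sum_product]
        simp only [sum_Lt_cons, Ut, S_sum]
      rw [e1]
      refine (M2_S _ _ _ _).trans ?_
      refine (S_mono fun σ ρ _ => M2_split n _ _).trans ?_
      exact fin o l n (fun σ ρ r u => M3 V (Lt V o ×ˢ V l) r u fun x t u' =>
        ∑ E ∈ Lt (VV V) σ, xi ξ E * T' ↑(x.2 :: (t ++ E.map Prod.snd)) *
          Ut V ξ T T' k ρ (x.1 ++ E.map Prod.fst) u') (fun σ ρ r u hσ hr => by
        have l1 := S_length1 hσ
        have l2 := S_length1 hr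
        simp only [List.length_cons] at ho'
        refine (tcontr_right hξ hT' hy hκ hN0 l (by omega) _).trans ?_
        refine mul_le_mul_of_nonneg_left ?_ (wT_nonneg hy hκ hN0 l r σ)
        refine (ih ρ (o ++ σ) u (by rw [List.length_append]; omega) (by omega)).trans_eq ?_
        rw [List.length_append, pr_append])

end Vale.Agent.P042.H284
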