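import Vale.Agent.P042.H159.Rec

/-!
# Typed block C: lists of labels with prescribed types, splittings
-/

open Finset

set_option linter.unusedSectionVars false

namespace Vale.Agent.P042.H284

open Vale.Agent.P042.H159

universe u v w

section lists

variable {α : Type u} {Λ : Type v}

/-- The lists with entries in prescribed finite sets. -/
def Lt (P : Λ → Finset α) : List Λ → Finset (List α)
  | [] => {[]}
  | l :: τ => (P l ×ˢ Lt P τ).map ⟨fun z => z.1 :: z.2, fun z w h => by
      simpa [Prod.ext_iff] using h⟩

theorem sum_Lt_nil {β : Type*} [AddCommMonoid β] (P : Λ → Finset α) (f : List α → β) :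
    ∑ l ∈ Lt P [], f l = f [] := by
  simp [Lt]

theorem sum_Lt_cons {β : Type*} [AddCommMonoid β] (P : Λ → Finset α) (l : Λ) (τ : List Λ)
    (f : List α → β) : ∑ ω ∈ Lt P (l :: τ), f ω = ∑ a ∈ P l, ∑ ω ∈ Lt P τ, f (a :: ω) := by
  rw [Lt, Finset.sum_map, Finset.sum_product]
  rfl

theorem length_of_mem_Lt {P : Λ → Finset α} {τ : List Λ} {ω : List α} (h : ω ∈ Lt P τ) :
    ω.length = τ.length := by
  induction τ generalizing ω with
  | nil =>
    have : ω = [] := by simpa [Lt] using h
    rw [this, List.length_nil, List.length_nil]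
  | cons l τ ih =>
    obtain ⟨z, hz, h2⟩ := Finset.mem_map.1 h
    obtain ⟨-, h3⟩ := Finset.mem_product.1 hz
    have h4 : z.1 :: z.2 = ω := h2
    rw [← h4, List.length_cons, List.length_cons, ih h3]

theorem sum_Lt_append {β : Type*} [AddCommMonoid β] (P : Λ → Finset α) (τ τ' : List Λ)
    (f : List α → β) :
    ∑ l ∈ Lt P (τ ++ τ'), f l = ∑ l ∈ Lt P τ, ∑ l' ∈ Lt P τ', f (l ++ l') := by
  induction τ generalizing f with
  | nil => simp [sum_Lt_nil]
  | cons t τ ih =>
    rw [List.cons_append, sum_Lt_cons, sum_Lt_cons]
    exact Finset.sum_congr rfl fun a _ => ih _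

theorem sum_Lt_perm {β : Type*} [AddCommMonoid β] (P : Λ → Finset α) {τ τ' : List Λ}
    (h : τ.Perm τ') (f : List α → β) (hf : ∀ t u : List α, t.Perm u → f t = f u) :
    ∑ l ∈ Lt P τ, f l = ∑ l ∈ Lt P τ', f l := by
  induction h generalizing f with
  | nil => rfl
  | cons x _ ih =>
    rw [sum_Lt_cons, sum_Lt_cons]
    exact Finset.sum_congr rfl fun a _ => ih _ fun t u htu => hf _ _ (htu.cons a)
  | swap x y l =>
    rw [sum_Lt_cons, sum_Lt_cons]
    simp only [sum_Lt_cons]
    rw [Finset.sum_comm]
    refine Finset.sum_congr rfl fun a _ => Finset.sum_congr rfl fun b _ =>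
      Finset.sum_congr rfl fun u _ => hf _ _ (List.Perm.swap _ _ _)
  | trans _ _ ih1 ih2 => exact (ih1 f hf).trans (ih2 f hf)

end lists

section split

variable {α : Type u} {R : Type*} [CommSemiring R]

theorem S_assoc (l : List α) (φ : List α → List α → List α → R) :
    S l (fun t u => S u fun u1 u2 => φ t u1 u2) = S l fun t u => S t fun t1 t2 => φ t1 t2 u := by
  induction l generalizing φ with
  | nil => rfl
  | cons a l ih =>
    simp only [S]
    rw [S_add, S_add, ih, ih, ih]
    ring

theorem S_unit (l : List α) (f : List α → R) :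
    S l (fun t u => (match t with | [] => 1 | _ :: _ => 0) * f u) = f l := by
  induction l generalizing f with
  | nil => simp [S]
  | cons a l ih =>
    rw [S]
    have h1 : S l (fun t u => (match (a :: t) with | [] => (1 : R) | _ :: _ => 0) * f u) = 0 := by
      simp only [zero_mul]
      exact S_zero l
    rw [h1, zero_add]
    exact ih fun u => f (a :: u)

/-- Sum over typed lists of a splitting sum. -/
theorem sum_Lt_S {Λ : Type v} (P : Λ → Finset α) (τ : List Λ) (φ : List α → List α → R) :
    ∑ l ∈ Lt P τ, S l φ = S τ fun σ ρ => ∑ t ∈ Lt P σ, ∑ u ∈ Lt P ρ, φ t u := by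
  induction τ generalizing φ with
  | nil => simp [sum_Lt_nil, S]
  | cons l τ ih =>
    rw [sum_Lt_cons]
    simp only [S, Finset.sum_add_distrib]
    congr 1
    · simp only [ih]
      rw [← S_sum]
      refine S_congr fun t u _ => ?_
      rw [sum_Lt_cons]
    · simp only [ih]
      rw [← S_sum]
      refine S_congr fun t u _ => ?_
      rw [Finset.sum_comm]
      refine Finset.sum_congr rfl fun x _ => ?_
      rw [sum_Lt_cons]

end split

section real

variable {α : Type u}

theorem S_mono {l : List α} {φ ψ : List α → List α → ℝ}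
    (h : ∀ t u, (t ++ u).Perm l → φ t u ≤ ψ t u) : S l φ ≤ S l ψ := by
  induction l generalizing φ ψ with
  | nil => exact h [] [] (List.Perm.refl _)
  | cons a l ih =>
    unfold S
    refine add_le_add (ih fun t u htu => h (a :: t) u (htu.cons a))
      (ih fun t u htu => h t (a :: u) ?_)
    exact List.perm_middle.trans (htu.cons a)

theorem S_mul_right (l : List α) (c : ℝ) (φ : List α → List α → ℝ) :
    S l (fun t u => φ t u * c) = S l φ * c := by
  rw [mul_comm, ← S_mul]
  exact S_congr fun t u _ => by ring

theorem S_nonneg {l : List α} {φ : List α → List α → ℝ} (h : ∀ t u, 0 ≤ φ t u) : 0 ≤ S l φ := by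
  rw [← S_zero l]
  exact S_mono fun t u _ => h t u

/-- The number of splittings with given length. -/
theorem S_len (l : List α) (f : ℕ → ℝ) :
    S l (fun t _ => f t.length) = ∑ r ∈ range (l.length + 1), (l.length.choose r : ℝ) * f r := by
  induction l generalizing f with
  | nil => simp [S]
  | cons a l ih =>
    rw [S, List.length_cons, pascal]
    have h1 := ih fun r => f (r + 1)
    have h2 := ih f
    rw [← h1, ← h2]
    rfl

theorem abs_S_le (l : List α) (φ : List α → List α → ℝ) : |S l φ| ≤ S l fun t u => |φ t u| := by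
  induction l generalizing φ with
  | nil => exact le_rfl
  | cons a l ih =>
    unfold S
    exact (abs_add_le _ _).trans (add_le_add (ih _) (ih _))

/-- Minkowski's inequality for splittings. -/
theorem n2_S {β : Type w} (X : Finset β) (l : List α) (ψ : List α → List α → β → ℝ) :
    n2 X (fun x => S l fun t u => ψ t u x) ≤ S l fun t u => n2 X (ψ t u) := by
  induction l generalizing ψ with
  | nil => exact le_rfl
  | cons a l ih =>
    simp only [S]
    exact (n2_add X _ _).trans (add_le_add (ih _) (ih _))

end real

end Vale.Agent.P042.H284
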