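import Vale.Agent.P042.H284.TLst

/-!
# Typed block C: norms of functions of typed lists
-/

open Finset

set_option linter.unusedSectionVars false

namespace Vale.Agent.P042.H284

open Vale.Agent.P042.H159

universe u v

section split

variable {α β : Type u} {Λ : Type v} (V : Λ → Finset α)

/-- The `ℓ²` norm of a function with a parameter and a list. -/
noncomputable def M2 (P : Finset β) (τ : List Λ) (ψ : β → List α → ℝ) : ℝ :=
  √(∑ p ∈ P, ∑ l ∈ Lt V τ, ψ p l ^ 2)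

/-- The `ℓ²` norm of a function with a parameter and two lists. -/
noncomputable def M3 (P : Finset β) (σ ρ : List Λ) (φ : β → List α → List α → ℝ) : ℝ :=
  √(∑ p ∈ P, ∑ t ∈ Lt V σ, ∑ u ∈ Lt V ρ, φ p t u ^ 2)

variable {V}

theorem M2_eq (P : Finset β) (τ : List Λ) (ψ : β → List α → ℝ) :
    M2 V P τ ψ = n2 (P ×ˢ Lt V τ) fun z => ψ z.1 z.2 := by
  unfold M2 n2
  rw [Finset.sum_product]

theorem M2_S {γ : Type*} (l : List γ) (P : Finset β) (τ : List Λ)
    (ψ : List γ → List γ → β → List α → ℝ) :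
    M2 V P τ (fun p x => S l fun t u => ψ t u p x) ≤ S l fun t u => M2 V P τ (ψ t u) := by
  simp only [M2_eq]
  exact n2_S _ _ _

theorem M2_split (τ : List Λ) (P : Finset β) (φ : β → List α → List α → ℝ) :
    M2 V P τ (fun p l => S l (φ p)) ≤ S τ fun σ ρ => M3 V P σ ρ φ := by
  induction τ generalizing β with
  | nil =>
    simp [M2, M3, sum_Lt_nil, S]
  | cons t τ ih =>
    rw [S]
    have h1 : M2 V P (t :: τ) (fun p l => S l (φ p)) =
        n2 ((P ×ˢ V t) ×ˢ Lt V τ) (fun z =>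
          S z.2 (fun t u => φ z.1.1 (z.1.2 :: t) u) + S z.2 (fun t u => φ z.1.1 t (z.1.2 :: u))) := by
      unfold M2 n2
      simp only [Finset.sum_product, sum_Lt_cons]
      rfl
    rw [h1]
    refine (n2_add _ _ _).trans (add_le_add ?_ ?_)
    · have h2 := ih (P ×ˢ V t) fun x t u => φ x.1 (x.2 :: t) u
      rw [M2_eq] at h2
      refine h2.trans_eq (S_congr fun σ ρ _ => ?_)
      unfold M3
      congr 1
      rw [Finset.sum_product]
      refine Finset.sum_congr rfl fun p _ => ?_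
      rw [sum_Lt_cons]
    · have h2 := ih (P ×ˢ V t) fun x t u => φ x.1 t (x.2 :: u)
      rw [M2_eq] at h2
      refine h2.trans_eq (S_congr fun σ ρ _ => ?_)
      unfold M3
      congr 1
      rw [Finset.sum_product]
      refine Finset.sum_congr rfl fun p _ => ?_
      simp only [sum_Lt_cons]
      rw [Finset.sum_comm]

end split

section op

variable {Ω : Type u} [Fintype Ω] {Λ : Type v}

/-- A bilinear form on two blocks is bounded by `w`. -/
def BV (w : ℝ) (X Y : Finset Ω) (ζ : Ω → Ω → ℝ) : Prop :=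
  ∀ u v : Ω → ℝ, |∑ p ∈ X, ∑ q ∈ Y, u p * ζ p q * v q| ≤
    w * √(∑ p ∈ X, u p ^ 2) * √(∑ q ∈ Y, v q ^ 2)

theorem BV.right {w : ℝ} {X Y : Finset Ω} {ζ : Ω → Ω → ℝ} (h : BV w X Y ζ) (hw : 0 ≤ w)
    (v : Ω → ℝ) : ∑ p ∈ X, (∑ q ∈ Y, ζ p q * v q) ^ 2 ≤ w ^ 2 * ∑ q ∈ Y, v q ^ 2 := by
  have h1 := h (fun p => ∑ q ∈ Y, ζ p q * v q) v
  have h2 : ∑ p ∈ X, ∑ q ∈ Y, (∑ q ∈ Y, ζ p q * v q) * ζ p q * v q =
      ∑ p ∈ X, (∑ q ∈ Y, ζ p q * v q) ^ 2 := by
    refine Finset.sum_congr rfl fun p _ => ?_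
    rw [sq, Finset.mul_sum]
    exact Finset.sum_congr rfl fun q _ => by ring
  rw [h2, abs_of_nonneg (Finset.sum_nonneg fun _ _ => sq_nonneg _)] at h1
  set a := ∑ p ∈ X, (∑ q ∈ Y, ζ p q * v q) ^ 2 with ha
  have ha0 : 0 ≤ a := Finset.sum_nonneg fun _ _ => sq_nonneg _
  have hb0 : 0 ≤ ∑ q ∈ Y, v q ^ 2 := Finset.sum_nonneg fun _ _ => sq_nonneg _
  have h3 : √a ≤ w * √(∑ q ∈ Y, v q ^ 2) := by
    rcases eq_or_lt_of_le (Real.sqrt_nonneg a) with h0 | h0
    · rw [← h0]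
      positivity
    · have h4 : √a * √a ≤ (w * √(∑ q ∈ Y, v q ^ 2)) * √a := by
        rw [Real.mul_self_sqrt ha0]
        calc a ≤ w * √a * √(∑ q ∈ Y, v q ^ 2) := h1
          _ = _ := by ring
      exact le_of_mul_le_mul_right h4 h0
  calc a = √a ^ 2 := (Real.sq_sqrt ha0).symm
    _ ≤ (w * √(∑ q ∈ Y, v q ^ 2)) ^ 2 := pow_le_pow_left₀ (Real.sqrt_nonneg _) h3 2
    _ = _ := by rw [mul_pow, Real.sq_sqrt hb0]

theorem BV.swap {w : ℝ} {X Y : Finset Ω} {ζ : Ω → Ω → ℝ} (h : BV w X Y ζ) :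
    BV w Y X fun p q => ζ q p := fun u v => by
  have h1 := h v u
  rw [Finset.sum_comm] at h1
  calc |∑ p ∈ Y, ∑ q ∈ X, u p * ζ q p * v q| = |∑ p ∈ Y, ∑ q ∈ X, v q * ζ q p * u p| := by
        congr 1
        exact Finset.sum_congr rfl fun p _ => Finset.sum_congr rfl fun q _ => by ring
    _ ≤ _ := h1
    _ = _ := by ring

variable (V : Λ → Finset Ω) (ξ : Ω → Ω → ℝ)

/-- `ξ` is a contraction on every block. -/
def CV : Prop := ∀ l, BV 1 (V l) (V l) ξ

/-- The edges of a type. -/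
def VV (l : Λ) : Finset (Ω × Ω) := V l ×ˢ V l

variable {V ξ}

/-- The tensor power of `ξ`. -/
def opt (V : Λ → Finset Ω) (ξ : Ω → Ω → ℝ) : List Λ → List Ω → (List Ω → ℝ) → ℝ
  | l :: τ, p :: v, B => ∑ p' ∈ V l, ξ p p' * opt V ξ τ v (fun v' => B (p' :: v'))
  | _, _, B => B []

theorem sum_opt (τ : List Λ) (A B : List Ω → ℝ) :
    ∑ E ∈ Lt (VV V) τ, xi ξ E * A (E.map Prod.fst) * B (E.map Prod.snd) =
      ∑ v ∈ Lt V τ, A v * opt V ξ τ v B := by
  induction τ generalizing A B with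
  | nil => simp [sum_Lt_nil, xi_nil, opt]
  | cons l τ ih =>
    rw [sum_Lt_cons, sum_Lt_cons, VV, Finset.sum_product]
    refine Finset.sum_congr rfl fun p _ => ?_
    have h1 : ∀ p' : Ω, ∑ l ∈ Lt (VV V) τ, xi ξ ((p, p') :: l) * A (((p, p') :: l).map Prod.fst) *
        B (((p, p') :: l).map Prod.snd) =
        ∑ v ∈ Lt V τ, A (p :: v) * (ξ p p' * opt V ξ τ v (fun v' => B (p' :: v'))) := fun p' => by
      have h2 := ih (fun v => ξ p p' * A (p :: v)) (fun v => B (p' :: v))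
      refine Eq.trans (Finset.sum_congr rfl fun E _ => ?_)
        (h2.trans (Finset.sum_congr rfl fun v _ => ?_))
      · rw [xi_cons]
        simp only [List.map_cons]
        ring
      · ring
    simp only [h1]
    rw [Finset.sum_comm]
    refine Finset.sum_congr rfl fun v _ => ?_
    rw [← Finset.mul_sum]
    rfl

theorem sum_opt_sq (h : CV V ξ) (τ : List Λ) (B : List Ω → ℝ) :
    ∑ v ∈ Lt V τ, opt V ξ τ v B ^ 2 ≤ ∑ v ∈ Lt V τ, B v ^ 2 := by
  induction τ generalizing B with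
  | nil =>
    rw [sum_Lt_nil, sum_Lt_nil]
    exact le_rfl
  | cons l τ ih =>
    rw [sum_Lt_cons, sum_Lt_cons, Finset.sum_comm]
    have h1 : ∀ v, ∑ p ∈ V l, opt V ξ (l :: τ) (p :: v) B ^ 2 ≤
        ∑ p' ∈ V l, opt V ξ τ v (fun v' => B (p' :: v')) ^ 2 := fun v => by
      have := (h l).right zero_le_one fun p' => opt V ξ τ v (fun v' => B (p' :: v'))
      rw [one_pow, one_mul] at this
      exact this
    refine (Finset.sum_le_sum fun v _ => h1 v).trans ?_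
    rw [Finset.sum_comm]
    exact Finset.sum_le_sum fun p' _ => ih _

/-- The tensor powers of `ξ` are contractions. -/
theorem sum_xiV_sq (h : CV V ξ) (τ : List Λ) (A B : List Ω → ℝ) :
    (∑ E ∈ Lt (VV V) τ, xi ξ E * A (E.map Prod.fst) * B (E.map Prod.snd)) ^ 2 ≤
      (∑ v ∈ Lt V τ, A v ^ 2) * ∑ v ∈ Lt V τ, B v ^ 2 := by
  rw [sum_opt]
  refine (Finset.sum_mul_sq_le_sq_mul_sq _ _ _).trans ?_
  exact mul_le_mul_of_nonneg_left (sum_opt_sq h τ B) (Finset.sum_nonneg fun _ _ => sq_nonneg _)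

end op

end Vale.Agent.P042.H284
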