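import Vale.Agent.P042.H284.TNrm

/-!
# Typed block C: the exploration recursion
-/

open Finset

set_option linter.unusedSectionVars false

namespace Vale.Agent.P042.H284

open Vale.Agent.P042.H159 (S MC xi xi_nil xi_cons xi_append xi_perm S_congr S_append S_map S_comm
  S_mul S_zero S_sum S_add MC.list S_length)

universe u v

variable {Ω : Type u} [Fintype Ω] {Λ : Type v}

variable (V : Λ → Finset Ω) (ξ : Ω → Ω → ℝ) (M T M' T' : Multiset Ω → ℝ)

/-- The sum over further edges of types `δ`. -/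
noncomputable def Rt (δ : List Λ) (q q' : List Ω) : ℝ :=
  ∑ E ∈ Lt (VV V) δ, xi ξ E * M ↑(q ++ E.map Prod.fst) * M' ↑(q' ++ E.map Prod.snd)

variable {M T M' T'}

theorem Rt_perm {δ δ' : List Λ} (hδ : δ.Perm δ') (q q' : List Ω) :
    Rt V ξ M M' δ q q' = Rt V ξ M M' δ' q q' := by
  unfold Rt
  refine sum_Lt_perm _ hδ _ fun t u htu => ?_
  rw [xi_perm ξ htu, Multiset.coe_eq_coe.2 ((htu.map Prod.fst).append_left q),
    Multiset.coe_eq_coe.2 ((htu.map Prod.snd).append_left q')]

/-- One step on the right. -/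
theorem Rt_right (hM' : MC M' T') (δ : List Λ) (q : List Ω) (a : Ω) (q' : List Ω) :
    Rt V ξ M M' δ q (a :: q') = S δ fun σ ρ => ∑ E ∈ Lt (VV V) σ,
      S q' fun t u => xi ξ E * T' ↑(a :: (t ++ E.map Prod.snd)) *
        Rt V ξ M M' ρ (q ++ E.map Prod.fst) u := by
  have h1 : ∀ E : List (Ω × Ω), xi ξ E * M ↑(q ++ E.map Prod.fst) *
      M' ↑((a :: q') ++ E.map Prod.snd) = S E fun E1 E2 => S q' fun t u =>
        xi ξ E1 * T' ↑(a :: (t ++ E1.map Prod.snd)) *
          (xi ξ E2 * M ↑((q ++ E1.map Prod.fst) ++ E2.map Prod.fst) *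
            M' ↑(u ++ E2.map Prod.snd)) := by
    intro E
    rw [List.cons_append, hM'.list, S_append]
    simp only [S_map]
    rw [S_comm, ← S_mul]
    refine S_congr fun E1 E2 hE => ?_
    rw [← S_mul]
    refine S_congr fun t u _ => ?_
    have e1 : xi ξ E = xi ξ E1 * xi ξ E2 := by rw [← xi_append, xi_perm ξ hE]
    have e2 : M ↑(q ++ E.map Prod.fst) = M ↑((q ++ E1.map Prod.fst) ++ E2.map Prod.fst) := by
      congr 1
      rw [Multiset.coe_eq_coe, List.append_assoc, ← List.map_append]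
      exact ((hE.map _).symm).append_left _
    rw [e1, e2]
    ring
  unfold Rt
  simp only [h1]
  rw [sum_Lt_S]
  refine S_congr fun σ ρ _ => ?_
  refine Finset.sum_congr rfl fun E1 _ => ?_
  rw [← S_sum]
  refine S_congr fun t u _ => ?_
  rw [Finset.mul_sum]

/-- One step on the left. -/
theorem Rt_left (hM : MC M T) (δ : List Λ) (a : Ω) (q q' : List Ω) :
    Rt V ξ M M' δ (a :: q) q' = S δ fun σ ρ => ∑ E ∈ Lt (VV V) σ,
      S q fun t u => xi ξ E * T ↑(a :: (t ++ E.map Prod.fst)) *
        Rt V ξ M M' ρ u (q' ++ E.map Prod.snd) := by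
  have h1 : ∀ E : List (Ω × Ω), xi ξ E * M ↑((a :: q) ++ E.map Prod.fst) *
      M' ↑(q' ++ E.map Prod.snd) = S E fun E1 E2 => S q fun t u =>
        xi ξ E1 * T ↑(a :: (t ++ E1.map Prod.fst)) *
          (xi ξ E2 * M ↑(u ++ E2.map Prod.fst) *
            M' ↑((q' ++ E1.map Prod.snd) ++ E2.map Prod.snd)) := by
    intro E
    rw [List.cons_append, hM.list, S_append]
    simp only [S_map]
    rw [S_comm, mul_comm (xi ξ E), mul_assoc, mul_comm, ← S_mul]
    refine S_congr fun E1 E2 hE => ?_
    rw [← S_mul]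
    refine S_congr fun t u _ => ?_
    have e1 : xi ξ E = xi ξ E1 * xi ξ E2 := by rw [← xi_append, xi_perm ξ hE]
    have e2 : M' ↑(q' ++ E.map Prod.snd) = M' ↑((q' ++ E1.map Prod.snd) ++ E2.map Prod.snd) := by
      congr 1
      rw [Multiset.coe_eq_coe, List.append_assoc, ← List.map_append]
      exact ((hE.map _).symm).append_left _
    rw [e1, e2]
    ring
  unfold Rt
  simp only [h1]
  rw [sum_Lt_S]
  refine S_congr fun σ ρ _ => ?_
  refine Finset.sum_congr rfl fun E1 _ => ?_
  rw [← S_sum]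
  refine S_congr fun t u _ => ?_
  rw [Finset.mul_sum]

variable (T T') in
/-- The weights of the explored parts. -/
noncomputable def Ut : ℕ → List Λ → List Ω → List Ω → ℝ
  | 0, _, _, _ => 0
  | k + 1, δ, q, a :: q' => S δ fun σ ρ => ∑ E ∈ Lt (VV V) σ,
      S q' fun t u => xi ξ E * T' ↑(a :: (t ++ E.map Prod.snd)) * Ut k ρ (q ++ E.map Prod.fst) u
  | k + 1, δ, a :: q, [] => S δ fun σ ρ => ∑ E ∈ Lt (VV V) σ,
      S q fun t u => xi ξ E * T ↑(a :: (t ++ E.map Prod.fst)) * Ut k ρ u (E.map Prod.snd)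
  | _ + 1, [], [], [] => 1
  | _ + 1, _ :: _, [], [] => 0

theorem S_length1 {α : Type*} {l t u : List α} (h : (t ++ u).Perm l) :
    t.length + u.length = l.length := by
  have := h.length_eq
  rwa [List.length_append] at this

/-- The exploration identity. -/
theorem Rt_eq (hM : MC M T) (hM' : MC M' T') (k : ℕ) : ∀ (δ : List Λ) (q q' : List Ω),
    2 * δ.length + q.length + q'.length < k →
    Rt V ξ M M' δ q q' = S δ fun σ ρ => Ut V ξ T T' k σ q q' * Rt V ξ M M' ρ [] [] := by
  induction k with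
  | zero => intro d q q' h; omega
  | succ k ih =>
    intro δ q q' hk
    rcases q' with _ | ⟨a, q'⟩
    · rcases q with _ | ⟨a, q⟩
      · rw [← S_unit δ fun ρ => Rt V ξ M M' ρ [] []]
        refine S_congr fun σ ρ _ => ?_
        rcases σ with _ | ⟨l, σ⟩ <;> simp [Ut]
      · rw [Rt_left V ξ hM]
        have h1 : ∀ σ ρ : List Λ, (σ ++ ρ).Perm δ → ∑ E ∈ Lt (VV V) σ,
            S q (fun t u => xi ξ E * T ↑(a :: (t ++ E.map Prod.fst)) *
              Rt V ξ M M' ρ u ([] ++ E.map Prod.snd)) =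
            S ρ fun ρ1 ρ2 => (∑ E ∈ Lt (VV V) σ,
              S q fun t u => xi ξ E * T ↑(a :: (t ++ E.map Prod.fst)) *
                Ut V ξ T T' k ρ1 u (E.map Prod.snd)) * Rt V ξ M M' ρ2 [] [] := by
          intro σ ρ hσ
          have hl1 := S_length1 hσ
          simp only [Finset.sum_mul]
          rw [S_sum]
          refine Finset.sum_congr rfl fun E hE => ?_
          have hl : (E.map Prod.snd).length = σ.length := by
            rw [List.length_map, length_of_mem_Lt hE]
          have h2 : ∀ t u, (t ++ u).Perm q → xi ξ E * T ↑(a :: (t ++ E.map Prod.fst)) *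
              Rt V ξ M M' ρ u ([] ++ E.map Prod.snd) = S ρ fun ρ1 ρ2 =>
                (xi ξ E * T ↑(a :: (t ++ E.map Prod.fst)) *
                Ut V ξ T T' k ρ1 u (E.map Prod.snd)) * Rt V ξ M M' ρ2 [] [] := by
            intro t u htu
            have := S_length htu
            simp only [List.length_cons, List.length_nil] at hk
            rw [List.nil_append, ih ρ u (E.map Prod.snd) (by omega), ← S_mul]
            exact S_congr fun ρ1 ρ2 _ => by ring
          rw [S_congr h2, S_comm]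
          refine S_congr fun ρ1 ρ2 _ => ?_
          rw [S_mul_right]
        rw [S_congr h1]
        rw [S_assoc δ fun σ ρ1 ρ2 => (∑ E ∈ Lt (VV V) σ,
              S q fun t u => xi ξ E * T ↑(a :: (t ++ E.map Prod.fst)) *
                Ut V ξ T T' k ρ1 u (E.map Prod.snd)) * Rt V ξ M M' ρ2 [] []]
        refine S_congr fun σ ρ _ => ?_
        rw [S_mul_right]
        rfl
    · rw [Rt_right V ξ hM']
      have h1 : ∀ σ ρ : List Λ, (σ ++ ρ).Perm δ → ∑ E ∈ Lt (VV V) σ,
          S q' (fun t u => xi ξ E * T' ↑(a :: (t ++ E.map Prod.snd)) *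
            Rt V ξ M M' ρ (q ++ E.map Prod.fst) u) =
          S ρ fun ρ1 ρ2 => (∑ E ∈ Lt (VV V) σ,
            S q' fun t u => xi ξ E * T' ↑(a :: (t ++ E.map Prod.snd)) *
              Ut V ξ T T' k ρ1 (q ++ E.map Prod.fst) u) * Rt V ξ M M' ρ2 [] [] := by
        intro σ ρ hσ
        have hl1 := S_length1 hσ
        simp only [Finset.sum_mul]
        rw [S_sum]
        refine Finset.sum_congr rfl fun E hE => ?_
        have hl : (q ++ E.map Prod.fst).length = q.length + σ.length := by
          rw [List.length_append, List.length_map, length_of_mem_Lt hE]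
        have h2 : ∀ t u, (t ++ u).Perm q' → xi ξ E * T' ↑(a :: (t ++ E.map Prod.snd)) *
            Rt V ξ M M' ρ (q ++ E.map Prod.fst) u = S ρ fun ρ1 ρ2 =>
              (xi ξ E * T' ↑(a :: (t ++ E.map Prod.snd)) *
              Ut V ξ T T' k ρ1 (q ++ E.map Prod.fst) u) * Rt V ξ M M' ρ2 [] [] := by
          intro t u htu
          have := S_length htu
          simp only [List.length_cons] at hk
          rw [ih ρ (q ++ E.map Prod.fst) u (by omega), ← S_mul]
          exact S_congr fun ρ1 ρ2 _ => by ring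
        rw [S_congr h2, S_comm]
        refine S_congr fun ρ1 ρ2 _ => ?_
        rw [S_mul_right]
      rw [S_congr h1]
      rw [S_assoc δ fun σ ρ1 ρ2 => (∑ E ∈ Lt (VV V) σ,
            S q' fun t u => xi ξ E * T' ↑(a :: (t ++ E.map Prod.snd)) *
              Ut V ξ T T' k ρ1 (q ++ E.map Prod.fst) u) * Rt V ξ M M' ρ2 [] []]
      refine S_congr fun σ ρ _ => ?_
      rw [S_mul_right]
      rfl

end Vale.Agent.P042.H284
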